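import Vale.Agent.P312.CM

/-! The simulation algorithm as functions on numbers, and its membership in linear space. -/

namespace Vale.Agent.P312

variable {σ : Type}

/-- A one-tape machine in numeric form. -/
structure NM (σ : Type) where
  nq : ℕ
  G : ℕ
  q0 : ℕ
  dq : ℕ → ℕ
  ds : ℕ → ℕ
  dm : ℕ → ℕ
  hl : ℕ → ℕ
  φ : Option σ → ℕ
  sp_dq : SP σ dq
  sp_ds : SP σ ds
  sp_dm : SP σ dm
  sp_hl : SP σ hl
  q0_lt : q0 < nq
  φ_lt : ∀ o, φ o < G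
  dq_lt : ∀ q < nq, ∀ s < G, dq (q * G + s) < nq
  ds_lt : ∀ q < nq, ∀ s < G, ds (q * G + s) < G
  dm_le : ∀ n, dm n ≤ 2

/-- Context: input word, parameter `b`, budget `U`, offset. -/
abbrev X (σ : Type) := List σ × ℕ × ℕ × ℕ

def lg (b : ℕ) : ℕ := Nat.log 2 b + 1

theorem powT_min (U n : ℕ) (hU : 0 < U) : powT σ U 2 n = min (2 ^ n) U := by
  induction n with
  | zero => simp [powT, repT]; omega
  | succ n ih =>
    unfold powT repT at ih ⊢
    rw [rep_succ, ih, pow_succ]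
    show min (min (2 ^ n) U * 2) U = _
    omega

@[fun_prop] theorem sp_lg : SP σ lg := by
  have h1 : SP σ (fun n : ℕ =>
      rep n (fun _ q => if powT σ (n + 1) 2 (q + 1) ≤ n then q + 1 else q) 0) := by
    refine sp_rep_nat (by fun_prop) (by fun_prop) (by fun_prop) ⟨1, fun a _ _ i hi => ?_⟩
    have : ∀ i, rep i (fun _ q => if powT σ (a + 1) 2 (q + 1) ≤ a then q + 1 else q) 0 ≤ i := by
      intro i
      induction i with
      | zero => simp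
      | succ i ih => rw [rep_succ]; split_ifs <;> omega
    have := this i
    simp; omega
  refine (sp_add h1 (sp_const 1)).of_eq fun n => ?_
  rw [rep_count (p := fun q => powT σ (n + 1) 2 q ≤ n) (Nat.log 2 n), lg,
    min_eq_right (Nat.log_le_self 2 n)]
  intro q
  rw [powT_min _ _ (by omega)]
  rcases Nat.eq_zero_or_pos n with rfl | hn
  · simp
  · rw [Nat.le_log_iff_pow_le (by omega) (by omega)]; omega

theorem sp_prime : SP σ (fun n : ℕ => decide n.Prime) := by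
  have h1 : SP σ (fun n : ℕ => rep n (fun j u => if 2 ≤ j ∧ n % j = 0 then 1 else u) 0) := by
    refine sp_rep_nat (by fun_prop) (by fun_prop) (by fun_prop) ⟨1, fun a _ _ i hi => ?_⟩
    have : ∀ i, rep i (fun j u => if 2 ≤ j ∧ a % j = 0 then 1 else u) 0 ≤ 1 := by
      intro i
      induction i with
      | zero => simp
      | succ i ih => rw [rep_succ]; split_ifs <;> omega
    have := this i
    simp; omega
  have h2 : SP σ (fun n : ℕ => decide (2 ≤ n ∧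
      rep n (fun j u => if 2 ≤ j ∧ n % j = 0 then 1 else u) 0 = 0)) :=
    sp_and (by fun_prop) (sp_eq h1 (sp_const 0))
  refine h2.of_eq fun n => ?_
  have : ∀ i, rep i (fun j u => if 2 ≤ j ∧ n % j = 0 then 1 else u) 0 = 0 ↔
      ∀ j, 2 ≤ j → j < i → ¬ j ∣ n := by
    intro i
    induction i with
    | zero => simp
    | succ i ih =>
      rw [rep_succ]
      split_ifs with h
      · simp only [one_ne_zero, false_iff]
        intro hc
        exact hc i h.1 (by omega) (Nat.dvd_of_mod_eq_zero h.2)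
      · rw [ih]
        refine ⟨fun hc j h1 h2 h3 => ?_, fun hc j h1 h2 => hc j h1 (by omega)⟩
        by_cases e : j = i
        · subst e; exact h ⟨h1, Nat.mod_eq_zero_of_dvd h3⟩
        · exact hc j h1 (by omega) h3
  simp only [this, Nat.prime_def_lt']

def nprime (d : ℕ) : ℕ := rep (d + 1) (fun i u => if (d + 1 + i).Prime then d + 1 + i else u) 0

theorem nprime_inv (d i : ℕ) :
    let v := rep i (fun i u => if (d + 1 + i).Prime then d + 1 + i else u) 0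
    v ≤ d + i ∧ ((∃ j < i, (d + 1 + j).Prime) → v.Prime ∧ d < v) := by
  induction i with
  | zero => simp
  | succ i ih =>
    simp only [rep_succ] at ih ⊢
    split_ifs with h
    · exact ⟨by omega, fun _ => ⟨h, by omega⟩⟩
    · refine ⟨by omega, fun ⟨j, hj, hp⟩ => ih.2 ⟨j, ?_, hp⟩⟩
      by_contra hc
      obtain rfl : j = i := by omega
      exact h hp

theorem nprime_spec {d : ℕ} (hd : d ≠ 0) :
    (nprime d).Prime ∧ d < nprime d ∧ nprime d ≤ 2 * d + 1 := by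
  obtain ⟨h1, h2⟩ := nprime_inv d (d + 1)
  obtain ⟨p, hp, h3, h4⟩ := Nat.exists_prime_lt_and_le_two_mul d hd
  have := h2 ⟨p - (d + 1), by omega, by rwa [show d + 1 + (p - (d + 1)) = p by omega]⟩
  exact ⟨this.1, this.2, by unfold nprime; omega⟩

@[fun_prop] theorem sp_nprime : SP σ nprime := by
  refine sp_rep_nat (by fun_prop) (by fun_prop) (sp_ite
    (sp_comp (g := fun p : ℕ × ℕ × ℕ => p.1 + 1 + p.2.1) sp_prime (by fun_prop))
    (by fun_prop) (by fun_prop)) ⟨2, fun a _ _ i hi => ?_⟩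
  have := (nprime_inv a i).1
  simp only [esz_nat]
  nlinarith

attribute [irreducible] nprime

section
variable (N : NM σ)

def pe (b : ℕ) : ℕ := 4 * (N.nq + 4 + 5 * lg b)
def pm (b : ℕ) : ℕ := N.G * (b * b) + pe N b * (b * b + 1)
def pp (b : ℕ) : ℕ := nprime (b * (pm N b + pm N b + 1) + pm N b + 1)
def pT (b : ℕ) : ℕ := b * b * b * b * b
def plp (b : ℕ) : ℕ := 11 * (N.G + 8 * (N.nq + 9)) + 4 * lg b
def pS (b : ℕ) : ℕ := 4 * pm N b * plp N b + b * (b + 1) * (plp N b + 4 + lg b) +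
  (b + 1) * (pe N b * (b + 1)) + lg b

@[fun_prop] theorem sp_pe : SP σ (pe N) := by unfold pe; fun_prop
@[fun_prop] theorem sp_pm : SP σ (pm N) := by unfold pm; fun_prop
@[fun_prop] theorem sp_pp : SP σ (pp N) := by unfold pp; fun_prop
@[fun_prop] theorem sp_pT : SP σ pT := by unfold pT; fun_prop
@[fun_prop] theorem sp_plp : SP σ (plp N) := by unfold plp; fun_prop
@[fun_prop] theorem sp_pS : SP σ (pS N) := by unfold pS; fun_prop

def xD (x : X σ) : ℕ := powT σ x.2.2.1 2 (pe N x.2.1)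
def xG (x : X σ) : ℕ := powT σ x.2.2.1 N.G (x.2.1 * x.2.1)
def xZ (x : X σ) : ℕ := powT σ x.2.2.1 2 (pe N x.2.1 * (x.2.1 + 1))
def xM (x : X σ) : ℕ := powT σ x.2.2.1 2 (pm N x.2.1)

@[fun_prop] theorem sp_xD : SP σ (xD N) := by unfold xD; fun_prop
@[fun_prop] theorem sp_xG : SP σ (xG N) := by unfold xG; fun_prop
@[fun_prop] theorem sp_xZ : SP σ (xZ N) := by unfold xZ; fun_prop
@[fun_prop] theorem sp_xM : SP σ (xM N) := by unfold xM; fun_prop

def rc (q p τ : ℕ) : ℕ := Nat.pair q (Nat.pair p τ)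
def rq (r : ℕ) : ℕ := r.unpair.1
def rp (r : ℕ) : ℕ := r.unpair.2.unpair.1
def rt (r : ℕ) : ℕ := r.unpair.2.unpair.2

@[fun_prop] theorem sp_rc : SP σ (fun z : ℕ × ℕ × ℕ => rc z.1 z.2.1 z.2.2) := by
  unfold rc; fun_prop
@[fun_prop] theorem sp_rq : SP σ rq := by unfold rq; fun_prop
@[fun_prop] theorem sp_rp : SP σ rp := by unfold rp; fun_prop
@[fun_prop] theorem sp_rt : SP σ rt := by unfold rt; fun_prop

@[simp] theorem rq_rc (q p τ : ℕ) : rq (rc q p τ) = q := by simp [rq, rc]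
@[simp] theorem rp_rc (q p τ : ℕ) : rp (rc q p τ) = p := by simp [rp, rc]
@[simp] theorem rt_rc (q p τ : ℕ) : rt (rc q p τ) = τ := by simp [rt, rc]

def lcore (U wd r c a : ℕ) : ℕ × ℕ :=
  (rc (N.dq a) (rp r + N.dm a - 1) (rt r + 1),
    mkT σ U N.G wd (fun j => if j = rp r % wd then N.ds a else dig N.G c j))

@[fun_prop] theorem sp_lcore : SP σ (fun z : ℕ × ℕ × ℕ × ℕ × ℕ =>
    lcore N z.1 z.2.1 z.2.2.1 z.2.2.2.1 z.2.2.2.2) := by
  have := N.sp_dq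
  have := N.sp_ds
  have := N.sp_dm
  unfold lcore; fun_prop

def lstep (U b i : ℕ) (s : ℕ × ℕ) : ℕ × ℕ :=
  if rt s.1 < pT b ∧ rp s.1 / (b * b) = i then
    lcore N U (b * b) s.1 s.2 (rq s.1 * N.G + dig N.G s.2 (rp s.1 % (b * b)))
  else s

@[fun_prop] theorem sp_lstep : SP σ (fun z : ℕ × ℕ × ℕ × ℕ × ℕ =>
    lstep N z.1 z.2.1 z.2.2.1 z.2.2.2) := by
  unfold lstep; fun_prop

def epoch (U b r c : ℕ) : ℕ × ℕ := repT σ U (pT b) (fun _ => lstep N U b (rp r / (b * b))) (r, c)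

@[fun_prop] theorem sp_epoch : SP σ (fun z : ℕ × ℕ × ℕ × ℕ =>
    epoch N z.1 z.2.1 z.2.2.1 z.2.2.2) := by
  unfold epoch; fun_prop

def replay (U b i c n : ℕ) (hist : ℕ → ℕ) : ℕ :=
  repT σ U n (fun a c => if rp (hist a) / (b * b) = i then (epoch N U b (hist a) c).2 else c) c

def hist (x : X σ) (g Z V a : ℕ) : ℕ :=
  if a ≤ g % x.2.1 * x.2.1 then dig (xD N x) (V / xG N x) a
  else dig (xD N x) Z (a - g % x.2.1 * x.2.1)

@[fun_prop] theorem sp_hist : SP σ (fun z : X σ × ℕ × ℕ × ℕ × ℕ =>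
    hist N z.1 z.2.1 z.2.2.1 z.2.2.2.1 z.2.2.2.2) := by
  unfold hist; fun_prop

def cblk (x : X σ) (Z j : ℕ) : ℕ := rp (dig (xD N x) Z j) / (x.2.1 * x.2.1)

@[fun_prop] theorem sp_cblk : SP σ (fun z : X σ × ℕ × ℕ => cblk N z.1 z.2.1 z.2.2) := by
  unfold cblk; fun_prop

def cchk (x : X σ) (g Z j V W : ℕ) : ℕ :=
  if dig (xD N x) (V / xG N x) (g % x.2.1 * x.2.1) = dig (xD N x) Z 0 ∧
    (epoch N x.2.2.1 x.2.1 (dig (xD N x) Z j) (replay N x.2.2.1 x.2.1 (cblk N x Z j) (W % xG N x)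
      (g % x.2.1 * x.2.1 + j) (hist N x g Z V))).1 = dig (xD N x) Z (j + 1) then 1 else 0

@[fun_prop] theorem sp_cchk : SP σ (fun z : X σ × ℕ × ℕ × ℕ × ℕ × ℕ =>
    cchk N z.1 z.2.1 z.2.2.1 z.2.2.2.1 z.2.2.2.2.1 z.2.2.2.2.2) := by
  unfold cchk replay; fun_prop

def cout (x : X σ) (g i Z V : ℕ) : ℕ :=
  if g % x.2.1 + 1 = x.2.1 then
    replay N x.2.2.1 x.2.1 i (V % xG N x) (x.2.1 * x.2.1) (hist N x g Z V) +
      xG N x * dig (xD N x) Z x.2.1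
  else V % xG N x +
    xG N x * mkT σ x.2.2.1 (xD N x) ((g % x.2.1 + 1) * x.2.1 + 1) (hist N x g Z V)

@[fun_prop] theorem sp_cout : SP σ (fun z : X σ × ℕ × ℕ × ℕ × ℕ =>
    cout N z.1 z.2.1 z.2.2.1 z.2.2.2.1 z.2.2.2.2) := by
  unfold cout replay; fun_prop

def tape0 (w : List σ) (O z : ℕ) : ℕ := if O ≤ z then N.φ w[z - O]? else N.φ none

@[fun_prop] theorem sp_tape0 [Finite σ] : SP σ (fun z : List σ × ℕ × ℕ =>
    tape0 N z.1 z.2.1 z.2.2) := by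
  unfold tape0
  exact sp_ite (by fun_prop)
    (sp_comp (g := fun z : List σ × ℕ × ℕ => (z.1, z.2.2 - z.2.1)) (sp_inp N.φ) (by fun_prop))
    (by fun_prop)

def cinit (x : X σ) (i : ℕ) : ℕ :=
  mkT σ x.2.2.1 N.G (x.2.1 * x.2.1)
    (fun j => tape0 N x.1 (pT x.2.1 + x.2.2.2) (i * (x.2.1 * x.2.1) + j)) +
  xG N x * rc N.q0 (pT x.2.1 + x.2.2.2) 0

@[fun_prop] theorem sp_cinit [Finite σ] : SP σ (fun z : X σ × ℕ => cinit N z.1 z.2) := by
  unfold cinit; fun_prop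

def par (x : X σ) : Par where
  p := pp N x.2.1
  m := pm N x.2.1
  b := x.2.1
  k := x.2.1
  Zm := xZ N x
  init := cinit N x
  blk := cblk N x
  chk := cchk N x
  out := cout N x

/-! Registers as digits of one number. -/

def chiN (p m V R a : ℕ) : ℕ :=
  prodMod p m (fun j => if dig 2 V j = 1 then dig p R (a * m + j) else p + 1 - dig p R (a * m + j))

@[fun_prop] theorem sp_chiN : SP σ (fun z : ℕ × ℕ × ℕ × ℕ × ℕ =>
    chiN z.1 z.2.1 z.2.2.1 z.2.2.2.1 z.2.2.2.2) := by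
  unfold chiN; fun_prop

def t4 (x : X σ) (g t Z j R : ℕ) : ℕ :=
  sumMod' (pp N x.2.1) (xM N x) (fun V => sumMod' (pp N x.2.1) (xM N x)
    (fun W => cchk N x g Z j V W * chiN (pp N x.2.1) (pm N x.2.1) W R ((t + 2) % 3)) *
      chiN (pp N x.2.1) (pm N x.2.1) V R ((t + 1) % 3))

@[fun_prop] theorem sp_t4 : SP σ (fun z : X σ × ℕ × ℕ × ℕ × ℕ × ℕ =>
    t4 N z.1 z.2.1 z.2.2.1 z.2.2.2.1 z.2.2.2.2.1 z.2.2.2.2.2) := by
  unfold t4; fun_prop

def t5 (x : X σ) (g i t Z j R : ℕ) : ℕ :=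
  prodMod (pp N x.2.1) x.2.1 (fun l => dig (pp N x.2.1) R (3 * pm N x.2.1 + l)) *
    sumMod' (pp N x.2.1) (xM N x)
      (fun V => dig 2 (cout N x g i Z V) j * chiN (pp N x.2.1) (pm N x.2.1) V R ((t + 1) % 3))

@[fun_prop] theorem sp_t5 : SP σ (fun z : X σ × ℕ × ℕ × ℕ × ℕ × ℕ × ℕ =>
    t5 N z.1 z.2.1 z.2.2.1 z.2.2.2.1 z.2.2.2.2.1 z.2.2.2.2.2.1 z.2.2.2.2.2.2) := by
  unfold t5; fun_prop

def cell (x : X σ) (o : Op) (R a j r : ℕ) : ℕ :=
  if o.1 = 1 then (if a = o.2.2.2.1 then r else r * o.2.2.2.2.2.1)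
  else if o.1 = 2 then (if a = o.2.2.2.1 then r else
    r * prodMod (pp N x.2.1) (pp N x.2.1 - 2) (fun _ => o.2.2.2.2.2.1))
  else if o.1 = 3 then
    (if a = o.2.2.2.1 then r + o.2.2.2.2.1 * dig 2 (cinit N x o.2.2.1) j else r)
  else if o.1 = 4 then
    (if a = 3 ∧ j = o.2.2.2.2.2.2 then
      r + o.2.2.2.2.1 * t4 N x o.2.1 o.2.2.2.1 o.2.2.2.2.2.1 o.2.2.2.2.2.2 R else r)
  else
    (if a = o.2.2.2.1 then r + (pp N x.2.1 - 1) * o.2.2.2.2.1 *
      t5 N x o.2.1 o.2.2.1 o.2.2.2.1 o.2.2.2.2.2.1 j R else r)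

@[fun_prop] theorem sp_cell [Finite σ] : SP σ (fun z : X σ × Op × ℕ × ℕ × ℕ × ℕ =>
    cell N z.1 z.2.1 z.2.2.1 z.2.2.2.1 z.2.2.2.2.1 z.2.2.2.2.2) := by
  unfold cell; fun_prop

def apN (x : X σ) (o : Op) (R : ℕ) : ℕ :=
  mkT σ x.2.2.1 (pp N x.2.1) (4 * pm N x.2.1) (fun q =>
    cell N x o R (q / pm N x.2.1) (q % pm N x.2.1) (dig (pp N x.2.1) R q) % pp N x.2.1)

@[fun_prop] theorem sp_apN [Finite σ] : SP σ (fun z : X σ × Op × ℕ => apN N z.1 z.2.1 z.2.2) := by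
  unfold apN; fun_prop

def LT (x : X σ) (g : ℕ) : ℕ :=
  (repT σ x.2.2.1 g (Lstep (pp N x.2.1) x.2.1 x.2.1 (xZ N x)) (1, 1)).1

@[fun_prop] theorem sp_LT : SP σ (fun z : X σ × ℕ => LT N z.1 z.2) := by
  unfold LT Lstep Lf; fun_prop

@[fun_prop] theorem sp_lev3 : SP σ (fun z : ℕ × ℕ × ℕ × ℕ × ℕ × ℕ × ℕ × ℕ × ℕ × ℕ × ℕ =>
    lev3 z.1 z.2.1 z.2.2.1 z.2.2.2.1 z.2.2.2.2.1 z.2.2.2.2.2.1 z.2.2.2.2.2.2.1
      z.2.2.2.2.2.2.2.1 z.2.2.2.2.2.2.2.2.1 z.2.2.2.2.2.2.2.2.2.1 z.2.2.2.2.2.2.2.2.2.2) := by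
  unfold lev3 base; fun_prop

def dstepT (x : X σ) (s : Op) : Op :=
  dcore (pp N x.2.1) x.2.1 x.2.1 (xZ N x) (cblk N x) (LT N x (s.2.1 - 1))
    (LT N x (base x.2.1 (s.2.1 - 1))) s

set_option maxHeartbeats 1000000 in
@[fun_prop] theorem sp_dstepT : SP σ (fun z : X σ × Op => dstepT N z.1 z.2) := by
  unfold dstepT dcore lev0 lev1 lev2 base; fun_prop

def decT (x : X σ) (j : ℕ) : Op :=
  repT σ x.2.2.1 (x.2.1 * (x.2.1 + 1) + 1) (fun _ => dstepT N x)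
    (0, x.2.1 * (x.2.1 + 1), 0, 0, 1, j, 0)

@[fun_prop] theorem sp_decT : SP σ (fun z : X σ × ℕ => decT N z.1 z.2) := by
  unfold decT; fun_prop

def finalR (x : X σ) : ℕ :=
  repT σ x.2.2.1 (LT N x (x.2.1 * (x.2.1 + 1))) (fun j R => apN N x (decT N x j) R) 0

@[fun_prop] theorem sp_finalR [Finite σ] : SP σ (finalR N) := by
  unfold finalR; fun_prop

def resOff (x : X σ) : ℕ :=
  N.hl (rq (mkT σ x.2.2.1 2 (pm N x.2.1) (dig (pp N x.2.1) (finalR N x)) / xG N x))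

@[fun_prop] theorem sp_resOff [Finite σ] : SP σ (resOff N) := by
  have := N.sp_hl
  unfold resOff; fun_prop

def mainF (y : List σ × ℕ × ℕ) : ℕ :=
  repT σ y.2.2 (y.2.1 * y.2.1) (fun o u => max u (resOff N (y.1, y.2.1, y.2.2, o))) 0

theorem sp_mainF [Finite σ] : SP σ (mainF N) := by
  unfold mainF; fun_prop

end

end Vale.Agent.P312
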