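import Vale.Agent.P312.Poly

/-! The register program (Cook-Mertz style evaluation with a clean guess). -/

namespace Vale.Agent.P312

open Finset

structure Par where
  p : ℕ
  m : ℕ
  b : ℕ
  k : ℕ
  Zm : ℕ
  init : ℕ → ℕ
  blk : ℕ → ℕ → ℕ
  chk : ℕ → ℕ → ℕ → ℕ → ℕ → ℕ
  out : ℕ → ℕ → ℕ → ℕ → ℕ

abbrev Op := ℕ × ℕ × ℕ × ℕ × ℕ × ℕ × ℕ

def base (k g : ℕ) : ℕ := g - g % k

def Lf (p b Zm a c : ℕ) : ℕ := (p - 1) * (1 + a + Zm * (b * (c + 1 + c) + 1 + b * (c + 1 + c)) + a + 1)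

def Lstep (p b k Zm g : ℕ) (s : ℕ × ℕ) : ℕ × ℕ :=
  (Lf p b Zm s.1 s.2, if (g + 1) % k = 0 then Lf p b Zm s.1 s.2 else s.2)

def Lp (p b k Zm g : ℕ) : ℕ × ℕ := rep g (Lstep p b k Zm) (1, 1)

def Par.L (P : Par) (g : ℕ) : ℕ := (Lp P.p P.b P.k P.Zm g).1

theorem Lp_snd (p b k Zm g : ℕ) : (Lp p b k Zm g).2 = (Lp p b k Zm (base k g)).1 := by
  induction g with
  | zero => simp [Lp, base]
  | succ g ih =>
    by_cases h : (g + 1) % k = 0
    · have : base k (g + 1) = g + 1 := by simp [base, h]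
      rw [this, Lp, rep_succ]; simp [Lstep, h]
    · have : base k (g + 1) = base k g := by
        have h1 : (g + 1) % k = g % k + 1 := by
          rcases Nat.eq_zero_or_pos k with rfl | hk
          · simp
          · rw [Nat.add_mod] at h ⊢
            have := Nat.mod_lt g hk
            rcases Nat.lt_or_ge 1 k with h2 | h2
            · rw [Nat.mod_eq_of_lt h2] at h ⊢
              rcases Nat.lt_or_ge (g % k + 1) k with h3 | h3
              · exact Nat.mod_eq_of_lt h3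
              · exact absurd (by rw [show g % k + 1 = k by omega, Nat.mod_self]) h
            · obtain rfl : k = 1 := by omega
              omega
        simp only [base, h1]; omega
      rw [this, ← ih, Lp, rep_succ]; simp [Lstep, h, Lp]

theorem Par.L_succ (P : Par) (g : ℕ) :
    P.L (g + 1) = Lf P.p P.b P.Zm (P.L g) (P.L (base P.k g)) := by
  simp only [Par.L, ← Lp_snd]; rfl

def lev3 (p k : ℕ) (blkv g i t Lb Z j s r : ℕ) : Op :=
  if r < Lb then (0, base k g, blkv, (t + 2) % 3, 1, r, 0)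
  else if r = Lb then (4, g, i, t, s, Z, j)
  else (0, base k g, blkv, (t + 2) % 3, p - 1, r - (Lb + 1), 0)

def lev2 (p b k : ℕ) (blk : ℕ → ℕ → ℕ) (g i t c Lb Z r : ℕ) : Op :=
  if r < b * (Lb + 1 + Lb) then
    lev3 p k (blk Z (r / (Lb + 1 + Lb))) g i t Lb Z (r / (Lb + 1 + Lb)) 1 (r % (Lb + 1 + Lb))
  else if r = b * (Lb + 1 + Lb) then (5, g, i, t, c, Z, 0)
  else lev3 p k (blk Z ((r - (b * (Lb + 1 + Lb) + 1)) / (Lb + 1 + Lb))) g i t Lb Z
    ((r - (b * (Lb + 1 + Lb) + 1)) / (Lb + 1 + Lb)) (p - 1)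
    ((r - (b * (Lb + 1 + Lb) + 1)) % (Lb + 1 + Lb))

def lev1 (p b k Zm : ℕ) (blk : ℕ → ℕ → ℕ) (g i t c La Lb Q ω r : ℕ) : Op :=
  if r = 0 then (1, g, i, t, c, ω, 0)
  else if r < 1 + La then (0, g, i, (t + 1) % 3, 1, r - 1, 0)
  else if r < 1 + La + Zm * Q then
    lev2 p b k blk g i t c Lb ((r - (1 + La)) / Q) ((r - (1 + La)) % Q)
  else if r < 1 + La + Zm * Q + La then (0, g, i, (t + 1) % 3, p - 1, r - (1 + La + Zm * Q), 0)
  else (2, g, i, t, c, ω, 0)

def lev0 (p b k Zm : ℕ) (blk : ℕ → ℕ → ℕ) (g i t c La Lb Q x : ℕ) : Op :=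
  lev1 p b k Zm blk g i t c La Lb Q (x / (1 + La + Zm * Q + La + 1) + 1)
    (x % (1 + La + Zm * Q + La + 1))

def dcore (p b k Zm : ℕ) (blk : ℕ → ℕ → ℕ) (La Lb : ℕ) (s : Op) : Op :=
  if s.1 = 0 then
    if s.2.1 = 0 then (3, 0, s.2.2.1, s.2.2.2.1, s.2.2.2.2.1, 0, 0)
    else lev0 p b k Zm blk (s.2.1 - 1) s.2.2.1 s.2.2.2.1 s.2.2.2.2.1 La Lb
      (b * (Lb + 1 + Lb) + 1 + b * (Lb + 1 + Lb)) s.2.2.2.2.2.1
  else s

def Par.dstep (P : Par) (s : Op) : Op :=
  dcore P.p P.b P.k P.Zm P.blk (P.L (s.2.1 - 1)) (P.L (base P.k (s.2.1 - 1))) s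

theorem Par.dstep_fix (P : Par) {s : Op} (h : s.1 ≠ 0) : P.dstep s = s := by
  simp [Par.dstep, dcore, h]

theorem Par.iter_fix (P : Par) {s : Op} (h : s.1 ≠ 0) (n : ℕ) : P.dstep^[n] s = s :=
  Function.iterate_fixed (P.dstep_fix h) n

theorem base_le (k g : ℕ) : base k g ≤ g := Nat.sub_le _ _

theorem lev3_prog (p k blkv g i t Lb Z j s r : ℕ) :
    (lev3 p k blkv g i t Lb Z j s r).1 ≠ 0 ∨ (lev3 p k blkv g i t Lb Z j s r).2.1 ≤ g := by
  unfold lev3; split_ifs <;> simp [base_le]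

theorem Par.dstep_prog (P : Par) (s : Op) : (P.dstep s).1 ≠ 0 ∨ (P.dstep s).2.1 < s.2.1 := by
  unfold Par.dstep dcore
  split_ifs with h1 h2
  · simp
  · have : ∀ o : Op, (o.1 ≠ 0 ∨ o.2.1 ≤ s.2.1 - 1) → (o.1 ≠ 0 ∨ o.2.1 < s.2.1) := by
      intro o h; omega
    apply this
    unfold lev0 lev1 lev2
    split_ifs <;> first | exact lev3_prog .. | simp
  · exact Or.inl h1

theorem Par.iter_done (P : Par) (n : ℕ) : ∀ s : Op, s.2.1 < n → (P.dstep^[n] s).1 ≠ 0 := by
  induction n with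
  | zero => intro s h; omega
  | succ n ih =>
    intro s h
    rw [Function.iterate_succ_apply]
    rcases P.dstep_prog s with h1 | h1
    · rw [P.iter_fix h1]; exact h1
    · exact ih _ (by omega)

def Par.dec (P : Par) (s : Op) : Op := P.dstep^[s.2.1 + 1] s

theorem Par.iter_eq (P : Par) {s : Op} {n : ℕ} (h : s.2.1 < n) : P.dstep^[n] s = P.dec s := by
  obtain ⟨d, rfl⟩ : ∃ d, n = d + (s.2.1 + 1) := ⟨n - (s.2.1 + 1), by omega⟩
  rw [Function.iterate_add_apply]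
  exact P.iter_fix (P.iter_done _ s (by omega)) d

theorem rep_congr2 {α : Type} {n : ℕ} {f g : ℕ → α → α} {a a' : α}
    (h : ∀ i < n, ∀ a, f i a = g i a) (e : a = a') : rep n f a = rep n g a' :=
  e ▸ rep_congr h a

section Sem
variable (P : Par) {S : Type} (ap : Op → S → S)

def Par.run (g i t c : ℕ) (ρ : S) : S :=
  rep (P.L g) (fun x => ap (P.dec (0, g, i, t, c, x, 0))) ρ

theorem Par.run_zero (i t c : ℕ) (ρ : S) :
    P.run ap 0 i t c ρ = ap (3, 0, i, t, c, 0, 0) ρ := rfl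

def Par.phase (g i t Z s : ℕ) (ρ : S) : S :=
  rep P.b (fun j ρ => P.run ap (base P.k g) (P.blk Z j) ((t + 2) % 3) (P.p - 1)
    (ap (4, g, i, t, s, Z, j) (P.run ap (base P.k g) (P.blk Z j) ((t + 2) % 3) 1 ρ))) ρ

theorem Par.rep_lev3 (g i t Z j s : ℕ) (ρ : S) :
    rep (P.L (base P.k g) + 1 + P.L (base P.k g)) (fun r => ap (P.dstep^[g + 1]
      (lev3 P.p P.k (P.blk Z j) g i t (P.L (base P.k g)) Z j s r))) ρ =
    P.run ap (base P.k g) (P.blk Z j) ((t + 2) % 3) (P.p - 1)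
      (ap (4, g, i, t, s, Z, j) (P.run ap (base P.k g) (P.blk Z j) ((t + 2) % 3) 1 ρ)) := by
  have hb := base_le P.k g
  rw [rep_add, rep_add, rep_one]
  unfold Par.run
  refine rep_congr2 (fun r hr a => by
    rw [lev3, if_neg (by omega), if_neg (by omega), P.iter_eq (by simp; omega),
      Nat.add_sub_cancel_left]) ?_
  rw [lev3, if_neg (by omega), if_pos (by omega), P.iter_fix (by simp)]
  congr 1
  exact rep_congr (fun r hr a => by rw [lev3, if_pos hr, P.iter_eq (by simp; omega)]) _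

theorem Par.rep_phase (g i t Z s : ℕ) (ρ : S) :
    rep (P.b * (P.L (base P.k g) + 1 + P.L (base P.k g))) (fun r => ap (P.dstep^[g + 1]
      (lev3 P.p P.k (P.blk Z (r / (P.L (base P.k g) + 1 + P.L (base P.k g)))) g i t
        (P.L (base P.k g)) Z (r / (P.L (base P.k g) + 1 + P.L (base P.k g))) s
        (r % (P.L (base P.k g) + 1 + P.L (base P.k g)))))) ρ = P.phase ap g i t Z s ρ := by
  rw [rep_mul]
  refine rep_congr (fun j _ a => ?_) ρ
  rw [← P.rep_lev3 ap]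
  refine rep_congr (fun r hr a => ?_) a
  rw [mul_comm j, Nat.mul_add_div (by omega), Nat.mul_add_mod, Nat.div_eq_of_lt hr,
    Nat.mod_eq_of_lt hr, add_zero]

theorem Par.rep_lev2 (g i t c Z : ℕ) (ρ : S) :
    rep (P.b * (P.L (base P.k g) + 1 + P.L (base P.k g)) + 1 +
      P.b * (P.L (base P.k g) + 1 + P.L (base P.k g))) (fun r => ap (P.dstep^[g + 1]
      (lev2 P.p P.b P.k P.blk g i t c (P.L (base P.k g)) Z r))) ρ =
    P.phase ap g i t Z (P.p - 1) (ap (5, g, i, t, c, Z, 0) (P.phase ap g i t Z 1 ρ)) := by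
  rw [rep_add, rep_add, rep_one, ← P.rep_phase ap, ← P.rep_phase ap]
  refine rep_congr2 (fun r hr a => by
    rw [lev2, if_neg (by omega), if_neg (by omega), Nat.add_sub_cancel_left]) ?_
  rw [lev2, if_neg (by omega), if_pos (by omega), P.iter_fix (by simp)]
  congr 1
  exact rep_congr (fun r hr a => by rw [lev2, if_pos hr]) _

theorem Par.run_succ (g i t c : ℕ) (ρ : S) :
    P.run ap (g + 1) i t c ρ = rep (P.p - 1) (fun w ρ => ap (2, g, i, t, c, w + 1, 0)
      (P.run ap g i ((t + 1) % 3) (P.p - 1)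
        (rep P.Zm (fun Z ρ => P.phase ap g i t Z (P.p - 1)
          (ap (5, g, i, t, c, Z, 0) (P.phase ap g i t Z 1 ρ)))
          (P.run ap g i ((t + 1) % 3) 1 (ap (1, g, i, t, c, w + 1, 0) ρ))))) ρ := by
  rw [Par.run, P.L_succ, Lf, rep_mul]
  refine rep_congr (fun w _ a => ?_) ρ
  set Q := P.b * (P.L (base P.k g) + 1 + P.L (base P.k g)) + 1 +
      P.b * (P.L (base P.k g) + 1 + P.L (base P.k g)) with hQ
  have e : ∀ r < 1 + P.L g + P.Zm * Q + P.L g + 1,
      P.dec (0, g + 1, i, t, c, w * (1 + P.L g + P.Zm * Q + P.L g + 1) + r, 0) =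
        P.dstep^[g + 1] (lev1 P.p P.b P.k P.Zm P.blk g i t c (P.L g) (P.L (base P.k g)) Q
          (w + 1) r) := by
    intro r hr
    rw [Par.dec, Function.iterate_succ_apply]
    congr 1
    simp only [Par.dstep, dcore, if_true, Nat.succ_ne_zero, if_false, Nat.add_sub_cancel, lev0]
    rw [← hQ, mul_comm w, Nat.mul_add_div (by omega), Nat.mul_add_mod, Nat.div_eq_of_lt hr,
      Nat.mod_eq_of_lt hr, add_zero]
  rw [rep_congr (fun r hr a => by rw [e r hr])]
  rw [rep_add, rep_add, rep_add, rep_add, rep_one, rep_one]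
  rw [lev1, if_neg (by omega), if_neg (by omega), if_neg (by omega), if_neg (by omega),
    P.iter_fix (by simp), lev1, if_pos rfl, P.iter_fix (by simp)]
  congr 1
  unfold Par.run
  refine rep_congr2 (fun r hr a => by
      rw [lev1, if_neg (by omega), if_neg (by omega), if_neg (by omega), if_pos (by omega),
        P.iter_eq (by simp), Nat.add_sub_cancel_left]) ?_
  rw [rep_mul]
  refine rep_congr2 (fun Z hZ a => ?_) (rep_congr (fun r hr a => by
      rw [lev1, if_neg (by omega), if_pos (by omega), P.iter_eq (by simp),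
        Nat.add_sub_cancel_left]) _)
  rw [← P.rep_lev2 ap]
  refine rep_congr (fun r hr a => ?_) a
  have hlt : Z * Q + r < P.Zm * Q := by
    calc Z * Q + r < Z * Q + Q := by omega
      _ = (Z + 1) * Q := by ring
      _ ≤ P.Zm * Q := Nat.mul_le_mul_right _ hZ
  rw [lev1, if_neg (by omega), if_neg (by omega), if_pos (by omega), Nat.add_sub_cancel_left,
    mul_comm Z, Nat.mul_add_div (by omega), Nat.mul_add_mod, Nat.div_eq_of_lt hr,
    Nat.mod_eq_of_lt hr, add_zero]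

end Sem

end Vale.Agent.P312
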