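import Vale.Agent.P312.CM

/-! Correctness of the register program over `ZMod p`. -/

namespace Vale.Agent.P312

open Finset

section
variable (P : Par) {F : Type} [Field F]

/-- Effect of an instruction on the registers (bank, index). -/
def Par.apA (o : Op) (ρ : ℕ → ℕ → F) : ℕ → ℕ → F := fun a j =>
  if o.1 = 1 then (if a = o.2.2.2.1 then ρ a j else ρ a j * (o.2.2.2.2.2.1 : F))
  else if o.1 = 2 then (if a = o.2.2.2.1 then ρ a j else ρ a j * (o.2.2.2.2.2.1 : F)⁻¹)
  else if o.1 = 3 then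
    (if a = o.2.2.2.1 then ρ a j + (o.2.2.2.2.1 : F) * bits (P.init o.2.2.1) j else ρ a j)
  else if o.1 = 4 then
    (if a = 3 ∧ j = o.2.2.2.2.2.2 then ρ a j + (o.2.2.2.2.1 : F) *
      lde2 P.m (P.chk o.2.1 o.2.2.2.2.2.1 o.2.2.2.2.2.2) (ρ ((o.2.2.2.1 + 1) % 3))
        (ρ ((o.2.2.2.1 + 2) % 3)) else ρ a j)
  else
    (if a = o.2.2.2.1 then ρ a j - (o.2.2.2.2.1 : F) * ((∏ l ∈ range P.b, ρ 3 l) *
      lde1 P.m (fun V => dig 2 (P.out o.2.1 o.2.2.1 o.2.2.2.2.2.1 V) j)
        (ρ ((o.2.2.2.1 + 1) % 3))) else ρ a j)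

def addv (ρ : ℕ → ℕ → F) (t : ℕ) (c : F) (V : ℕ) : ℕ → ℕ → F :=
  fun a j => if a = t then ρ a j + c * bits V j else ρ a j

theorem addv_def (ρ : ℕ → ℕ → F) (t : ℕ) (c : F) (V : ℕ) :
    addv ρ t c V = fun a j => if a = t then ρ a j + c * bits V j else ρ a j := rfl

theorem Par.apA1 (g i t c x y : ℕ) (ρ : ℕ → ℕ → F) : P.apA (1, g, i, t, c, x, y) ρ =
    fun a j => if a = t then ρ a j else ρ a j * (x : F) := rfl
theorem Par.apA2 (g i t c x y : ℕ) (ρ : ℕ → ℕ → F) : P.apA (2, g, i, t, c, x, y) ρ =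
    fun a j => if a = t then ρ a j else ρ a j * (x : F)⁻¹ := rfl
theorem Par.apA4 (g i t c x y : ℕ) (ρ : ℕ → ℕ → F) : P.apA (4, g, i, t, c, x, y) ρ =
    fun a j => if a = 3 ∧ j = y then ρ a j + (c : F) *
      lde2 P.m (P.chk g x y) (ρ ((t + 1) % 3)) (ρ ((t + 2) % 3)) else ρ a j := rfl
theorem Par.apA5 (g i t c x y : ℕ) (ρ : ℕ → ℕ → F) : P.apA (5, g, i, t, c, x, y) ρ =
    fun a j => if a = t then ρ a j - (c : F) * ((∏ l ∈ range P.b, ρ 3 l) *
      lde1 P.m (fun V => dig 2 (P.out g i x V) j) (ρ ((t + 1) % 3))) else ρ a j := rfl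

/-- The values computed by the nodes. -/
structure Par.Spec (Gn : ℕ) (val : ℕ → ℕ → ℕ) : Prop where
  zero : ∀ i, val 0 i = P.init i
  lt : ∀ g ≤ Gn, ∀ i, val g i < 2 ^ P.m
  succ : ∀ g < Gn, ∀ i, ∃ Z0 < P.Zm,
    (∀ j < P.b, P.chk g Z0 j (val g i) (val (base P.k g) (P.blk Z0 j)) = 1) ∧
    (∀ Z < P.Zm, Z ≠ Z0 → ∃ j < P.b, P.chk g Z j (val g i) (val (base P.k g) (P.blk Z j)) = 0) ∧
    val (g + 1) i = P.out g i Z0 (val g i)

def Par.eterm (val : ℕ → ℕ → ℕ) (g Z j : ℕ) (x y : ℕ → F) : F :=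
  lde2 P.m (P.chk g Z j) x (fun l => y l + bits (val (base P.k g) (P.blk Z j)) l)

theorem Par.phase_eq (hp : ((P.p - 1 : ℕ) : F) = -1) (val : ℕ → ℕ → ℕ) (g i t Z s : ℕ)
    (ht : t < 3)
    (ih : ∀ i t c (ρ : ℕ → ℕ → F), t < 3 →
      P.run P.apA (base P.k g) i t c ρ = addv ρ t c (val (base P.k g) i))
    (ρ : ℕ → ℕ → F) : P.phase P.apA g i t Z s ρ = fun a j => if a = 3 ∧ j < P.b then
      ρ a j + (s : F) * P.eterm val g Z j (ρ ((t + 1) % 3)) (ρ ((t + 2) % 3)) else ρ a j := by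
  unfold Par.phase
  have h1 : (t + 1) % 3 ≠ 3 := by omega
  have h2 : (t + 2) % 3 ≠ 3 := by omega
  have h3 : (t + 1) % 3 ≠ (t + 2) % 3 := by omega
  generalize P.b = n
  induction n with
  | zero => simp
  | succ n ihn =>
    rw [rep_succ, ihn, ih _ _ _ _ (by omega), ih _ _ _ _ (by omega)]
    funext a j
    simp only [addv_def, Par.apA4, hp, Par.eterm]
    by_cases ha : a = 3
    · subst ha
      by_cases hj : j = n
      · subst hj
        simp [h1, h2, h3, h2.symm]
      · have : (j < n + 1) = (j < n) := by apply propext; omega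
        simp [h2.symm, hj, this]
    · by_cases hb : a = (t + 2) % 3
      · subst hb; simp [ha]
      · simp [ha, hb]

def Par.zterm (val : ℕ → ℕ → ℕ) (g i Z j : ℕ) (x y e : ℕ → F) : F :=
  (∏ l ∈ range P.b, (e l + P.eterm val g Z l x y)) *
    lde1 P.m (fun V => dig 2 (P.out g i Z V) j) x

theorem Par.zloop_eq (hp : ((P.p - 1 : ℕ) : F) = -1) (val : ℕ → ℕ → ℕ) (g i t c : ℕ)
    (ht : t < 3)
    (ih : ∀ i t c (ρ : ℕ → ℕ → F), t < 3 →
      P.run P.apA (base P.k g) i t c ρ = addv ρ t c (val (base P.k g) i))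
    (ρ : ℕ → ℕ → F) (n : ℕ) :
    rep n (fun Z ρ => P.phase P.apA g i t Z (P.p - 1)
      (P.apA (5, g, i, t, c, Z, 0) (P.phase P.apA g i t Z 1 ρ))) ρ = fun a j => if a = t then
      ρ a j - (c : F) * ∑ Z ∈ range n,
        P.zterm val g i Z j (ρ ((t + 1) % 3)) (ρ ((t + 2) % 3)) (ρ 3) else ρ a j := by
  have h1 : (t + 1) % 3 ≠ 3 := by omega
  have h2 : (t + 2) % 3 ≠ 3 := by omega
  have h3 : (t + 1) % 3 ≠ t := by omega
  have h4 : (t + 2) % 3 ≠ t := by omega
  have h5 : 3 ≠ t := by omega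
  induction n with
  | zero => simp
  | succ n ihn =>
    rw [rep_succ, ihn, P.phase_eq hp val _ _ _ _ _ ht ih, P.phase_eq hp val _ _ _ _ _ ht ih]
    funext a j
    simp only [Par.apA5, hp, Par.zterm]
    by_cases ha : a = t
    · subst ha
      simp only [h1, h2, h3, h4, h5, h5.symm, false_and, if_false, if_true, true_and,
        sum_range_succ, Nat.cast_one, one_mul, OfNat.ofNat_ne_one, Nat.reduceEqDiff]
      rw [prod_congr rfl (fun l hl => if_pos (mem_range.1 hl))]
      ring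
    · by_cases hb : a = 3
      · subst hb
        by_cases hj : j < P.b <;> simp [h1, h2, h3, h4, ha, hj]
      · simp [ha, hb]

end

theorem Par.run_eq (P : Par) [Fact P.p.Prime] (hd : P.b * (P.m + P.m + 1) + P.m + 1 < P.p)
    {Gn : ℕ} {val : ℕ → ℕ → ℕ} (hs : P.Spec Gn val) (g : ℕ) : g ≤ Gn →
    ∀ i t c (ρ : ℕ → ℕ → ZMod P.p), t < 3 → P.run P.apA g i t c ρ = addv ρ t c (val g i) := by
  have hp : ((P.p - 1 : ℕ) : ZMod P.p) = -1 := by
    rw [Nat.cast_sub (by omega)]; simp
  induction g using Nat.strong_induction_on with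
  | _ g IH =>
    intro hg i t c ρ ht
    rcases g with _ | g
    · rw [Par.run_zero, hs.zero]; rfl
    have ih1 := IH g (by omega) (by omega)
    have ih2 := IH (base P.k g) (by have := base_le P.k g; omega)
      (by have := base_le P.k g; omega)
    have h3 : (t + 1) % 3 ≠ t := by omega
    have h4 : (t + 2) % 3 ≠ t := by omega
    have h5 : 3 ≠ t := by omega
    have h6 : (t + 2) % 3 ≠ (t + 1) % 3 := by omega
    have h7 : 3 ≠ (t + 1) % 3 := by omega
    let Φ : ℕ → ZMod P.p → ZMod P.p := fun j ω => ∑ Z ∈ range P.Zm,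
      P.zterm val g i Z j (fun l => ρ ((t + 1) % 3) l * ω + bits (val g i) l)
        (fun l => ρ ((t + 2) % 3) l * ω) (fun l => ρ 3 l * ω)
    have key : ∀ n ≤ P.p - 1, rep n (fun w ρ => P.apA (2, g, i, t, c, w + 1, 0)
      (P.run P.apA g i ((t + 1) % 3) (P.p - 1)
        (rep P.Zm (fun Z ρ => P.phase P.apA g i t Z (P.p - 1)
          (P.apA (5, g, i, t, c, Z, 0) (P.phase P.apA g i t Z 1 ρ)))
          (P.run P.apA g i ((t + 1) % 3) 1 (P.apA (1, g, i, t, c, w + 1, 0) ρ))))) ρ =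
        fun a j => if a = t then
          ρ a j - (c : ZMod P.p) * ∑ w ∈ range n, Φ j ((w + 1 : ℕ) : ZMod P.p) else ρ a j := by
      intro n
      induction n with
      | zero => simp
      | succ n ihn =>
        intro hn
        have hω : ((n + 1 : ℕ) : ZMod P.p) ≠ 0 := by
          rw [Ne, ZMod.natCast_eq_zero_iff]
          exact Nat.not_dvd_of_pos_of_lt (by omega) (by omega)
        rw [rep_succ, ihn (by omega), P.zloop_eq hp val _ _ _ _ ht ih2, ih1 _ _ _ _ (by omega),
          ih1 _ _ _ _ (by omega)]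
        funext a j
        by_cases ha : a = t
        · subst ha
          simp only [Par.apA1, Par.apA2, addv_def, h3, h4, h5, h6, h7, h3.symm, if_true, if_false,
            OfNat.ofNat_ne_one, sum_range_succ, Φ, Nat.cast_one, one_mul]
          ring
        · by_cases hb : a = (t + 1) % 3
          · subst hb
            simp only [Par.apA1, Par.apA2, addv_def, ha, if_true, if_false, OfNat.ofNat_ne_one, hp, Nat.cast_one]
            field_simp
            ring
          · simp only [Par.apA1, Par.apA2, addv_def, ha, hb, if_true, if_false, OfNat.ofNat_ne_one]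
            field_simp
    rw [P.run_succ, key _ le_rfl]
    funext a j
    simp only [addv]
    split_ifs with ha
    · have lin : ∀ (u v : ZMod P.p), PD 1 (fun ω => u * ω + v) :=
        fun u v => (PD.lin u).add (PD.const 1 v)
      have hΦ : PD (P.b * (P.m + P.m + 1) + P.m) (Φ j) := by
        refine PD.sum _ fun Z _ => PD.mul (PD.prod _ fun l _ => PD.add
          ((PD.lin _).mono (by omega)) ((PD.lde2 _ _ (fun l => lin _ _)
            (fun l => lin _ _)).mono (by omega))) (PD.lde1 _ _ (fun l => lin _ _))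
      rw [hΦ.sum_units hd]
      obtain ⟨Z0, z1, z2, z3, z4⟩ := hs.succ g (by omega) i
      have hv := hs.lt g (by omega) i
      have hb : ∀ i, val (base P.k g) i < 2 ^ P.m :=
        hs.lt _ (by have := base_le P.k g; omega)
      have : Φ j 0 = bits (val (g + 1) i) j := by
        simp only [Φ, Par.zterm, Par.eterm, mul_zero, zero_add]
        rw [sum_eq_single Z0]
        · rw [prod_eq_one, one_mul, z4]
          · exact lde1_bits _ hv
          · intro l hl
            rw [lde2_bits _ hv (hb _), z2 l (mem_range.1 hl), Nat.cast_one]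
        · intro Z hZ hne
          obtain ⟨l, l1, l2⟩ := z3 Z (mem_range.1 hZ) hne
          rw [prod_eq_zero (mem_range.2 l1), zero_mul]
          rw [lde2_bits _ hv (hb _), l2, Nat.cast_zero]
        · intro h; exact absurd (mem_range.2 z1) h
      rw [this]; ring
    · rfl

end Vale.Agent.P312
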