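import Vale.Agent.P312.Macros

/-! Functions computable with polynomially bounded registers (linear space). -/

namespace Vale.Agent.P312

open Function

variable {σ : Type}

def sz (n : ℕ) (x : ℕ → ℕ) : ℕ := ∑ r ∈ Finset.range n, x r

theorem le_sz {n r : ℕ} (x : ℕ → ℕ) (h : r < n) : x r ≤ sz n x :=
  Finset.single_le_sum (f := x) (fun _ _ => Nat.zero_le _) (Finset.mem_range.2 h)

theorem sz_upd (n : ℕ) (x : ℕ → ℕ) (v : ℕ) : sz (n + 1) (update x n v) = sz n x + v := by
  simp only [sz, Finset.sum_range_succ, update_self]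
  congr 1
  refine Finset.sum_congr rfl fun r hr => ?_
  rw [update_of_ne (by simp at hr; omega)]

def Zr (n : ℕ) (x : ℕ → ℕ) : Prop := ∀ r, n ≤ r → x r = 0

theorem Zr.upd {n x} (h : Zr n x) (v : ℕ) : Zr (n + 1) (update x n v) := fun r hr => by
  rw [update_of_ne (by omega)]; exact h r (by omega)

def C (n : ℕ) (F : List σ → (ℕ → ℕ) → ℕ) : Prop :=
  ∃ (P : Prog σ) (c : ℕ), ∀ w x M, Zr n x → (sz n x + 2) ^ c ≤ M →
    Runs w M P (0, x) (0, update x n (F w x))

theorem pw_mono (B : ℕ) {c d : ℕ} (h : c ≤ d) : (B + 2) ^ c ≤ (B + 2) ^ d :=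
  Nat.pow_le_pow_right (by omega) h

theorem pw_self (B : ℕ) {c : ℕ} (h : 1 ≤ c) : B + 2 ≤ (B + 2) ^ c := by
  simpa using pw_mono B h

theorem pw_add {a B c : ℕ} (h : a ≤ (B + 2) ^ c) : B + a + 2 ≤ (B + 2) ^ (c + 2) := by
  have h1 := pw_mono B (show c ≤ c + 1 by omega)
  have h2 := pw_self B (show 1 ≤ c + 1 by omega)
  have h3 : (B + 2) ^ (c + 2) = (B + 2) ^ (c + 1) * (B + 2) := pow_succ _ _
  nlinarith

theorem pw_comp {A B c : ℕ} (d : ℕ) (h : A + 2 ≤ (B + 2) ^ c) : (A + 2) ^ d ≤ (B + 2) ^ (c * d) := by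
  rw [pow_mul]; exact Nat.pow_le_pow_left h d

theorem C.bound {n : ℕ} {F : List σ → (ℕ → ℕ) → ℕ} (h : C n F) :
    ∃ c, ∀ w x, Zr n x → F w x ≤ (sz n x + 2) ^ c := by
  obtain ⟨P, c, H⟩ := h
  refine ⟨c + 1, fun w x hx => ?_⟩
  have := (H w x _ hx (pw_mono _ (show c ≤ c + 1 by omega))).le (fun r => by
    have h2 := pw_self (sz n x) (show 1 ≤ c + 1 by omega)
    by_cases hr : r < n
    · have := le_sz x hr; simp only; omega
    · simp only; rw [hx r (by omega)]; omega) n
  simpa using this

theorem C.congr {n : ℕ} {F G : List σ → (ℕ → ℕ) → ℕ} (h : C n F)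
    (e : ∀ w x, Zr n x → F w x = G w x) : C n G := by
  obtain ⟨P, c, H⟩ := h
  exact ⟨P, c, fun w x M hx hM => e w x hx ▸ H w x M hx hM⟩

theorem C.var {n i : ℕ} (h : i < n) : C n (fun (_ : List σ) x => x i) := by
  refine ⟨cpy i n (n + 1) (n + 2), 1, fun w x M hx hM => ?_⟩
  have := le_sz x h
  exact run_cpy w 0 (by omega) (by omega) (by omega) (by omega) (by omega) (by omega) x
    (hx _ (by omega)) (hx _ le_rfl) (hx _ (by omega)) (by simp at hM; omega)

theorem C.const (n k : ℕ) : C n (fun (_ : List σ) _ => k) := by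
  refine ⟨cst n (n + 1) k, k, fun w x M hx hM => ?_⟩
  refine run_cst w 0 (by omega) x (hx _ (by omega)) (hx _ le_rfl) k (le_trans ?_ hM)
  exact le_trans (Nat.lt_two_pow_self).le (Nat.pow_le_pow_left (by omega) k)

theorem C.succ {n : ℕ} {F : List σ → (ℕ → ℕ) → ℕ} (h : C n F) : C n (fun w x => F w x + 1) := by
  obtain ⟨d, hd⟩ := h.bound
  obtain ⟨P, c, H⟩ := h
  refine ⟨.seq P (inc n (n + 1)), c + d + 2, fun w x M hx hM => ?_⟩
  have h1 := pw_add (hd w x hx)
  have h2 := pw_mono (sz n x) (show d + 2 ≤ c + d + 2 by omega)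
  refine Runs.seq (H w x M hx (le_trans (pw_mono _ (by omega)) hM))
    ((run_inc w 0 (by omega) _ (hx.upd _ _ le_rfl) (by simp; omega)).cast (by simp))

theorem C.pred {n : ℕ} {F : List σ → (ℕ → ℕ) → ℕ} (h : C n F) : C n (fun w x => F w x - 1) := by
  obtain ⟨d, hd⟩ := h.bound
  obtain ⟨P, c, H⟩ := h
  refine ⟨.seq P (dec n (n + 1)), c + d, fun w x M hx hM => ?_⟩
  have h1 := hd w x hx
  have h2 := pw_mono (sz n x) (show d ≤ c + d by omega)
  refine Runs.seq (H w x M hx (le_trans (pw_mono _ (by omega)) hM))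
    ((run_dec w 0 (by omega) _ (hx.upd _ _ le_rfl) (by simp; omega)).cast (by simp))

def res (n : ℕ) (x : ℕ → ℕ) : ℕ → ℕ := fun r => if r < n then x r else 0

theorem res_zr (n : ℕ) (x : ℕ → ℕ) : Zr n (res n x) := fun r hr => by simp [res]; omega

theorem sz_res (n : ℕ) (x : ℕ → ℕ) : sz n (res n x) = sz n x :=
  Finset.sum_congr rfl fun r hr => by simp [res, Finset.mem_range.1 hr]

theorem sz_mono {n m : ℕ} (h : n ≤ m) (x : ℕ → ℕ) : sz n x ≤ sz m x :=
  Finset.sum_le_sum_of_subset (Finset.range_mono h)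

theorem res_of_zr {n : ℕ} {x : ℕ → ℕ} (h : Zr n x) : res n x = x := by
  funext r; simp only [res]; split
  · rfl
  · exact (h r (by omega)).symm

theorem C.weak {n m : ℕ} {F : List σ → (ℕ → ℕ) → ℕ} (h : C n F) (hm : n ≤ m) :
    C m (fun w x => F w (res n x)) := by
  obtain ⟨P, c, H⟩ := h
  refine ⟨P.ren (fun r => if r < n then r else r - n + m), c, fun w x M hx hM => ?_⟩
  have h1 := H w (res n x) M (res_zr n x) (le_trans (Nat.pow_le_pow_left (by
    rw [sz_res]; have := sz_mono hm x; omega) c) hM)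
  have := h1.ren_upd (ρ := fun r => if r < n then r else r - n + m) (by
    intro a b; simp only; split_ifs <;> omega) x (by
    intro r; simp only [res]; split_ifs
    · rfl
    · exact hx _ (by omega))
  simpa using this

theorem C.drop {n : ℕ} {F : List σ → (ℕ → ℕ) → ℕ} (h : C n F) (d : ℕ) :
    C (d + n) (fun w x => F w (fun r => x (d + r))) := by
  obtain ⟨P, c, H⟩ := h
  refine ⟨P.ren (fun r => d + r), c, fun w x M hx hM => ?_⟩
  have h1 := H w (fun r => x (d + r)) M (fun r hr => hx _ (by omega))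
    (le_trans (Nat.pow_le_pow_left (by
      simp only [sz, Finset.sum_range_add]; omega) c) hM)
  exact h1.ren_upd (ρ := fun r => d + r) (add_right_injective d) x (fun _ => rfl)

theorem C.let_ {n : ℕ} {F G : List σ → (ℕ → ℕ) → ℕ} (hF : C n F) (hG : C (n + 1) G) :
    C n (fun w x => G w (update x n (F w x))) := by
  obtain ⟨d, hd⟩ := hF.bound
  obtain ⟨e, he⟩ := hG.bound
  obtain ⟨P, c, H⟩ := hF
  obtain ⟨Q, c', H'⟩ := hG
  refine ⟨.seq P (.seq Q (.seq (clr n) (mov (n + 1) n (n + 2)))),
    c + (d + 2) * c' + (d + 2) * e, fun w x M hx hM => ?_⟩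
  have h1 : sz (n + 1) (update x n (F w x)) + 2 ≤ (sz n x + 2) ^ (d + 2) := by
    rw [sz_upd]; exact pw_add (hd w x hx)
  have h2 := he w _ (hx.upd (F w x))
  have h3 := pw_comp e h1
  have h4 := pw_mono (sz n x) (show (d + 2) * e ≤ c + (d + 2) * c' + (d + 2) * e by omega)
  refine Runs.seq (H w x M hx (le_trans (pw_mono _ (by omega)) hM)) (Runs.seq
    (H' w _ M (hx.upd _) (le_trans (pw_comp c' h1) (le_trans (pw_mono _ (by omega)) hM)))
    (Runs.seq (run_clr w M 0 n _) ((run_mov' w 0 (by omega) (by omega) (by omega) _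
      (by simp [hx (n + 2) (by omega)]) (by simp) (by simp; omega)).cast ?_)))
  congr 1
  funext r
  by_cases e1 : r = n
  · subst e1; simp
  · by_cases e2 : r = n + 1
    · subst e2; simp [hx (n + 1) (by omega)]
    · simp [e1, e2]

def ext (n j : ℕ) (x : ℕ → ℕ) (H : ℕ → ℕ) : ℕ → ℕ :=
  fun r => if r < n then x r else if r < n + j then H (r - n) else 0

theorem C.ext {n m : ℕ} {H : ℕ → List σ → (ℕ → ℕ) → ℕ} (hH : ∀ i < m, C n (H i)) (j : ℕ)
    (hj : j ≤ m) : ∀ K : List σ → (ℕ → ℕ) → ℕ, C (n + j) K →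
      C n (fun w x => K w (ext n j x (fun i => H i w x))) := by
  induction j with
  | zero =>
    intro K hK
    refine hK.congr fun w x hx => ?_
    congr 1
    funext r
    simp only [P312.ext]
    split_ifs
    · rfl
    · omega
    · exact hx r (by omega)
  | succ j ih =>
    intro K hK
    have := ih (by omega) _ (C.let_ ((hH j (by omega)).weak (Nat.le_add_right n j)) hK)
    refine this.congr fun w x hx => ?_
    congr 1
    funext r
    have e : res n (P312.ext n j x fun i => H i w x) = x := by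
      funext r
      simp only [res, P312.ext]
      split_ifs
      · rfl
      · exact (hx r (by omega)).symm
    rw [e]
    by_cases e1 : r = n + j
    · subst e1; simp [P312.ext]
    · rw [update_of_ne e1]
      simp only [P312.ext]
      split_ifs <;> first | rfl | omega

theorem C.comp {n m : ℕ} {G : List σ → (ℕ → ℕ) → ℕ} {H : ℕ → List σ → (ℕ → ℕ) → ℕ}
    (hG : C m G) (hH : ∀ i < m, C n (H i)) :
    C n (fun w x => G w (fun i => if i < m then H i w x else 0)) := by
  refine (C.ext hH m le_rfl _ (hG.drop n)).congr fun w x _ => ?_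
  congr 1
  funext r
  simp [P312.ext]

/-- Iteration with a counter. -/
def rep {α : Type} (n : ℕ) (f : ℕ → α → α) (a : α) : α := Nat.rec a f n

@[simp] theorem rep_zero {α : Type} (f : ℕ → α → α) (a : α) : rep 0 f a = a := rfl
theorem rep_succ {α : Type} (n : ℕ) (f : ℕ → α → α) (a : α) :
    rep (n + 1) f a = f n (rep n f a) := rfl

theorem C.loop_gen {n : ℕ} {N I S : List σ → (ℕ → ℕ) → ℕ} (hN : C n N) (hI : C n I)
    (hS : C (n + 2) S) : ∃ (P : Prog σ) (c : ℕ), ∀ w x M B, Zr n x → sz n x ≤ B → N w x ≤ B →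
      (∀ i ≤ N w x, rep i (fun i a => S w (update (update x n a) (n + 1) i)) (I w x) ≤ B) →
      (B + 2) ^ c ≤ M → Runs w M P (0, x)
        (0, update x n (rep (N w x) (fun i a => S w (update (update x n a) (n + 1) i)) (I w x))) := by
  obtain ⟨PI, cI, HI⟩ := hI
  obtain ⟨PN, cN, HN⟩ := hN.weak (show n ≤ n + 2 by omega)
  obtain ⟨PS, cS, HS⟩ := hS.weak (show n + 2 ≤ n + 3 by omega)
  refine ⟨.seq PI (.seq PN (.seq (.loop (nz (n + 2)) (.seq PS (.seq (clr n)
    (.seq (mov (n + 3) n (n + 4)) (.seq (inc (n + 1) (n + 4)) (dec (n + 2) (n + 4)))))))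
    (clr (n + 1)))), cI + 3 * cN + 3 * cS + 1, fun w x M B hx hB hNB hit hM => ?_⟩
  set it : ℕ → ℕ := fun i =>
    rep i (fun i a => S w (update (update x n a) (n + 1) i)) (I w x) with hit_def
  have hBM : B + 2 ≤ M := le_trans (pw_self B (by omega)) hM
  have h4 : 4 * B + 2 ≤ (B + 2) ^ 3 := by nlinarith [Nat.zero_le (B ^ 3), Nat.zero_le (B ^ 2)]
  let z : ℕ → ℕ → ℕ → ℕ := fun i k => update (update (update x n (it i)) (n + 1) i) (n + 2) k
  have hz : ∀ i k, Zr (n + 3) (z i k) := fun i k => ((hx.upd _).upd _).upd _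
  have key : ∀ k i, i + k = N w x → Runs w M (.loop (nz (n + 2)) (.seq PS (.seq (clr n)
      (.seq (mov (n + 3) n (n + 4)) (.seq (inc (n + 1) (n + 4)) (dec (n + 2) (n + 4)))))))
      (0, z i k) (0, z (N w x) 0) := by
    intro k
    induction k with
    | zero =>
      intro i hi
      obtain rfl : i = N w x := by omega
      exact Runs.loopF (by simp [nz_at, z])
    | succ k ih =>
      intro i hi
      refine Runs.loopT (by simp [nz_at, z]) ?_ (ih (i + 1) (by omega))
      have b1 : it i ≤ B := hit i (by omega)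
      have b2 : it (i + 1) ≤ B := hit (i + 1) (by omega)
      have s1 : sz (n + 3) (z i (k + 1)) + 2 ≤ (B + 2) ^ 3 := by
        simp only [z]
        rw [sz_upd, sz_upd, sz_upd]; omega
      have r1 := HS w (z i (k + 1)) M (hz _ _)
        (le_trans (pw_comp cS s1) (le_trans (pw_mono _ (by omega)) hM))
      have e : res (n + 2) (z i (k + 1)) = update (update x n (it i)) (n + 1) i := by
        funext r
        simp only [res, z]
        split_ifs with hr
        · rw [update_of_ne (by omega)]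
        · exact (((hx.upd _).upd _) r (by omega)).symm
      have e2 : S w (update (update x n (it i)) (n + 1) i) = it (i + 1) := rfl
      simp only [e, e2] at r1
      have z4 : x (n + 4) = 0 := hx _ (by omega)
      refine Runs.seq r1 (Runs.seq (run_clr w M 0 n _) (Runs.seq
        (run_mov' w 0 (by omega) (by omega) (by omega) _ (by simp [z, z4]) (by simp)
          (by simp; omega))
        (Runs.seq (run_inc w 0 (by omega) _ (by simp [z, z4]) (by simp [z]; omega))
          ((run_dec w 0 (by omega) _ (by simp [z, z4]) (by simp [z]; omega)).cast ?_))))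
      congr 1
      funext r
      by_cases e0 : r = n
      · subst e0; simp [z]
      · by_cases e1 : r = n + 1
        · subst e1; simp [z]
        · by_cases e2 : r = n + 2
          · subst e2; simp [z]
          · by_cases e3 : r = n + 3
            · subst e3; simp [z, hx (n + 3) (by omega)]
            · simp [z, e0, e1, e2, e3]
  have b0 : I w x ≤ B := hit 0 (Nat.zero_le _)
  have zr1 : Zr (n + 2) (update x n (I w x)) := fun r hr => hx.upd _ r (by omega)
  have s0 : sz (n + 2) (update x n (I w x)) + 2 ≤ (B + 2) ^ 3 := by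
    have : sz (n + 2) (update x n (I w x)) = sz (n + 1) (update x n (I w x)) := by
      simp only [sz]
      rw [Finset.sum_range_succ, hx.upd _ _ le_rfl, add_zero]
    rw [this, sz_upd]; omega
  have r0 := HN w _ M zr1 (le_trans (pw_comp cN s0) (le_trans (pw_mono _ (by omega)) hM))
  have e : res n (update x n (I w x)) = x := by
    funext r
    simp only [res]
    split_ifs with hr
    · rw [update_of_ne (by omega)]
    · exact (hx r (by omega)).symm
  simp only [e] at r0
  have e1 : update (update x n (I w x)) (n + 2) (N w x) = z 0 (N w x) := by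
    simp only [z]
    congr 1
    have : update x n (it 0) (n + 1) = 0 := hx.upd _ _ le_rfl
    exact (update_eq_self_iff.2 this.symm).symm
  rw [e1] at r0
  refine Runs.seq (HI w x M hx (le_trans (Nat.pow_le_pow_left (by omega) _)
    (le_trans (pw_mono _ (by omega)) hM))) (Runs.seq r0 (Runs.seq (key _ 0 (by omega))
      ((run_clr w M 0 (n + 1) _).cast ?_)))
  congr 1
  funext r
  by_cases e0 : r = n
  · subst e0; simp [z, it]
  · by_cases e1 : r = n + 1
    · subst e1; simp [z, hx (n + 1) (by omega)]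
    · by_cases e2 : r = n + 2
      · subst e2; simp [z, hx (n + 2) (by omega)]
      · simp [z, e0, e1, e2]

theorem C.loop {n : ℕ} {N I S : List σ → (ℕ → ℕ) → ℕ} (hN : C n N) (hI : C n I)
    (hS : C (n + 2) S) (hb : ∃ c, ∀ w x, Zr n x → ∀ i ≤ N w x,
      rep i (fun i a => S w (update (update x n a) (n + 1) i)) (I w x) ≤ (sz n x + 2) ^ c) :
    C n (fun w x => rep (N w x) (fun i a => S w (update (update x n a) (n + 1) i)) (I w x)) := by
  obtain ⟨c1, h1⟩ := hN.bound
  obtain ⟨c2, h2⟩ := hb
  obtain ⟨P, c, H⟩ := C.loop_gen hN hI hS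
  refine ⟨P, (c1 + c2 + 1 + 2) * c, fun w x M hx hM => ?_⟩
  have a1 := pw_mono (sz n x) (show c1 ≤ c1 + c2 + 1 by omega)
  have a2 := pw_mono (sz n x) (show c2 ≤ c1 + c2 + 1 by omega)
  have a3 := pw_self (sz n x) (show 1 ≤ c1 + c2 + 1 by omega)
  have a4 := pw_add (B := sz n x) (c := c1 + c2 + 1) le_rfl
  refine H w x M ((sz n x + 2) ^ (c1 + c2 + 1)) hx (by omega) (le_trans (h1 w x hx) a1)
    (fun i hi => le_trans (h2 w x hx i hi) a2) (le_trans (pw_comp c (by omega)) hM)

theorem res_upd2 {n : ℕ} {x : ℕ → ℕ} (hx : Zr n x) (a i : ℕ) :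
    res n (update (update x n a) (n + 1) i) = x := by
  funext r
  simp only [res]
  split_ifs with hr
  · rw [update_of_ne (by omega), update_of_ne (by omega)]
  · exact (hx r (by omega)).symm

theorem rep_add_one (n a : ℕ) : rep n (fun _ u => u + 1) a = a + n := by
  induction n with
  | zero => rfl
  | succ n ih => rw [rep_succ, ih]; rfl

theorem rep_sub_one (n a : ℕ) : rep n (fun _ u => u - 1) a = a - n := by
  induction n with
  | zero => rfl
  | succ n ih => rw [rep_succ, ih]; rfl

theorem rep_add_const (n a : ℕ) : rep n (fun _ u => u + a) 0 = a * n := by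
  induction n with
  | zero => rfl
  | succ n ih => rw [rep_succ, ih]; rfl

theorem C.add {n : ℕ} {F G : List σ → (ℕ → ℕ) → ℕ} (hF : C n F) (hG : C n G) :
    C n (fun w x => F w x + G w x) := by
  obtain ⟨c, hc⟩ := hF.bound
  obtain ⟨d, hd⟩ := hG.bound
  refine (C.loop hG hF (C.var (show n < n + 2 by omega)).succ ⟨c + d + 1, fun w x hx i hi => ?_⟩).congr
    fun w x _ => by simp [rep_add_one]
  have a1 := pw_mono (sz n x) (show c ≤ c + d by omega)
  have a2 := pw_mono (sz n x) (show d ≤ c + d by omega)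
  have := hc w x hx
  have := hd w x hx
  simp only [ne_eq, Nat.left_eq_add, one_ne_zero, not_false_eq_true, update_of_ne, update_self,
    rep_add_one, pow_succ]
  nlinarith

theorem C.sub {n : ℕ} {F G : List σ → (ℕ → ℕ) → ℕ} (hF : C n F) (hG : C n G) :
    C n (fun w x => F w x - G w x) := by
  obtain ⟨c, hc⟩ := hF.bound
  refine (C.loop hG hF (C.var (show n < n + 2 by omega)).pred ⟨c, fun w x hx i hi => ?_⟩).congr
    fun w x _ => by simp [rep_sub_one]
  have := hc w x hx
  simp only [ne_eq, Nat.left_eq_add, one_ne_zero, not_false_eq_true, update_of_ne, update_self,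
    rep_sub_one]
  omega

theorem C.mul {n : ℕ} {F G : List σ → (ℕ → ℕ) → ℕ} (hF : C n F) (hG : C n G) :
    C n (fun w x => F w x * G w x) := by
  obtain ⟨c, hc⟩ := hF.bound
  obtain ⟨d, hd⟩ := hG.bound
  refine (C.loop hG (C.const n 0) ((C.var (show n < n + 2 by omega)).add
    (hF.weak (show n ≤ n + 2 by omega))) ⟨c + d, fun w x hx i hi => ?_⟩).congr
    fun w x hx => by simp [res_upd2 hx, rep_add_const]
  simp only [ne_eq, Nat.left_eq_add, one_ne_zero, not_false_eq_true, update_of_ne, update_self,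
    res_upd2 hx, rep_add_const, pow_add]
  exact Nat.mul_le_mul (hc w x hx) (le_trans hi (hd w x hx))

theorem C.loopT {n : ℕ} {N I S U : List σ → (ℕ → ℕ) → ℕ} (hN : C n N) (hI : C n I)
    (hS : C (n + 2) S) (hU : C n U) :
    C n (fun w x => rep (N w x)
      (fun i a => min (S w (update (update x n a) (n + 1) i)) (U w x)) (I w x)) := by
  obtain ⟨c, hc⟩ := hI.bound
  obtain ⟨d, hd⟩ := hU.bound
  refine (C.loop hN hI (hS.sub (hS.sub (hU.weak (show n ≤ n + 2 by omega))))
    ⟨c + d, fun w x hx i hi => ?_⟩).congr fun w x hx => ?_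
  · have a1 := pw_mono (sz n x) (show c ≤ c + d by omega)
    have a2 := pw_mono (sz n x) (show d ≤ c + d by omega)
    have := hc w x hx
    have := hd w x hx
    cases i with
    | zero => simp only [rep_zero]; omega
    | succ i => simp only [rep_succ, res_upd2 hx]; omega
  · congr 1
    funext i a
    rw [res_upd2 hx]; omega

/-! Reading the input. -/

open Classical in
noncomputable def sel (ψ : InSym σ → ℕ) : List (InSym σ) → Prog σ
  | [] => .act .nop
  | s :: l => .ite (.sym (fun u => decide (u = s))) (cst 1 3 (ψ s)) (sel ψ l)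

theorem run_sel (ψ : InSym σ → ℕ) (w : List σ) {M : ℕ} (hM : ∀ s, ψ s ≤ M) (h : ℕ)
    (x : ℕ → ℕ) (h1 : x 1 = 0) (h3 : x 3 = 0) (l : List (InSym σ)) (hl : readIn w h ∈ l) :
    Runs w M (sel ψ l) (h, x) (h, update x 1 (ψ (readIn w h))) := by
  induction l with
  | nil => simp at hl
  | cons s l ih =>
    by_cases e : readIn w h = s
    · refine Runs.iteT (by simp [Cond.at, Cond.ev, e]) ?_
      rw [e]
      exact run_cst w h (by omega) x h3 h1 _ (hM s)
    · refine Runs.iteF (by simp [Cond.at, Cond.ev, e]) (ih ?_)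
      simpa [e] using hl

def isLeft : InSym σ → Bool
  | .left => true
  | _ => false

theorem run_rewind (w : List σ) (M h : ℕ) (x : ℕ → ℕ) :
    Runs w M (.loop (.sym (fun s => !isLeft s)) (.act (.mv .neg))) (h, x) (0, x) := by
  induction h with
  | zero => exact Runs.loopF (by simp [Cond.at, Cond.ev, readIn, isLeft])
  | succ h ih =>
    refine Runs.loopT ?_ (Runs.act (a := .mv .neg) (s := (h + 1, x)) trivial) ih
    simp only [Cond.at, Cond.ev, readIn, Nat.succ_ne_zero, if_false]
    split <;> rfl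

theorem inSym_finite [Finite σ] : Finite (InSym σ) := by
  refine Finite.of_surjective (fun o : Option (Option σ) => match o with
    | none => InSym.left
    | some none => InSym.right
    | some (some a) => InSym.sym a) ?_
  rintro (_ | _ | a)
  · exact ⟨none, rfl⟩
  · exact ⟨some none, rfl⟩
  · exact ⟨some (some a), rfl⟩

theorem C.inp [Finite σ] (φ : Option σ → ℕ) : C 1 (fun (w : List σ) x => φ w[x 0]?) := by
  classical
  have := inSym_finite (σ := σ)
  have := Fintype.ofFinite (InSym σ)
  let ψ : InSym σ → ℕ := fun s => match s with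
    | .sym a => φ (some a)
    | _ => φ none
  refine ⟨.seq (cpy 0 2 1 3) (.seq (.act (.mv .pos)) (.seq
    (.loop (nz 2) (.seq (dec 2 3) (.act (.mv .pos)))) (.seq (sel ψ Finset.univ.toList)
      (.loop (.sym (fun s => !isLeft s)) (.act (.mv .neg)))))), (∑ s, ψ s) + 1,
    fun w x M hx hM => ?_⟩
  have hψ : ∀ s, ψ s ≤ M := fun s => by
    have h1 : ψ s ≤ ∑ s, ψ s :=
      Finset.single_le_sum (f := ψ) (fun _ _ => Nat.zero_le _) (Finset.mem_univ s)
    have h2 : (∑ s, ψ s) + 1 < 2 ^ ((∑ s, ψ s) + 1) := Nat.lt_two_pow_self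
    have h3 : 2 ^ ((∑ s, ψ s) + 1) ≤ (sz 1 x + 2) ^ ((∑ s, ψ s) + 1) :=
      Nat.pow_le_pow_left (by omega) _
    omega
  have hx0 : x 0 ≤ M := by
    have := le_sz x (show 0 < 1 by omega)
    have := pw_self (sz 1 x) (show 1 ≤ (∑ s, ψ s) + 1 by omega)
    omega
  have key : ∀ k j, k ≤ M → Runs w M (.loop (nz 2) (.seq (dec 2 3) (.act (.mv .pos))))
      (min (j + 1) (w.length + 1), update x 2 k)
      (min (j + k + 1) (w.length + 1), update x 2 0) := by
    intro k
    induction k with
    | zero => intro j _; exact Runs.loopF (by simp [nz_at])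
    | succ k ih =>
      intro j hk
      refine Runs.loopT (by simp [nz_at]) ?_
        ((ih (j + 1) (by omega)).cast (by rw [show j + 1 + k = j + (k + 1) by omega]))
      refine Runs.seq (run_dec w _ (by omega) _ (by simp [hx 3 (by omega)]) (by simpa)) ?_
      refine (Runs.act (a := .mv .pos) trivial).cast ?_
      simp only [Act.ap, moveIn, update_self, update_idem, Nat.add_sub_cancel]
      congr 1
      omega
  have k1 := key (x 0) 0 hx0
  have e : update x 2 0 = x := by rw [← hx 2 (by omega), update_eq_self]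
  rw [e, Nat.zero_add (x 0)] at k1
  refine Runs.seq (run_cpy w 0 (by omega) (by omega) (by omega) (by omega) (by omega) (by omega)
    x (hx _ (by omega)) (hx _ (by omega)) (hx _ (by omega)) hx0)
    (Runs.seq (Runs.act (a := .mv .pos) trivial) (Runs.seq k1 (Runs.seq
      (run_sel ψ w hψ _ x (hx _ le_rfl) (hx _ (by omega)) _ (by simp))
      ((run_rewind w M _ _).cast ?_))))
  congr 2
  simp only [readIn]
  rw [if_neg (by omega)]
  by_cases hl : x 0 < w.length
  · rw [show min (x 0 + 1) (w.length + 1) - 1 = x 0 by omega]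
    simp [hl, ψ]
  · rw [show min (x 0 + 1) (w.length + 1) - 1 = w.length by omega]
    simp [ψ, List.getElem?_eq_none (show w.length ≤ x 0 by omega)]

end Vale.Agent.P312
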