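import Vale.Agent.P312.Prog

/-! Compilation of while programs to multitape machines, with a space bound. -/

namespace Vale.Agent.P312

open Function

variable {σ : Type}

def dsym (b : Bool) : Fin 3 := if b then 2 else 1

/-- A tape with head position `p` holds the number `x` as a stack. -/
inductive Rep : ℕ → ℤ → (ℤ → Fin 3) → Prop
  | nil : Rep 0 0 (fun _ => 0)
  | cons {x p t} (b : Bool) : Rep x p t →
      Rep (2 * x + 1 + b.toNat) (p + 1) (update t (p + 1) (dsym b))

theorem Rep.facts {x p t} (h : Rep x p t) :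
    0 ≤ p ∧ 2 ^ p.toNat ≤ x + 1 ∧ (∀ z, p < z → t z = 0) ∧ (t p).val = top x := by
  induction h with
  | nil => simp [top]
  | @cons x p t b _ ih =>
    obtain ⟨h1, h2, h3, h4⟩ := ih
    refine ⟨by omega, ?_, ?_, ?_⟩
    · have : (p + 1).toNat = p.toNat + 1 := by omega
      rw [this, pow_succ]; omega
    · intro z hz
      rw [update_of_ne (by omega)]; exact h3 z (by omega)
    · cases b
      · simp [dsym, top]
      · have : (2 * x + 1 + 1) % 2 = 0 := by omega
        simp [dsym, top, this]

theorem Rep.pop {x p t} (h : Rep x p t) (hx : x ≠ 0) :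
    Rep ((x - 1) / 2) (p + (-1)) (update t p 0) := by
  cases h with
  | nil => exact absurd rfl hx
  | @cons x p t b h =>
    have h3 := h.facts.2.2.1 (p + 1) (by omega)
    have e1 : (2 * x + 1 + b.toNat - 1) / 2 = x := by cases b <;> simp <;> omega
    have e2 : p + 1 + (-1) = p := by omega
    have e3 : update (update t (p + 1) (dsym b)) (p + 1) 0 = t := by
      rw [update_idem, ← h3, update_eq_self]
    rw [e1, e2, e3]; exact h

def obs (k : ℕ) (g : Fin k → Fin 3) : ℕ → ℕ := fun r => if h : r < k then (g ⟨r, h⟩).val else 0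

def cδ (P : Prog σ) : ((Option (Lab P) × Option (ℕ × Bool)) ⊕ Bool) → InSym σ →
    (Fin P.bd → Fin 3) →
      ((Option (Lab P) × Option (ℕ × Bool)) ⊕ Bool) × SignType × (Fin P.bd → Fin 3 × SignType)
  | Sum.inr b, _, g => (Sum.inr b, 0, fun i => (g i, 0))
  | Sum.inl (l, some (r, b)), _, g =>
      (Sum.inl (l, none), 0, fun i => (if i.val = r then dsym b else g i, 0))
  | Sum.inl (none, none), _, g => (Sum.inr (obs P.bd g 0 == 2), 0, fun i => (g i, 0))
  | Sum.inl (some l, none), s, g =>
      match (tbl P l s (obs P.bd g)).1 with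
      | .nop => (Sum.inl ((tbl P l s (obs P.bd g)).2, none), 0, fun i => (g i, 0))
      | .mv d => (Sum.inl ((tbl P l s (obs P.bd g)).2, none), d, fun i => (g i, 0))
      | .pop r => (Sum.inl ((tbl P l s (obs P.bd g)).2, none), 0,
          fun i => if i.val = r ∧ g i ≠ 0 then (0, -1) else (g i, 0))
      | .push r b => (Sum.inl ((tbl P l s (obs P.bd g)).2, some (r, b)), 0,
          fun i => (g i, if i.val = r then 1 else 0))

/-- States that can occur. -/
def QOk (P : Prog σ) : ((Option (Lab P) × Option (ℕ × Bool)) ⊕ Bool) → Prop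
  | Sum.inl (_, some (r, _)) => r < P.bd
  | _ => True

theorem cδ_ok (P : Prog σ) (q s g) : QOk P (cδ P q s g).1 := by
  rcases q with ⟨l, _ | ⟨r, b⟩⟩ | b
  · rcases l with _ | l
    · simp [cδ, QOk]
    · have := tbl_reg P l s (obs P.bd g)
      simp only [cδ]
      split <;> simp_all [QOk, Act.reg]
  · simp [cδ, QOk]
  · simp [cδ, QOk]

theorem qok_finite (P : Prog σ) : Finite {q // QOk P q} := by
  have := lab_finite P
  let f : ((Option (Lab P) × Option (Fin P.bd × Bool)) ⊕ Bool) → {q // QOk P q} := fun q =>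
    match q with
    | Sum.inl (l, none) => ⟨Sum.inl (l, none), trivial⟩
    | Sum.inl (l, some (r, b)) => ⟨Sum.inl (l, some (r.val, b)), r.2⟩
    | Sum.inr b => ⟨Sum.inr b, trivial⟩
  refine Finite.of_surjective f ?_
  rintro ⟨⟨l, _ | ⟨r, b⟩⟩ | b, h⟩
  · exact ⟨Sum.inl (l, none), rfl⟩
  · exact ⟨Sum.inl (l, some (⟨r, h⟩, b)), rfl⟩
  · exact ⟨Sum.inr b, rfl⟩

@[reducible] def compile (P : Prog σ) : MultiTape σ where
  k := P.bd
  Q := {q // QOk P q}
  Γ := Fin 3
  finQ := qok_finite P
  finΓ := inferInstance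
  blank := 0
  start := ⟨Sum.inl (some (start P), none), trivial⟩
  halt := fun q => match q.1 with
    | Sum.inr b => some b
    | Sum.inl _ => none
  δ := fun q s g => (⟨(cδ P q.1 s g).1, cδ_ok P _ _ _⟩, (cδ P q.1 s g).2)

def Sim (P : Prog σ) (M : ℕ) (a : Option (Lab P) × St) (c : (compile P).Cfg) : Prop :=
  c.q.1 = Sum.inl (a.1, none) ∧ c.ipos = a.2.1 ∧
    (∀ i : Fin P.bd, Rep (a.2.2 i) (c.pos i) (c.tape i)) ∧ (∀ r, P.bd ≤ r → a.2.2 r = 0) ∧
    ∀ r, a.2.2 r ≤ M

def Good (P : Prog σ) (M : ℕ) (c : (compile P).Cfg) : Prop :=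
  ∀ i, 0 ≤ c.pos i ∧ c.pos i ≤ Nat.log 2 (M + 1)

theorem Rep.good {x p t M} (h : Rep x p t) (hx : x ≤ M) : 0 ≤ p ∧ p ≤ Nat.log 2 (M + 1) := by
  obtain ⟨h1, h2, -, -⟩ := h.facts
  have : p.toNat ≤ Nat.log 2 (M + 1) := Nat.le_log_of_pow_le (by norm_num) (by omega)
  omega

theorem Sim.good {P : Prog σ} {M a c} (h : Sim P M a c) : Good P M c :=
  fun i => (h.2.2.1 i).good (h.2.2.2.2 i)

theorem Sim.obs {P : Prog σ} {M a c} (h : Sim P M a c) :
    obs P.bd (fun i => c.tape i (c.pos i)) = fun r => top (a.2.2 r) := by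
  funext r
  unfold P312.obs
  split
  · rename_i hr
    exact (h.2.2.1 ⟨r, hr⟩).facts.2.2.2
  · rw [h.2.2.2.1 r (by omega)]; rfl

def Reach (P : Prog σ) (w : List σ) (M : ℕ) (c c' : (compile P).Cfg) : Prop :=
  ∃ t, ((compile P).step w)^[t] c = c' ∧ ∀ j ≤ t, Good P M (((compile P).step w)^[j] c)

theorem Reach.trans {P : Prog σ} {w M c1 c2 c3} (h1 : Reach P w M c1 c2)
    (h2 : Reach P w M c2 c3) : Reach P w M c1 c3 := by
  obtain ⟨t1, e1, g1⟩ := h1
  obtain ⟨t2, e2, g2⟩ := h2
  refine ⟨t2 + t1, by rw [iterate_add_apply, e1, e2], fun j hj => ?_⟩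
  by_cases h : j ≤ t1
  · exact g1 j h
  · have : j = (j - t1) + t1 := by omega
    rw [this, iterate_add_apply, e1]
    exact g2 _ (by omega)

theorem Reach.one {P : Prog σ} {w M c} (h1 : Good P M c) (h2 : Good P M ((compile P).step w c)) :
    Reach P w M c ((compile P).step w c) := by
  refine ⟨1, rfl, fun j hj => ?_⟩
  interval_cases j
  · exact h1
  · exact h2

theorem step_inl {P : Prog σ} (w : List σ) (c : (compile P).Cfg) {u} (h : c.q.1 = Sum.inl u) :
    ((compile P).step w c).q.1 = (cδ P (Sum.inl u) (readIn w c.ipos)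
        (fun i => c.tape i (c.pos i))).1 ∧
    ((compile P).step w c).ipos = moveIn w.length c.ipos (cδ P (Sum.inl u) (readIn w c.ipos)
        (fun i => c.tape i (c.pos i))).2.1 ∧
    (∀ i, ((compile P).step w c).pos i = c.pos i + (((cδ P (Sum.inl u) (readIn w c.ipos)
        (fun i => c.tape i (c.pos i))).2.2 i).2 : ℤ)) ∧
    (∀ i, ((compile P).step w c).tape i = update (c.tape i) (c.pos i)
        ((cδ P (Sum.inl u) (readIn w c.ipos) (fun i => c.tape i (c.pos i))).2.2 i).1) := by
  have hh : (compile P).halt c.q = none := by simp only [compile, h]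
  unfold MultiTape.step
  rw [hh, ← h]
  exact ⟨rfl, rfl, fun _ => rfl, fun _ => rfl⟩

theorem sim_step {P : Prog σ} {w : List σ} {M a b c} (hs : Sim P M a c) (h : Stp w M P a b) :
    ∃ c', Reach P w M c c' ∧ Sim P M b c' := by
  obtain ⟨l, h1, h2, h3, h4⟩ := h
  have hq : c.q.1 = Sum.inl (some l, none) := by rw [hs.1, h1]
  obtain ⟨s1, s2, s3, s4⟩ := step_inl w c hq
  have hreg := tbl_reg P l (readIn w a.2.1) (fun r => top (a.2.2 r))
  simp only [cδ, hs.obs, hs.2.1] at s1 s2 s3 s4
  rw [← h3] at s1 s2 s3 s4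
  obtain ⟨-, -, r1, r2, r3⟩ := id hs
  generalize (tbl P l (readIn w a.2.1) (fun r => top (a.2.2 r))).1 = A at *
  cases A
  all_goals simp only [] at s1 s2 s3 s4
  case nop =>
    have : Sim P M b ((compile P).step w c) := by
      refine ⟨s1, ?_, fun i => ?_, ?_, ?_⟩
      · rw [s2, h4]; rfl
      · rw [s3, s4, h4]; simpa [Act.ap] using r1 i
      · rw [h4]; exact r2
      · rw [h4]; exact r3
    exact ⟨_, Reach.one hs.good this.good, this⟩
  case mv d =>
    have : Sim P M b ((compile P).step w c) := by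
      refine ⟨s1, ?_, fun i => ?_, ?_, ?_⟩
      · rw [s2, h4]; rfl
      · rw [s3, s4, h4]; simpa [Act.ap] using r1 i
      · rw [h4]; exact r2
      · rw [h4]; exact r3
    exact ⟨_, Reach.one hs.good this.good, this⟩
  case pop r =>
    have : Sim P M b ((compile P).step w c) := by
      refine ⟨s1, ?_, fun i => ?_, ?_, ?_⟩
      · rw [s2, h4]; rfl
      · rw [s3, s4, h4]
        have ht := (r1 i).facts.2.2.2
        by_cases hi : i.val = r
        · subst hi
          by_cases hz : a.2.2 i = 0
          · have : c.tape i (c.pos i) = 0 := by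
              apply Fin.ext; rw [ht, hz]; rfl
            have e : (a.2.2 i - 1) / 2 = a.2.2 i := by rw [hz]
            simp only [Act.ap, update_self, e, this, ne_eq, not_true_eq_false, and_false,
              if_false, SignType.coe_zero, add_zero]
            rw [← this, update_eq_self]
            exact r1 i
          · have : c.tape i (c.pos i) ≠ 0 := by
              intro h0
              rw [h0] at ht
              simp only [top, hz, if_false] at ht
              split at ht <;> simp at ht
            simpa [Act.ap, this] using (r1 i).pop hz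
        · simpa [Act.ap, hi, update_of_ne hi] using r1 i
      · rw [h4]; intro r' hr'
        simp only [Act.reg] at hreg
        simp only [Act.ap]
        rw [update_of_ne (by omega)]; exact r2 r' hr'
      · rw [h4]; intro r'
        simp only [Act.ap]
        by_cases hr : r' = r
        · subst hr; have := r3 r'; simp only [update_self]; omega
        · rw [update_of_ne hr]; exact r3 r'
    exact ⟨_, Reach.one hs.good this.good, this⟩
  case push r β =>
    simp only [Act.reg] at hreg
    simp only [Act.ok] at h2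
    obtain ⟨t1, t2, t3, t4⟩ := step_inl w ((compile P).step w c) s1
    simp only [cδ] at t1 t2 t3 t4
    have key : Sim P M b ((compile P).step w ((compile P).step w c)) := by
      refine ⟨t1, ?_, fun i => ?_, ?_, ?_⟩
      · rw [t2, s2, h4]; rfl
      · rw [t3, t4, s3, s4, h4]
        by_cases hi : i.val = r
        · subst hi
          simpa [Act.ap] using (r1 i).cons β
        · simpa [Act.ap, hi, update_of_ne hi] using r1 i
      · rw [h4]; intro r' hr'
        simp only [Act.ap]
        rw [update_of_ne (by omega)]; exact r2 r' hr'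
      · rw [h4]; intro r'
        simp only [Act.ap]
        by_cases hr : r' = r
        · subst hr; simpa using h2
        · rw [update_of_ne hr]; exact r3 r'
    have g1 : Good P M ((compile P).step w c) := by
      intro i
      have := key.good i
      rw [t3] at this
      simpa using this
    exact ⟨_, (Reach.one hs.good g1).trans (Reach.one g1 key.good), key⟩

theorem space_of_prog (P : Prog σ) : ∃ (Mc : MultiTape σ) (k : ℕ), ∀ (w : List σ) (M h : ℕ)
    (x : ℕ → ℕ), Runs w M P (0, fun _ => 0) (h, x) →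
      ∃ (T : ℕ) (S : Finset (Fin Mc.k × ℤ)),
        Mc.halt ((Mc.step w)^[T] Mc.init).q = some (top (x 0) == 2) ∧
        (∀ j ≤ T, ∀ i, (i, ((Mc.step w)^[j] Mc.init).pos i) ∈ S) ∧
        S.card ≤ k * (Nat.log 2 (M + 1) + 1) := by
  refine ⟨compile P, P.bd, fun w M h x H => ?_⟩
  have h0 : Sim P M (some (start P), (0, fun _ => 0)) (compile P).init :=
    ⟨rfl, rfl, fun _ => Rep.nil, fun _ _ => rfl, fun _ => Nat.zero_le _⟩
  have key : ∀ b, Relation.ReflTransGen (Stp w M P) (some (start P), (0, fun _ => 0)) b →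
      ∃ c', Reach P w M (compile P).init c' ∧ Sim P M b c' := by
    intro b hb
    induction hb with
    | refl => exact ⟨_, ⟨0, rfl, fun j hj => by
        obtain rfl : j = 0 := by omega
        exact h0.good⟩, h0⟩
    | tail _ hst ih =>
      obtain ⟨c1, a1, b1⟩ := ih
      obtain ⟨c2, a2, b2⟩ := sim_step b1 hst
      exact ⟨c2, a1.trans a2, b2⟩
  obtain ⟨c, hr, hs⟩ := key _ H.steps
  obtain ⟨s1, s2, s3, s4⟩ := step_inl w c hs.1
  simp only [cδ, hs.obs] at s1 s3
  have g1 : Good P M ((compile P).step w c) := by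
    intro i
    rw [s3]; simpa using hs.good i
  obtain ⟨T, e, g⟩ := hr.trans (Reach.one hs.good g1)
  refine ⟨T, Finset.univ ×ˢ Finset.Icc (0 : ℤ) (Nat.log 2 (M + 1)), ?_, ?_, ?_⟩
  · rw [e]
    simp only [compile] at s1 ⊢
    rw [s1]
  · intro j hj i
    simpa using g j hj i
  · simp only [Finset.card_product, Finset.card_univ, Fintype.card_fin, Int.card_Icc]
    apply Nat.mul_le_mul le_rfl
    omega

end Vale.Agent.P312
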