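import Mathlib

/-! Machine models for P312: one-tape time and multitape space. -/

namespace Vale.Agent.P312

/-- A deterministic one-tape Turing machine with input alphabet `σ`: finite state set `Q`,
finite tape alphabet `Γ`, one two-way infinite read/write tape with one head.
`halt q = some b` means that `q` is a halting state with answer `b`. -/
structure OneTape (σ : Type) where
  Q : Type
  Γ : Type
  finQ : Finite Q
  finΓ : Finite Γ
  blank : Γ
  inp : σ → Γ
  start : Q
  halt : Q → Option Bool
  δ : Q → Γ → Q × Γ × SignType

/-- Configuration of a one-tape machine: state, head position, tape contents. -/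
structure OneTape.Cfg {σ : Type} (M : OneTape σ) where
  q : M.Q
  pos : ℤ
  tape : ℤ → M.Γ

/-- Initial configuration: the input is written on cells `0, …, n-1`, all other cells are blank,
the head is on cell `0`. -/
def OneTape.init {σ : Type} (M : OneTape σ) (w : List σ) : M.Cfg where
  q := M.start
  pos := 0
  tape := fun z => if 0 ≤ z then ((w[z.toNat]?).map M.inp).getD M.blank else M.blank

/-- One step: write, move the head by `-1`, `0` or `1`, change state.
A halted configuration does not change. -/
def OneTape.step {σ : Type} (M : OneTape σ) (c : M.Cfg) : M.Cfg :=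
  match M.halt c.q with
  | some _ => c
  | none =>
    { q := (M.δ c.q (c.tape c.pos)).1
      pos := c.pos + ((M.δ c.q (c.tape c.pos)).2.2 : ℤ)
      tape := Function.update c.tape c.pos (M.δ c.q (c.tape c.pos)).2.1 }

/-- Languages decided by a one-tape machine that halts within `t n` steps on every input of
length `n`. -/
def TIME1 (σ : Type) (t : ℕ → ℕ) : Set (Language σ) :=
  {L | ∃ M : OneTape σ, ∀ w : List σ, ∃ b : Bool,
    M.halt (M.step^[t w.length] (M.init w)).q = some b ∧ (b = true ↔ w ∈ L)}

/-- Symbols on the read-only input tape: the two end markers and the input letters. -/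
inductive InSym (σ : Type) where
  | left : InSym σ
  | right : InSym σ
  | sym : σ → InSym σ

/-- The symbol in cell `h` of the input tape: left marker, then the input, then right marker. -/
def readIn {σ : Type} (w : List σ) (h : ℕ) : InSym σ :=
  if h = 0 then InSym.left else
    match w[h - 1]? with
    | some a => InSym.sym a
    | none => InSym.right

/-- Move of the input head on an input of length `n`; it stays within cells `0, …, n+1`. -/
def moveIn (n h : ℕ) (d : SignType) : ℕ :=
  match d with
  | SignType.neg => h - 1
  | SignType.zero => h
  | SignType.pos => min (h + 1) (n + 1)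

/-- A deterministic multitape Turing machine with a read-only input tape and `k` work tapes. -/
structure MultiTape (σ : Type) where
  k : ℕ
  Q : Type
  Γ : Type
  finQ : Finite Q
  finΓ : Finite Γ
  blank : Γ
  start : Q
  halt : Q → Option Bool
  δ : Q → InSym σ → (Fin k → Γ) → Q × SignType × (Fin k → Γ × SignType)

/-- Configuration: state, input head, work heads, work tape contents. -/
structure MultiTape.Cfg {σ : Type} (M : MultiTape σ) where
  q : M.Q
  ipos : ℕ
  pos : Fin M.k → ℤ
  tape : Fin M.k → ℤ → M.Γ

/-- Initial configuration: all work tapes blank, all heads on cell `0`. -/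
def MultiTape.init {σ : Type} (M : MultiTape σ) : M.Cfg where
  q := M.start
  ipos := 0
  pos := fun _ => 0
  tape := fun _ _ => M.blank

/-- One step on input `w`. A halted configuration does not change. -/
def MultiTape.step {σ : Type} (M : MultiTape σ) (w : List σ) (c : M.Cfg) : M.Cfg :=
  match M.halt c.q with
  | some _ => c
  | none =>
    { q := (M.δ c.q (readIn w c.ipos) (fun i => c.tape i (c.pos i))).1
      ipos := moveIn w.length c.ipos (M.δ c.q (readIn w c.ipos) (fun i => c.tape i (c.pos i))).2.1
      pos := fun i => c.pos i +
        (((M.δ c.q (readIn w c.ipos) (fun i => c.tape i (c.pos i))).2.2 i).2 : ℤ)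
      tape := fun i => Function.update (c.tape i) (c.pos i)
        ((M.δ c.q (readIn w c.ipos) (fun i => c.tape i (c.pos i))).2.2 i).1 }

/-- Languages decided by a multitape machine that halts on every input and, on inputs of length
`n`, visits at most `C * s n + C` work-tape cells (`S` contains every visited cell). -/
def SPACE (σ : Type) (s : ℕ → ℝ) : Set (Language σ) :=
  {L | ∃ (M : MultiTape σ) (C : ℝ), ∀ w : List σ,
    ∃ (T : ℕ) (b : Bool) (S : Finset (Fin M.k × ℤ)),
      M.halt ((M.step w)^[T] M.init).q = some b ∧ (b = true ↔ w ∈ L) ∧
      (∀ j ≤ T, ∀ i, (i, ((M.step w)^[j] M.init).pos i) ∈ S) ∧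
      (S.card : ℝ) ≤ C * s w.length + C}

end Vale.Agent.P312
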