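import Vale.Agent.P312.Algo
import Vale.Agent.P312.CMSem

/-! Epochs of the numeric machine and the values of the nodes. -/

namespace Vale.Agent.P312

open Function

variable {σ : Type} (N : NM σ)

def nstep (c : ℕ × ℕ × (ℕ → ℕ)) : ℕ × ℕ × (ℕ → ℕ) :=
  (N.dq (c.1 * N.G + c.2.2 c.2.1), c.2.1 + N.dm (c.1 * N.G + c.2.2 c.2.1) - 1,
    update c.2.2 c.2.1 (N.ds (c.1 * N.G + c.2.2 c.2.1)))

def nrun (w : List σ) (O τ : ℕ) : ℕ × ℕ × (ℕ → ℕ) := (nstep N)^[τ] (N.q0, O, tape0 N w O)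

theorem nrun_succ (w : List σ) (O τ : ℕ) : nrun N w O (τ + 1) = nstep N (nrun N w O τ) :=
  iterate_succ_apply' _ _ _

theorem nrun_inv (w : List σ) (O τ : ℕ) : (nrun N w O τ).1 < N.nq ∧ (nrun N w O τ).2.1 ≤ O + τ ∧
    ∀ z, (nrun N w O τ).2.2 z < N.G := by
  induction τ with
  | zero =>
    refine ⟨N.q0_lt, le_rfl, fun z => ?_⟩
    simp only [nrun, iterate_zero, id, tape0]
    split_ifs <;> exact N.φ_lt _
  | succ τ ih =>
    obtain ⟨h1, h2, h3⟩ := ih
    rw [nrun_succ]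
    refine ⟨N.dq_lt _ h1 _ (h3 _), ?_, fun z => ?_⟩
    · have := N.dm_le ((nrun N w O τ).1 * N.G + (nrun N w O τ).2.2 (nrun N w O τ).2.1)
      simp only [nstep]; omega
    · simp only [nstep]
      by_cases e : z = (nrun N w O τ).2.1
      · rw [e, update_self]; exact N.ds_lt _ h1 _ (h3 _)
      · rw [update_of_ne e]; exact h3 z

/-- Hypotheses on the context. -/
structure GoodX (x : X σ) : Prop where
  b_pos : 0 < x.2.1
  U_eq : x.2.2.1 = 2 ^ pS N x.2.1
  off_lt : x.2.2.2 < x.2.1 * x.2.1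

def cfg (x : X σ) (τ : ℕ) : ℕ × ℕ × (ℕ → ℕ) := nrun N x.1 (pT x.2.1 + x.2.2.2) τ
def rec_ (x : X σ) (τ : ℕ) : ℕ := rc (cfg N x τ).1 (cfg N x τ).2.1 τ
def cont (x : X σ) (τ i : ℕ) : ℕ :=
  mk N.G (x.2.1 * x.2.1) (fun j => (cfg N x τ).2.2 (i * (x.2.1 * x.2.1) + j))
def bk (x : X σ) (τ : ℕ) : ℕ := (cfg N x τ).2.1 / (x.2.1 * x.2.1)

/-! Size estimates. -/

theorem lg_pos (b : ℕ) : 0 < lg b := by simp [lg]
theorem lt_lg (b : ℕ) : b < 2 ^ lg b := Nat.lt_pow_succ_log_self (by omega) b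
theorem lg_le {b : ℕ} (h : 0 < b) : lg b ≤ b := Nat.log_lt_self 2 (by omega)

theorem pe_le (b : ℕ) : pe N b ≤ 4 * (N.nq + 9) * lg b := by
  have := lg_pos b
  unfold pe; nlinarith

theorem pm_le {b : ℕ} (h : 0 < b) : pm N b ≤ (N.G + 8 * (N.nq + 9)) * (b * b) * lg b := by
  have h1 := lg_pos b
  have h2 := pe_le N b
  have h3 : 0 < b * b := by positivity
  have h4 : pe N b * (b * b + 1) ≤ (4 * (N.nq + 9) * lg b) * (2 * (b * b)) :=
    Nat.mul_le_mul h2 (by omega)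
  have h5 : N.G * (b * b) ≤ N.G * (b * b) * lg b := Nat.le_mul_of_pos_right _ h1
  unfold pm; nlinarith

theorem pm_pos (b : ℕ) : 0 < pm N b := by unfold pm pe; positivity

theorem pp_spec (b : ℕ) : (pp N b).Prime ∧ b * (pm N b + pm N b + 1) + pm N b + 1 < pp N b ∧
    pp N b ≤ 2 * (b * (pm N b + pm N b + 1) + pm N b + 1) + 1 := nprime_spec (by omega)

theorem pp_le {b : ℕ} (h : 0 < b) : pp N b ≤ 2 ^ plp N b := by
  have h1 := (pp_spec N b).2.2
  have h2 := pm_pos N b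
  have h3 := pm_le N h
  have h4 := lg_le h
  set c := N.G + 8 * (N.nq + 9)
  have h5 : pm N b ≤ c * (b * b) * b := le_trans h3 (Nat.mul_le_mul_left _ h4)
  have h6 : pp N b ≤ 11 * (b * pm N b) := by nlinarith
  have h7 : 11 * c ≤ 2 ^ (11 * c) := Nat.lt_two_pow_self.le
  have h8 : b ^ 4 ≤ 2 ^ (4 * lg b) := by
    rw [mul_comm, pow_mul]; exact Nat.pow_le_pow_left (lt_lg b).le 4
  calc pp N b ≤ 11 * (b * (c * (b * b) * b)) := le_trans h6 (by gcongr)
    _ = (11 * c) * b ^ 4 := by ring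
    _ ≤ 2 ^ (11 * c) * 2 ^ (4 * lg b) := Nat.mul_le_mul h7 h8
    _ = 2 ^ plp N b := by rw [← pow_add]; rfl

theorem plp_pos (b : ℕ) : 0 < plp N b := by unfold plp; positivity

theorem pm_le_pS (b : ℕ) : pm N b ≤ pS N b := by
  have := plp_pos N b
  unfold pS; nlinarith [Nat.zero_le (b * (b + 1) * (plp N b + 4 + lg b)),
    Nat.zero_le ((b + 1) * (pe N b * (b + 1))), Nat.zero_le (lg b)]

variable {N}

theorem GoodX.pow_le {x : X σ} (h : GoodX N x) {n : ℕ} (hn : n ≤ pS N x.2.1) :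
    2 ^ n ≤ x.2.2.1 := by
  rw [h.U_eq]; exact Nat.pow_le_pow_right (by omega) hn

theorem GoodX.xM {x : X σ} (h : GoodX N x) : xM N x = 2 ^ pm N x.2.1 :=
  powT_eq (by omega) (h.pow_le (pm_le_pS N _))

theorem GoodX.D_pow {x : X σ} (h : GoodX N x) {n : ℕ} (hn : n ≤ x.2.1 * x.2.1 + 1) :
    (2 ^ pe N x.2.1) ^ n ≤ x.2.2.1 := by
  rw [← pow_mul]
  refine h.pow_le (le_trans ?_ (pm_le_pS N _))
  have := Nat.mul_le_mul_left (pe N x.2.1) hn
  unfold pm; omega

theorem GoodX.xD {x : X σ} (h : GoodX N x) : xD N x = 2 ^ pe N x.2.1 :=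
  powT_eq (by omega) (by simpa using h.D_pow (n := 1) (by omega))

theorem GoodX.xZ {x : X σ} (h : GoodX N x) : xZ N x = (2 ^ pe N x.2.1) ^ (x.2.1 + 1) := by
  have := h.D_pow (n := x.2.1 + 1) (by have := h.b_pos; nlinarith)
  rw [← pow_mul] at this ⊢
  exact powT_eq (by omega) this

theorem G_pos : 0 < N.G := lt_of_le_of_lt (Nat.zero_le _) (N.φ_lt none)

theorem G_pow_le (n : ℕ) : N.G ^ n ≤ 2 ^ (N.G * n) := by
  rw [pow_mul]; exact Nat.pow_le_pow_left Nat.lt_two_pow_self.le n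

theorem GoodX.G_le {x : X σ} (h : GoodX N x) : N.G ^ (x.2.1 * x.2.1) ≤ x.2.2.1 :=
  le_trans (G_pow_le _) (h.pow_le (le_trans (by unfold pm; omega) (pm_le_pS N _)))

theorem GoodX.xG {x : X σ} (h : GoodX N x) : xG N x = N.G ^ (x.2.1 * x.2.1) :=
  powT_eq G_pos h.G_le

theorem cont_lt (x : X σ) (τ i : ℕ) : cont N x τ i < N.G ^ (x.2.1 * x.2.1) :=
  mk_lt _ fun _ _ => (nrun_inv N _ _ _).2.2 _

theorem GoodX.rec_lt {x : X σ} (h : GoodX N x) {τ : ℕ} (hτ : τ ≤ pT x.2.1) :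
    rec_ N x τ < 2 ^ pe N x.2.1 := by
  obtain ⟨h1, h2, -⟩ := nrun_inv N x.1 (pT x.2.1 + x.2.2.2) τ
  have h3 := h.off_lt
  have hb := h.b_pos
  set b := x.2.1
  set K := (N.nq + 4) * pT b with hK
  have hT : b * b ≤ pT b := by
    unfold pT
    have : 0 < b * b * b := by positivity
    nlinarith
  have hT0 : 0 < pT b := by unfold pT; positivity
  have k1 : max (cfg N x τ).2.1 τ + 1 ≤ K := by
    unfold cfg; rw [hK]; nlinarith [max_le h2 (show τ ≤ pT b + x.2.2.2 + τ by omega)]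
  have k2 : Nat.pair (cfg N x τ).2.1 τ < K ^ 2 :=
    lt_of_lt_of_le (Nat.pair_lt_max_add_one_sq _ _) (Nat.pow_le_pow_left k1 2)
  have k3 : (cfg N x τ).1 < K ^ 2 := by
    have : N.nq ≤ K := by rw [hK]; nlinarith
    unfold cfg; nlinarith
  have k4 : rec_ N x τ < (K ^ 2) ^ 2 :=
    lt_of_lt_of_le (Nat.pair_lt_max_add_one_sq _ _) (Nat.pow_le_pow_left (by omega) 2)
  have k5 : K ≤ 2 ^ (N.nq + 4 + 5 * lg b) := by
    rw [pow_add, hK]
    refine Nat.mul_le_mul Nat.lt_two_pow_self.le ?_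
    rw [mul_comm, pow_mul]
    have := Nat.pow_le_pow_left (lt_lg b).le 5
    unfold pT; nlinarith
  refine lt_of_lt_of_le k4 ?_
  rw [← pow_mul, pe, mul_comm 4, pow_mul 2]
  exact Nat.pow_le_pow_left k5 4

/-! One epoch. -/

def adv (N : NM σ) (x : X σ) (i τ : ℕ) : ℕ := if τ < pT x.2.1 ∧ bk N x τ = i then τ + 1 else τ

theorem GoodX.lstep {x : X σ} (h : GoodX N x) (i τ : ℕ) :
    lstep N x.2.2.1 x.2.1 i (rec_ N x τ, cont N x τ i) =
      (rec_ N x (adv N x i τ), cont N x (adv N x i τ) i) ∧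
    ∀ i' ≠ i, cont N x (adv N x i τ) i' = cont N x τ i' := by
  have hw : 0 < x.2.1 * x.2.1 := by have := h.b_pos; positivity
  have hG : (cfg N x τ).1 < N.nq ∧ (cfg N x τ).2.1 ≤ pT x.2.1 + x.2.2.2 + τ ∧
      ∀ z, (cfg N x τ).2.2 z < N.G := nrun_inv N x.1 (pT x.2.1 + x.2.2.2) τ
  unfold P312.lstep adv bk
  simp only [rec_, rt_rc, rp_rc, rq_rc]
  split_ifs with hc
  · have e : i * (x.2.1 * x.2.1) + (cfg N x τ).2.1 % (x.2.1 * x.2.1) = (cfg N x τ).2.1 := by
      rw [← hc.2]; exact Nat.div_add_mod' _ _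
    have e1 : dig N.G (cont N x τ i) ((cfg N x τ).2.1 % (x.2.1 * x.2.1)) =
        (cfg N x τ).2.2 (cfg N x τ).2.1 := by
      rw [cont, dig_mk _ (fun _ _ => hG.2.2 _) _ (Nat.mod_lt _ hw), e]
    have e2 : cfg N x (τ + 1) = nstep N (cfg N x τ) := nrun_succ _ _ _ _
    constructor
    · simp only [lcore, e1, rp_rc, rt_rc, e2, nstep, Prod.mk.injEq, true_and]
      rw [mkT_eq _ h.G_le, cont.eq_def N x (τ + 1), e2]
      · refine mk_congr _ _ fun j hj => ?_
        simp only [nstep]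
        split_ifs with hj'
        · rw [hj', e, update_self]
        · rw [update_of_ne (by omega), cont, dig_mk _ (fun _ _ => hG.2.2 _) _ hj]
      · intro j _
        split_ifs
        · exact N.ds_lt _ hG.1 _ (hG.2.2 _)
        · exact dig_lt G_pos _ _
    · intro i' hi'
      rw [cont, cont, e2]
      refine mk_congr _ _ fun j hj => ?_
      simp only [nstep]
      rw [update_of_ne]
      intro hc'
      apply hi'
      rw [← hc.2, ← hc', mul_comm i', Nat.mul_add_div hw, Nat.div_eq_of_lt hj, add_zero]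
  · exact ⟨rfl, fun _ _ => rfl⟩

theorem adv_inv (x : X σ) (i τ : ℕ) (hτ : τ ≤ pT x.2.1) (n : ℕ) :
    τ ≤ rep n (fun _ => adv N x i) τ ∧ rep n (fun _ => adv N x i) τ ≤ pT x.2.1 ∧
    (τ + n ≤ rep n (fun _ => adv N x i) τ ∨ rep n (fun _ => adv N x i) τ = pT x.2.1 ∨
      bk N x (rep n (fun _ => adv N x i) τ) ≠ i) := by
  induction n with
  | zero => simp [hτ]
  | succ n ih =>
    rw [rep_succ]
    generalize rep n (fun _ => adv N x i) τ = s at ih
    unfold adv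
    split_ifs with hc
    · omega
    · by_cases h1 : bk N x s = i
      · omega
      · exact ⟨ih.1, ih.2.1, Or.inr (Or.inr h1)⟩

def nxt (N : NM σ) (x : X σ) (τ : ℕ) : ℕ := rep (pT x.2.1) (fun _ => adv N x (bk N x τ)) τ

theorem GoodX.D_le {x : X σ} (h : GoodX N x) : 2 ^ pe N x.2.1 ≤ x.2.2.1 := by
  simpa using h.D_pow (n := 1) (by omega)

theorem GoodX.epoch {x : X σ} (h : GoodX N x) {τ : ℕ} (hτ : τ ≤ pT x.2.1) :
    epoch N x.2.2.1 x.2.1 (rec_ N x τ) (cont N x τ (bk N x τ)) =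
      (rec_ N x (nxt N x τ), cont N x (nxt N x τ) (bk N x τ)) ∧
    ∀ i' ≠ bk N x τ, cont N x (nxt N x τ) i' = cont N x τ i' := by
  have key : ∀ n, rep n (fun _ => P312.lstep N x.2.2.1 x.2.1 (bk N x τ))
      (rec_ N x τ, cont N x τ (bk N x τ)) =
      (rec_ N x (rep n (fun _ => adv N x (bk N x τ)) τ),
        cont N x (rep n (fun _ => adv N x (bk N x τ)) τ) (bk N x τ)) ∧
      ∀ i' ≠ bk N x τ, cont N x (rep n (fun _ => adv N x (bk N x τ)) τ) i' = cont N x τ i' := by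
    intro n
    induction n with
    | zero => exact ⟨rfl, fun _ _ => rfl⟩
    | succ n ih =>
      rw [rep_succ, rep_succ, ih.1]
      exact ⟨(h.lstep _ _).1, fun i' hi' => ((h.lstep _ _).2 i' hi').trans (ih.2 i' hi')⟩
  refine ⟨?_, (key _).2⟩
  have e : rp (rec_ N x τ) / (x.2.1 * x.2.1) = bk N x τ := by simp [rec_, bk]
  rw [P312.epoch, e, repT_eq, (key _).1]
  · rfl
  · intro n _
    rw [(key _).1, tr_prod, tr_nat, tr_nat]
    · exact le_trans (cont_lt _ _ _).le h.G_le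
    · exact le_trans (h.rec_lt (adv_inv x _ τ hτ _).2.1).le h.D_le

/-- Time at which epoch `r` starts. -/
def et (N : NM σ) (x : X σ) (r : ℕ) : ℕ := (nxt N x)^[r] 0

theorem et_succ (x : X σ) (r : ℕ) : et N x (r + 1) = nxt N x (et N x r) :=
  iterate_succ_apply' _ _ _

theorem et_le (x : X σ) (r : ℕ) : et N x r ≤ pT x.2.1 := by
  induction r with
  | zero => exact Nat.zero_le _
  | succ r ih => rw [et_succ]; exact (adv_inv x _ _ ih _).2.1

def cr (N : NM σ) (x : X σ) (τ : ℕ) : ℕ :=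
  ((Finset.range τ).filter (fun j => bk N x j ≠ bk N x (j + 1))).card

theorem cr_mono (x : X σ) {a b : ℕ} (h : a ≤ b) : cr N x a ≤ cr N x b :=
  Finset.card_le_card (Finset.filter_subset_filter _ (Finset.range_mono h))

theorem cr_lt (x : X σ) {a b : ℕ} (h : a ≤ b) (hne : bk N x b ≠ bk N x a) :
    cr N x a < cr N x b := by
  induction b, h using Nat.le_induction with
  | base => exact absurd rfl hne
  | succ b hb ih =>
    by_cases e : bk N x b = bk N x a
    · have : cr N x (b + 1) = cr N x b + 1 := by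
        unfold cr
        rw [Finset.range_add_one, Finset.filter_insert, if_pos (by rw [e]; exact hne.symm),
          Finset.card_insert_of_notMem (by simp)]
      have := cr_mono (N := N) x hb
      omega
    · exact lt_of_lt_of_le (ih e) (cr_mono x (by omega))

theorem et_done (x : X σ) (r : ℕ) : et N x r = pT x.2.1 ∨ r ≤ cr N x (et N x r) := by
  induction r with
  | zero => exact Or.inr (Nat.zero_le _)
  | succ r ih =>
    obtain ⟨h1, h2, h3⟩ := adv_inv (N := N) x (bk N x (et N x r)) _ (et_le (N := N) x r) (pT x.2.1)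
    rw [et_succ]
    unfold nxt
    rcases ih with ih | ih
    · left; omega
    · rcases h3 with h3 | h3 | h3
      · left; omega
      · left; exact h3
      · right; have := cr_lt x h1 h3; omega

def RR (N : NM σ) (x : X σ) (r : ℕ) : ℕ := rec_ N x (et N x r)
def BB (N : NM σ) (x : X σ) (r i : ℕ) : ℕ := cont N x (et N x r) i

theorem GoodX.RR_lt {x : X σ} (h : GoodX N x) (r : ℕ) : RR N x r < 2 ^ pe N x.2.1 :=
  h.rec_lt (et_le x r)

theorem GoodX.epoch_RR {x : X σ} (h : GoodX N x) (r : ℕ) :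
    P312.epoch N x.2.2.1 x.2.1 (RR N x r) (BB N x r (rp (RR N x r) / (x.2.1 * x.2.1))) =
      (RR N x (r + 1), BB N x (r + 1) (rp (RR N x r) / (x.2.1 * x.2.1))) ∧
    ∀ i ≠ rp (RR N x r) / (x.2.1 * x.2.1), BB N x (r + 1) i = BB N x r i := by
  have e : rp (RR N x r) / (x.2.1 * x.2.1) = bk N x (et N x r) := by simp [RR, rec_, bk]
  rw [e]
  simp only [RR, BB, et_succ]
  exact h.epoch (et_le x r)

theorem GoodX.replay {x : X σ} (h : GoodX N x) (i r0 n : ℕ) (hist : ℕ → ℕ)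
    (hh : ∀ a < n, hist a = RR N x (r0 + a)) :
    replay N x.2.2.1 x.2.1 i (BB N x r0 i) n hist = BB N x (r0 + n) i := by
  have key : ∀ n' ≤ n, rep n' (fun a c => if rp (hist a) / (x.2.1 * x.2.1) = i then
      (P312.epoch N x.2.2.1 x.2.1 (hist a) c).2 else c) (BB N x r0 i) = BB N x (r0 + n') i := by
    intro n'
    induction n' with
    | zero => intro _; rfl
    | succ n' ih =>
      intro hn
      rw [rep_succ, ih (by omega), hh n' (by omega)]
      split_ifs with hc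
      · rw [← hc, (h.epoch_RR _).1]; rfl
      · exact ((h.epoch_RR _).2 i (fun e => hc e.symm)).symm
  rw [P312.replay, repT_eq, key n le_rfl]
  intro a ha
  rw [key _ ha]
  exact tr_nat (le_trans (cont_lt _ _ _).le h.G_le)

end Vale.Agent.P312
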