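import Vale.Agent.P312.Spec

/-! The numeric program computes the node values. -/

namespace Vale.Agent.P312

open Finset

variable {σ : Type} {N : NM σ}

theorem L_bound {p b Zm : ℕ} (hp : 2 ≤ p) (hb : 0 < b) (hZ : 0 < Zm) (g : ℕ) :
    1 ≤ (Lp p b b Zm g).1 ∧ (Lp p b b Zm g).1 ≤ (11 * p * b) ^ g * Zm ^ ((g + b - 1) / b) := by
  induction g using Nat.strong_induction_on with
  | _ g IH =>
    rcases g with _ | g
    · simp [Lp, Nat.one_le_iff_ne_zero]
    have e : (Lp p b b Zm (g + 1)).1 = Lf p b Zm (Lp p b b Zm g).1 (Lp p b b Zm (base b g)).1 := by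
      rw [← Lp_snd]; rfl
    obtain ⟨a1, a2⟩ := IH g (by omega)
    obtain ⟨c1, c2⟩ := IH (base b g) (by have := base_le b g; omega)
    rw [e]
    generalize (Lp p b b Zm g).1 = a at *
    generalize (Lp p b b Zm (base b g)).1 = c at *
    have e1 : (g + 1 + b - 1) / b = g / b + 1 := by
      rw [show g + 1 + b - 1 = g + b by omega, Nat.add_div_right _ hb]
    have e2 : (base b g + b - 1) / b = g / b := by
      rw [base_eq, show b * (g / b) + b - 1 = b * (g / b) + (b - 1) by omega,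
        Nat.mul_add_div hb, Nat.div_eq_of_lt (show b - 1 < b by omega), add_zero]
    have e3 : (g + b - 1) / b ≤ g / b + 1 := by
      rw [← e1]; exact Nat.div_le_div_right (by omega)
    rw [e1]
    rw [e2] at c2
    have hΛ : 0 < 11 * p * b := by positivity
    set Y := (11 * p * b) ^ g * Zm ^ (g / b + 1) with hY
    have b1 : a ≤ Y := le_trans a2 (Nat.mul_le_mul_left _ (Nat.pow_le_pow_right hZ e3))
    have b2 : Zm * c ≤ Y := by
      calc Zm * c ≤ Zm * ((11 * p * b) ^ g * Zm ^ (g / b)) := Nat.mul_le_mul_left _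
            (le_trans c2 (Nat.mul_le_mul_right _ (Nat.pow_le_pow_right hΛ (base_le b g))))
        _ = Y := by rw [hY, pow_succ]; ring
    unfold Lf
    constructor
    · exact Nat.mul_pos (by omega) (by omega)
    · have b3 : b * (c + 1 + c) + 1 + b * (c + 1 + c) ≤ 7 * b * c := by nlinarith
      have b4 : Zm * (b * (c + 1 + c) + 1 + b * (c + 1 + c)) ≤ 7 * b * Y := by
        calc _ ≤ Zm * (7 * b * c) := Nat.mul_le_mul_left _ b3
          _ = 7 * b * (Zm * c) := by ring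
          _ ≤ _ := Nat.mul_le_mul_left _ b2
      have b5 : Y ≤ b * Y := Nat.le_mul_of_pos_left _ hb
      calc _ ≤ p * (11 * (b * Y)) := Nat.mul_le_mul (by omega) (by nlinarith)
        _ = _ := by rw [hY, pow_succ]; ring

theorem pp_two (b : ℕ) : 2 ≤ pp N b := (pp_spec N b).1.two_le

theorem GoodX.L_le {x : X σ} (h : GoodX N x) {g : ℕ} (hg : g ≤ x.2.1 * (x.2.1 + 1)) :
    (par N x).L g ≤ x.2.2.1 := by
  have hb := h.b_pos
  have hZ : 0 < P312.xZ N x := by rw [h.xZ]; positivity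
  refine le_trans (L_bound (pp_two _) hb hZ g).2 ?_
  have e1 : (g + x.2.1 - 1) / x.2.1 ≤ x.2.1 + 1 := by
    apply Nat.le_of_lt_succ
    rw [Nat.div_lt_iff_lt_mul hb]
    have : (x.2.1 + 1).succ * x.2.1 = x.2.1 * (x.2.1 + 1) + x.2.1 := by simp; ring
    omega
  have e2 : 11 * pp N x.2.1 * x.2.1 ≤ 2 ^ (plp N x.2.1 + 4 + lg x.2.1) := by
    rw [pow_add, pow_add]
    have := pp_le N hb
    exact Nat.mul_le_mul (by omega) (lt_lg _).le
  calc _ ≤ (2 ^ (plp N x.2.1 + 4 + lg x.2.1)) ^ (x.2.1 * (x.2.1 + 1)) *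
        P312.xZ N x ^ (x.2.1 + 1) :=
        Nat.mul_le_mul (le_trans (Nat.pow_le_pow_left e2 _)
          (Nat.pow_le_pow_right (by positivity) hg)) (Nat.pow_le_pow_right hZ e1)
    _ ≤ _ := by
      rw [h.xZ, ← pow_mul, ← pow_mul, ← pow_mul, ← pow_add]
      refine h.pow_le ?_
      unfold pS
      nlinarith [Nat.zero_le (4 * pm N x.2.1 * plp N x.2.1), Nat.zero_le (lg x.2.1)]

theorem GoodX.LT {x : X σ} (h : GoodX N x) {g : ℕ} (hg : g ≤ x.2.1 * (x.2.1 + 1)) :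
    LT N x g = (par N x).L g := by
  rw [P312.LT, repT_eq]
  · rfl
  · intro i hi
    have h1 := h.L_le (g := i + 1) (by omega)
    have h2 := h.L_le (g := base x.2.1 (i + 1)) (by have := base_le x.2.1 (i + 1); omega)
    rw [tr_prod, tr_nat, tr_nat]
    · exact (Lp_snd ..).trans_le h2
    · exact h1

theorem GoodX.p_pow {x : X σ} (h : GoodX N x) : pp N x.2.1 ^ (4 * pm N x.2.1) ≤ x.2.2.1 := by
  refine le_trans (Nat.pow_le_pow_left (pp_le N h.b_pos) _) ?_
  rw [← pow_mul]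
  refine h.pow_le ?_
  unfold pS
  nlinarith [Nat.zero_le (x.2.1 * (x.2.1 + 1) * (plp N x.2.1 + 4 + lg x.2.1)),
    Nat.zero_le ((x.2.1 + 1) * (pe N x.2.1 * (x.2.1 + 1))), Nat.zero_le (lg x.2.1)]

theorem GoodX.p_le {x : X σ} (h : GoodX N x) : pp N x.2.1 ≤ x.2.2.1 := by
  refine le_trans ?_ h.p_pow
  have := pm_pos N x.2.1
  exact Nat.le_self_pow (by omega) _

theorem GoodX.five {x : X σ} (h : GoodX N x) : 5 < pp N x.2.1 := by
  have h1 := (pp_spec N x.2.1).2.1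
  have h2 := pm_pos N x.2.1
  have h3 := h.b_pos
  nlinarith

def Bd (U Gn : ℕ) (s : Op) : Prop :=
  s.1 ≤ U ∧ s.2.1 ≤ Gn ∧ s.2.2.1 ≤ U ∧ s.2.2.2.1 ≤ U ∧ s.2.2.2.2.1 ≤ U ∧ s.2.2.2.2.2.1 ≤ U ∧
    s.2.2.2.2.2.2 ≤ U

theorem bd_lev3 {U Gn p k blkv g i t Lb Z j s r : ℕ} (hp : 5 < p) (hU : p ≤ U) (h1 : blkv ≤ U)
    (h2 : g ≤ Gn) (h3 : i ≤ U) (h4 : t ≤ U) (h5 : Z ≤ U) (h6 : j ≤ U) (h7 : s ≤ U) (h8 : r ≤ U) :
    Bd U Gn (lev3 p k blkv g i t Lb Z j s r) := by
  have := base_le k g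
  unfold lev3
  split_ifs <;> simp only [Bd] <;> omega

theorem bd_dcore {U Gn p b k Zm La Lb : ℕ} {blk : ℕ → ℕ → ℕ} (hp : 5 < p) (hU : p ≤ U)
    (hb : ∀ Z j, blk Z j ≤ U) {s : Op} (h : Bd U Gn s) :
    Bd U Gn (dcore p b k Zm blk La Lb s) := by
  obtain ⟨h1, h2, h3, h4, h5, h6, h7⟩ := id h
  unfold dcore
  split_ifs
  · simp only [Bd]; omega
  · unfold lev0
    generalize b * (Lb + 1 + Lb) + 1 + b * (Lb + 1 + Lb) = Q
    have e1 : s.2.2.2.2.2.1 / (1 + La + Zm * Q + La + 1) ≤ s.2.2.2.2.2.1 / 2 :=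
      Nat.div_le_div_left (by omega) (by omega)
    have e2 := Nat.mod_le s.2.2.2.2.2.1 (1 + La + Zm * Q + La + 1)
    generalize s.2.2.2.2.2.1 / (1 + La + Zm * Q + La + 1) = ω at *
    generalize s.2.2.2.2.2.1 % (1 + La + Zm * Q + La + 1) = r at *
    unfold lev1
    split_ifs
    · simp only [Bd]; omega
    · simp only [Bd]; omega
    · have e3 := Nat.div_le_self (r - (1 + La)) Q
      have e4 := Nat.mod_le (r - (1 + La)) Q
      generalize (r - (1 + La)) / Q = Z at *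
      generalize (r - (1 + La)) % Q = r2 at *
      unfold lev2
      split_ifs
      · exact bd_lev3 hp hU (hb _ _) (by omega) h3 h4 (by omega)
          (le_trans (Nat.div_le_self _ _) (by omega)) (by omega)
          (le_trans (Nat.mod_le _ _) (by omega))
      · simp only [Bd]; omega
      · exact bd_lev3 hp hU (hb _ _) (by omega) h3 h4 (by omega)
          (le_trans (Nat.div_le_self _ _) (by omega)) (by omega)
          (le_trans (Nat.mod_le _ _) (by omega))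
    · simp only [Bd]; omega
    · simp only [Bd]; omega
  · exact h

theorem GoodX.Gn_le {x : X σ} (h : GoodX N x) : x.2.1 * (x.2.1 + 1) ≤ x.2.2.1 := by
  refine le_trans Nat.lt_two_pow_self.le (h.pow_le ?_)
  unfold pS
  nlinarith [Nat.zero_le (x.2.1 * (x.2.1 + 1) * (plp N x.2.1 + 3 + lg x.2.1)),
    Nat.zero_le ((x.2.1 + 1) * (pe N x.2.1 * (x.2.1 + 1))), Nat.zero_le (lg x.2.1),
    Nat.zero_le (4 * pm N x.2.1 * plp N x.2.1)]

theorem GoodX.decT {x : X σ} (h : GoodX N x) {j : ℕ} (hj : j ≤ x.2.2.1) :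
    decT N x j = (par N x).dec (0, x.2.1 * (x.2.1 + 1), 0, 0, 1, j, 0) := by
  have h5 := h.five
  have hp := h.p_le
  have hb : ∀ Z j, cblk N x Z j ≤ x.2.2.1 := by
    intro Z j
    have h1 : dig (P312.xD N x) Z j < P312.xD N x := dig_lt (by rw [h.xD]; positivity) _ _
    have h2 := h.D_le
    rw [← h.xD] at h2
    have h3 : rp (dig (P312.xD N x) Z j) ≤ dig (P312.xD N x) Z j :=
      le_trans (Nat.unpair_left_le _) (Nat.unpair_right_le _)
    exact le_trans (Nat.div_le_self _ _) (by omega)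
  have key : ∀ n, rep n (fun _ => dstepT N x) (0, x.2.1 * (x.2.1 + 1), 0, 0, 1, j, 0) =
      (par N x).dstep^[n] (0, x.2.1 * (x.2.1 + 1), 0, 0, 1, j, 0) ∧
      Bd x.2.2.1 (x.2.1 * (x.2.1 + 1))
        ((par N x).dstep^[n] (0, x.2.1 * (x.2.1 + 1), 0, 0, 1, j, 0)) := by
    intro n
    induction n with
    | zero => exact ⟨rfl, by simp only [Bd, Function.iterate_zero, id]; omega⟩
    | succ n ih =>
      rw [rep_succ, ih.1, Function.iterate_succ_apply']
      have hg := ih.2.2.1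
      refine ⟨?_, bd_dcore h5 hp hb ih.2⟩
      unfold dstepT
      rw [h.LT (by omega), h.LT (le_trans (base_le _ _) (by omega))]
      rfl
  rw [P312.decT, repT_eq, (key _).1]
  · rfl
  · intro n _
    rw [(key _).1]
    obtain ⟨h1, h2, h3, h4, h5, h6, h7⟩ := (key (n + 1)).2
    have := h.Gn_le
    simp only [tr_prod]
    rw [tr_nat h1, tr_nat (le_trans h2 this), tr_nat h3, tr_nat h4, tr_nat h5, tr_nat h6,
      tr_nat h7]

def Rel (p m : ℕ) (ρ : ℕ → ℕ → ZMod p) (R : ℕ) : Prop :=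
  ∀ a < 4, ∀ j < m, ρ a j = (dig p R (a * m + j) : ZMod p)

theorem chiN_cast {p m : ℕ} [Fact p.Prime] {ρ : ℕ → ℕ → ZMod p} {R : ℕ} (h : Rel p m ρ R)
    (V : ℕ) {a : ℕ} (ha : a < 4) : (chiN p m V R a : ZMod p) = chi m V (ρ a) := by
  have hp : 0 < p := (Fact.out : p.Prime).pos
  rw [chiN, prodMod_cast hp, chi]
  refine prod_congr rfl fun j hj => ?_
  rw [h a ha j (mem_range.1 hj)]
  split_ifs
  · rfl
  · rw [Nat.cast_sub (by have := dig_lt hp R (a * m + j); omega)]; simp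

theorem GoodX.apN_lt {x : X σ} (h : GoodX N x) (o : Op) (R : ℕ) :
    apN N x o R < pp N x.2.1 ^ (4 * pm N x.2.1) := by
  have := h.five
  rw [apN, mkT_eq (fun _ _ => Nat.mod_lt _ (by omega)) h.p_pow]
  exact mk_lt _ (fun _ _ => Nat.mod_lt _ (by omega))

theorem GoodX.b_le {x : X σ} (h : GoodX N x) : x.2.1 ≤ pm N x.2.1 := by
  have := h.b_pos
  have := G_pos (N := N)
  unfold pm; nlinarith [Nat.zero_le (pe N x.2.1 * (x.2.1 * x.2.1 + 1))]

theorem GoodX.rel {x : X σ} [Fact (pp N x.2.1).Prime] (h : GoodX N x) (o : Op)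
    {ρ : ℕ → ℕ → ZMod (pp N x.2.1)} {R : ℕ} (hr : Rel (pp N x.2.1) (pm N x.2.1) ρ R) :
    Rel (pp N x.2.1) (pm N x.2.1) ((par N x).apA o ρ) (apN N x o R) := by
  have h5 := h.five
  have hp : 0 < pp N x.2.1 := by omega
  intro a ha j hj
  have hm := pm_pos N x.2.1
  rw [apN, mkT_eq (fun _ _ => Nat.mod_lt _ hp) h.p_pow,
    dig_mk _ (fun _ _ => Nat.mod_lt _ hp) _ (by nlinarith), ZMod.natCast_mod, mul_comm a,
    Nat.mul_add_div hm, Nat.mul_add_mod, Nat.div_eq_of_lt hj, Nat.mod_eq_of_lt hj, add_zero,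
    mul_comm _ a]
  have hinv : ∀ y : ZMod (pp N x.2.1), y⁻¹ = y ^ (pp N x.2.1 - 2) := by
    intro y
    by_cases hy : y = 0
    · rw [hy, inv_zero, zero_pow (by omega)]
    · have := ZMod.pow_card_sub_one_eq_one hy
      rw [show pp N x.2.1 - 1 = (pp N x.2.1 - 2) + 1 by omega, pow_succ] at this
      exact (eq_inv_of_mul_eq_one_left this).symm
  have hneg : ((pp N x.2.1 - 1 : ℕ) : ZMod (pp N x.2.1)) = -1 := by
    rw [Nat.cast_sub (by omega)]; simp
  have hbm := h.b_le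
  unfold Par.apA cell
  rw [hr a ha j hj]
  split_ifs
  · rfl
  · simp
  · rfl
  · simp [prodMod_cast hp, hinv]
  · simp [bits, par]
  · rfl
  · simp only [Nat.cast_add, Nat.cast_mul, t4, sumMod'_cast hp, lde2, h.xM, par,
      chiN_cast hr _ (show (o.2.2.2.1 + 1) % 3 < 4 by omega),
      chiN_cast hr _ (show (o.2.2.2.1 + 2) % 3 < 4 by omega)]
  · rfl
  · simp only [Nat.cast_add, Nat.cast_mul, t5, sumMod'_cast hp, prodMod_cast hp, lde1, h.xM, par,
      chiN_cast hr _ (show (o.2.2.2.1 + 1) % 3 < 4 by omega), hneg]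
    rw [prod_congr rfl (fun l hl => hr 3 (by omega) l (lt_of_lt_of_le (mem_range.1 hl) hbm))]
    ring
  · rfl

theorem GoodX.resOff {x : X σ} (h : GoodX N x) :
    resOff N x = N.hl (cfg N x (et N x (x.2.1 * (x.2.1 + 1) * x.2.1))).1 := by
  have : Fact (pp N x.2.1).Prime := ⟨(pp_spec N _).1⟩
  have : Fact (par N x).p.Prime := this
  have h5 := h.five
  have hs := h.spec (x.2.1 * (x.2.1 + 1))
  have h1 : (par N x).run (par N x).apA (x.2.1 * (x.2.1 + 1)) 0 0 1
      (fun _ _ => (0 : ZMod (pp N x.2.1))) = addv (fun _ _ => (0 : ZMod (pp N x.2.1))) 0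
        ((1 : ℕ) : ZMod (pp N x.2.1)) (val N x (x.2.1 * (x.2.1 + 1)) 0) :=
    (par N x).run_eq (pp_spec N x.2.1).2.1 hs _ le_rfl 0 0 1 (fun _ _ => 0) (by omega)
  have h2 : Rel (pp N x.2.1) (pm N x.2.1)
      ((par N x).run (par N x).apA (x.2.1 * (x.2.1 + 1)) 0 0 1 (fun _ _ => 0)) (finalR N x) := by
    rw [finalR, h.LT le_rfl, repT_eq]
    · refine rep_rel _ _ (fun j hj ρ R hr => ?_) (fun a _ j _ => by simp [dig])
      rw [h.decT (le_trans hj.le (h.L_le le_rfl))]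
      exact h.rel _ hr
    · intro j _
      exact tr_nat (le_trans (h.apN_lt _ _).le h.p_pow)
  rw [h1] at h2
  have h3 : ∀ j < pm N x.2.1, dig (pp N x.2.1) (finalR N x) j =
      dig 2 (val N x (x.2.1 * (x.2.1 + 1)) 0) j := by
    intro j hj
    have := h2 0 (by omega) j hj
    simp only [addv, if_true, zero_add, Nat.cast_one, one_mul, bits, zero_mul] at this
    have h4 := (ZMod.natCast_eq_natCast_iff' _ _ _).1 this
    have h6 := dig_lt (show 0 < 2 by omega) (val N x (x.2.1 * (x.2.1 + 1)) 0) j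
    rw [Nat.mod_eq_of_lt (by omega), Nat.mod_eq_of_lt (dig_lt (by omega) _ _)] at h4
    exact h4.symm
  rw [P312.resOff, mkT_eq (fun j hj => by rw [h3 j hj]; exact dig_lt (by omega) _ _)
    (h.pow_le (pm_le_pS N _)), mk_congr _ _ h3, mk_dig (pm N x.2.1) (hs.lt _ le_rfl 0), h.xG, val_div]
  simp [P312.mk, base, RR, rec_]

end Vale.Agent.P312
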