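import Vale.Agent.P312.Prog

/-! Counter operations as while programs. -/

namespace Vale.Agent.P312

open Function

variable {σ : Type}

theorem Runs.le {w : List σ} {M : ℕ} {P s s'} (H : Runs w M P s s') (h : ∀ r, s.2 r ≤ M) :
    ∀ r, s'.2 r ≤ M := by
  induction H with
  | @act a s ha =>
    intro r
    cases a with
    | nop => exact h r
    | mv d => exact h r
    | pop r0 =>
      simp only [Act.ap]
      by_cases e : r = r0
      · subst e; have := h r; simp only [update_self]; omega
      · rw [update_of_ne e]; exact h r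
    | push r0 b =>
      simp only [Act.ap]
      by_cases e : r = r0
      · subst e; simpa [Act.ok] using ha
      · rw [update_of_ne e]; exact h r
  | seq _ _ i1 i2 => exact i2 (i1 h)
  | iteT _ _ i => exact i h
  | iteF _ _ i => exact i h
  | loopF _ => exact h
  | loopT _ _ _ i1 i2 => exact i2 (i1 h)

def nz (r : ℕ) : Cond σ := .dig r (fun d => d != 0)

theorem nz_at (w : List σ) (r h : ℕ) (x : ℕ → ℕ) : (nz r : Cond σ).at w (h, x) = (x r != 0) := by
  simp only [nz, Cond.at, Cond.ev, top]
  by_cases e : x r = 0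
  · simp [e]
  · simp only [e, if_false]
    split <;> simp [e]

theorem run_pop (w : List σ) (M h r : ℕ) (x : ℕ → ℕ) :
    Runs w M (.act (.pop r)) (h, x) (h, update x r ((x r - 1) / 2)) :=
  Runs.act (a := .pop r) (s := (h, x)) trivial

theorem run_push (w : List σ) {M : ℕ} (h r : ℕ) (b : Bool) (x : ℕ → ℕ)
    (hb : 2 * x r + 1 + b.toNat ≤ M) :
    Runs w M (.act (.push r b)) (h, x) (h, update x r (2 * x r + 1 + b.toNat)) :=
  Runs.act (a := .push r b) (s := (h, x)) hb

def clr (r : ℕ) : Prog σ := .loop (nz r) (.act (.pop r))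

theorem run_clr (w : List σ) (M h r : ℕ) (x : ℕ → ℕ) :
    Runs w M (clr r) (h, x) (h, update x r 0) := by
  induction e : x r using Nat.strong_induction_on generalizing x with
  | _ v ih =>
    by_cases hz : x r = 0
    · have : update x r 0 = x := by rw [← hz, update_eq_self]
      rw [this]
      exact Runs.loopF (by simp [nz_at, hz])
    · refine Runs.loopT (by simp [nz_at, hz]) (run_pop w M h r x) ?_
      have := ih ((x r - 1) / 2) (by omega) (update x r ((x r - 1) / 2)) (by simp)
      rwa [update_idem] at this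

def u2 (x : ℕ → ℕ) (a y s z : ℕ) : ℕ → ℕ := fun r => if r = a then y else if r = s then z else x r

theorem u2_a (x a y s z) : u2 x a y s z a = y := by simp [u2]
theorem u2_s (x) {a s : ℕ} (h : a ≠ s) (y z) : u2 x a y s z s = z := by simp [u2, h.symm]
theorem upd_u2_a (x a y s z y') : update (u2 x a y s z) a y' = u2 x a y' s z := by
  funext r; by_cases e : r = a <;> simp [u2, e]
theorem upd_u2_s (x) {a s : ℕ} (h : a ≠ s) (y z z') :
    update (u2 x a y s z) s z' = u2 x a y s z' := by
  funext r; by_cases e : r = s <;> simp [u2, e, h.symm]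
theorem u2_eq (x : ℕ → ℕ) (a s : ℕ) : u2 x a (x a) s (x s) = x := by
  funext r; simp only [u2]; split_ifs <;> simp_all
theorem u2_zero (x : ℕ → ℕ) {a s : ℕ} (hs : x s = 0) (y : ℕ) : u2 x a y s 0 = update x a y := by
  funext r; by_cases e : r = a
  · simp [u2, e]
  · simp only [u2, e, if_false, update_of_ne e]; split_ifs <;> simp_all

def app (b : Bool) : ℕ → ℕ → ℕ
  | 0, y => y
  | j + 1, y => app b j (2 * y + 1 + b.toNat)

theorem app_mono (b : Bool) (j : ℕ) : ∀ {y y'}, y ≤ y' → app b j y ≤ app b j y' := by
  induction j with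
  | zero => exact fun h => h
  | succ j ih => exact fun h => ih (by omega)

theorem le_app (b : Bool) (j : ℕ) : ∀ y, y ≤ app b j y := by
  induction j with
  | zero => exact fun y => le_rfl
  | succ j ih => exact fun y => le_trans (by omega) (ih _)

def ones : ℕ → ℕ
  | 0 => 0
  | j + 1 => 2 * ones j + 1

theorem app_succ' (b : Bool) (j : ℕ) : ∀ y, app b (j + 1) y = 2 * app b j y + 1 + b.toNat := by
  induction j with
  | zero => intro y; rfl
  | succ j ih => intro y; rw [app, ih]; rfl

theorem ones_eq (j : ℕ) : ones j = app false j 0 := by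
  induction j with
  | zero => rfl
  | succ j ih => rw [app_succ', ones, ih]; rfl

def tr (a s : ℕ) (b : Bool) : Prog σ := .loop (nz s) (.seq (.act (.pop s)) (.act (.push a b)))

theorem run_tr (w : List σ) {M : ℕ} (h : ℕ) {a s : ℕ} (hs : a ≠ s) (b : Bool) (x : ℕ → ℕ)
    (j : ℕ) : ∀ y, app b j y ≤ M →
      Runs w M (tr a s b) (h, u2 x a y s (ones j)) (h, u2 x a (app b j y) s 0) := by
  induction j with
  | zero => intro y _; exact Runs.loopF (by simp [nz_at, u2_s _ hs, ones])
  | succ j ih =>
    intro y hy
    refine Runs.loopT (by simp [nz_at, u2_s _ hs, ones]) ?_ (ih _ hy)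
    refine Runs.seq (run_pop w M h s _) ?_
    have e : (ones (j + 1) - 1) / 2 = ones j := by simp [ones]
    rw [u2_s _ hs, upd_u2_s _ hs, e]
    have := run_push w h a b (u2 x a y s (ones j)) (M := M)
      (by rw [u2_a]; exact le_trans (le_app b j _) hy)
    rwa [u2_a, upd_u2_a] at this

def strip (a s d : ℕ) : Prog σ :=
  .loop (.dig a (fun e => e == d)) (.seq (.act (.pop a)) (.act (.push s false)))

theorem run_strip (w : List σ) {M : ℕ} (h : ℕ) {a s : ℕ} (hs : a ≠ s) (b : Bool) (x : ℕ → ℕ)
    (y : ℕ) : ∀ j, app b j y ≤ M → ∃ y' j', top y' ≠ 1 + b.toNat ∧ y = app b j' y' ∧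
      Runs w M (strip a s (1 + b.toNat)) (h, u2 x a y s (ones j))
        (h, u2 x a y' s (ones (j + j'))) := by
  induction y using Nat.strong_induction_on with
  | _ y ih =>
    intro j hy
    by_cases ht : top y = 1 + b.toNat
    · have hy0 : y ≠ 0 := by rintro rfl; simp [top] at ht; omega
      have e : y = 2 * ((y - 1) / 2) + 1 + b.toNat := by
        simp only [top, hy0, if_false] at ht
        cases b <;> split at ht <;> simp at ht ⊢ <;> omega
      have hy' : app b (j + 1) ((y - 1) / 2) ≤ M := by rw [app, ← e]; exact hy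
      obtain ⟨y', j', h1, h2, h3⟩ := ih ((y - 1) / 2) (by omega) (j + 1) hy'
      refine ⟨y', j' + 1, h1, by rw [app_succ', ← h2]; exact e, ?_⟩
      refine Runs.loopT (by simp [Cond.at, Cond.ev, u2_a, ht]) ?_
        (h3.cast (by rw [show j + 1 + j' = j + (j' + 1) by omega]))
      refine Runs.seq (run_pop w M h a _) ?_
      rw [u2_a, upd_u2_a]
      have hb : ones (j + 1) ≤ M := by
        refine le_trans ?_ hy'
        rw [ones_eq]
        refine le_trans ?_ (app_mono b (j + 1) (Nat.zero_le _))
        cases b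
        · exact le_rfl
        · clear * -
          generalize j + 1 = i
          induction i with
          | zero => exact le_rfl
          | succ i ih => rw [app_succ', app_succ']; simp; omega
      have := run_push w h s false (u2 x a ((y - 1) / 2) s (ones j)) (M := M)
        (by rw [u2_s _ hs]; simpa [ones] using hb)
      rwa [u2_s _ hs, upd_u2_s _ hs] at this
    · exact ⟨y, 0, ht, rfl, Runs.loopF (by simp [Cond.at, Cond.ev, u2_a, ht])⟩

def inc (a s : ℕ) : Prog σ :=
  .seq (strip a s 2) (.seq (.ite (nz a) (.seq (.act (.pop a)) (.act (.push a true)))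
    (.act (.push a false))) (tr a s false))

theorem app_true_succ (j y : ℕ) : app true j y + 1 = app false j (y + 1) := by
  induction j with
  | zero => rfl
  | succ j ih => rw [app_succ', app_succ', ← ih]; simp; omega

theorem run_inc (w : List σ) {M : ℕ} (h : ℕ) {a s : ℕ} (hs : a ≠ s) (x : ℕ → ℕ) (h0 : x s = 0)
    (hM : x a + 1 ≤ M) : Runs w M (inc a s) (h, x) (h, update x a (x a + 1)) := by
  obtain ⟨y, j, h1, h2, h3⟩ := run_strip w (M := M) h hs true x (x a) 0 (by simp [app]; omega)
  have e0 : u2 x a (x a) s (ones 0) = x := by rw [ones, ← h0, u2_eq]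
  rw [e0, Nat.zero_add] at h3
  have e1 : x a + 1 = app false j (y + 1) := by rw [h2, app_true_succ]
  have hy : y + 1 ≤ M := le_trans (le_app false j _) (e1 ▸ hM)
  refine Runs.seq h3 (Runs.seq (s1 := (h, u2 x a (y + 1) s (ones j))) ?_ ?_)
  · by_cases hz : y = 0
    · refine Runs.iteF (by simp [nz_at, u2_a, hz]) ?_
      have := run_push w h a false (u2 x a y s (ones j)) (M := M) (by simp [u2_a]; omega)
      rw [u2_a, upd_u2_a] at this
      exact this.cast (by simp [hz])
    · refine Runs.iteT (by simp [nz_at, u2_a, hz]) (Runs.seq (run_pop w M h a _) ?_)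
      rw [u2_a, upd_u2_a]
      have e : 2 * ((y - 1) / 2) + 1 + true.toNat = y + 1 := by
        simp only [top, hz, if_false] at h1
        split at h1 <;> simp at h1 ⊢; omega
      have := run_push w h a true (u2 x a ((y - 1) / 2) s (ones j)) (M := M)
        (by rw [u2_a, e]; exact hy)
      rwa [u2_a, upd_u2_a, e] at this
  · have := run_tr w h hs false x j (y + 1) (e1 ▸ hM)
    rwa [← e1, u2_zero x h0] at this

def dec (a s : ℕ) : Prog σ :=
  .seq (strip a s 1) (.seq (.ite (nz a) (.seq (.act (.pop a)) (.act (.push a false)))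
    (.act (.pop s))) (tr a s true))

theorem run_dec (w : List σ) {M : ℕ} (h : ℕ) {a s : ℕ} (hs : a ≠ s) (x : ℕ → ℕ) (h0 : x s = 0)
    (hM : x a ≤ M) : Runs w M (dec a s) (h, x) (h, update x a (x a - 1)) := by
  obtain ⟨y, j, h1, h2, h3⟩ := run_strip w (M := M) h hs false x (x a) 0 (by simpa [app])
  have e0 : u2 x a (x a) s (ones 0) = x := by rw [ones, ← h0, u2_eq]
  rw [e0, Nat.zero_add] at h3
  refine Runs.seq h3 ?_
  by_cases hz : y = 0
  · subst hz
    refine Runs.seq (Runs.iteF (by simp [nz_at, u2_a]) (run_pop w M h s _)) ?_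
    have e : (ones j - 1) / 2 = ones (j - 1) := by cases j <;> simp [ones]
    rw [u2_s _ hs, upd_u2_s _ hs, e]
    have e1 : app true (j - 1) 0 = x a - 1 := by
      rw [h2]
      cases j with
      | zero => rfl
      | succ j =>
        have := app_true_succ j 0
        simp only [Nat.add_sub_cancel, app] at this ⊢
        simp at this ⊢; omega
    have := run_tr w h hs true x (j - 1) 0 (M := M) (by omega)
    rwa [e1, u2_zero x h0] at this
  · have e : 2 * ((y - 1) / 2) + 1 + false.toNat = y - 1 := by
      simp only [top, hz, if_false] at h1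
      split at h1 <;> simp at h1 ⊢; omega
    have e1 : app true j (y - 1) = x a - 1 := by
      have := app_true_succ j (y - 1)
      rw [show y - 1 + 1 = y by omega, ← h2] at this
      omega
    have hy : y ≤ M := le_trans (le_app false j y) (h2 ▸ hM)
    refine Runs.seq (s1 := (h, u2 x a (y - 1) s (ones j)))
      (Runs.iteT (by simp [nz_at, u2_a, hz]) (Runs.seq (run_pop w M h a _) ?_)) ?_
    · rw [u2_a, upd_u2_a]
      have := run_push w h a false (u2 x a ((y - 1) / 2) s (ones j)) (M := M)
        (by rw [u2_a, e]; omega)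
      rwa [u2_a, upd_u2_a, e] at this
    · have := run_tr w h hs true x j (y - 1) (M := M) (by omega)
      rwa [e1, u2_zero x h0] at this

def mov (a b s : ℕ) : Prog σ := .loop (nz a) (.seq (dec a s) (inc b s))

theorem run_mov (w : List σ) {M : ℕ} (h : ℕ) {a b s : ℕ} (hab : a ≠ b) (has : a ≠ s)
    (hbs : b ≠ s) (x : ℕ → ℕ) (h0 : x s = 0) (y : ℕ) : ∀ z, y + z ≤ M →
      Runs w M (mov a b s) (h, u2 x a y b z) (h, u2 x a 0 b (y + z)) := by
  have hz : ∀ y z, u2 x a y b z s = 0 := fun y z => by simp [u2, has.symm, hbs.symm, h0]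
  induction y with
  | zero => intro z _; rw [Nat.zero_add]; exact Runs.loopF (by simp [nz_at, u2_a])
  | succ y ih =>
    intro z hM
    refine Runs.loopT (by simp [nz_at, u2_a]) ?_
      ((ih (z + 1) (by omega)).cast (by rw [show y + (z + 1) = y + 1 + z by omega]))
    refine Runs.seq (run_dec w h has _ (hz _ _) (by rw [u2_a]; omega)) ?_
    rw [u2_a, upd_u2_a, Nat.add_sub_cancel]
    have := run_inc w h hbs (u2 x a y b z) (hz _ _) (M := M) (by rw [u2_s _ hab]; omega)
    rwa [u2_s _ hab, upd_u2_s _ hab] at this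

theorem run_mov' (w : List σ) {M : ℕ} (h : ℕ) {a b s : ℕ} (hab : a ≠ b) (has : a ≠ s)
    (hbs : b ≠ s) (x : ℕ → ℕ) (h0 : x s = 0) (hb : x b = 0) (hM : x a ≤ M) :
      Runs w M (mov a b s) (h, x) (h, update (update x a 0) b (x a)) := by
  have := run_mov w h hab has hbs x h0 (x a) (x b) (M := M) (by omega)
  rw [u2_eq, hb] at this
  refine this.cast ?_
  congr 1
  funext r
  by_cases e : r = b
  · subst e; simp [u2, hab.symm]
  · by_cases e' : r = a <;> simp [u2, e, e', hab]

def cpy (a b t s : ℕ) : Prog σ :=
  .seq (.loop (nz a) (.seq (dec a s) (.seq (inc b s) (inc t s)))) (mov t a s)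

theorem run_cpy (w : List σ) {M : ℕ} (h : ℕ) {a b t s : ℕ} (hab : a ≠ b) (hat : a ≠ t)
    (has : a ≠ s) (hbt : b ≠ t) (hbs : b ≠ s) (hts : t ≠ s) (x : ℕ → ℕ) (h0 : x s = 0)
    (hb : x b = 0) (ht : x t = 0) (hM : x a ≤ M) :
      Runs w M (cpy a b t s) (h, x) (h, update x b (x a)) := by
  have key : ∀ y z, y + z ≤ M → Runs w M
      (.loop (nz a) (.seq (dec a s) (.seq (inc b s) (inc t s))))
      (h, update (update (update x a y) b z) t z)
      (h, update (update (update x a 0) b (y + z)) t (y + z)) := by
    intro y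
    induction y with
    | zero =>
      intro z _; rw [Nat.zero_add]
      exact Runs.loopF (by simp [nz_at, update_of_ne hat, update_of_ne hab])
    | succ y ih =>
      intro z hz
      refine Runs.loopT (by simp [nz_at, update_of_ne hat, update_of_ne hab]) ?_
        ((ih (z + 1) (by omega)).cast (by rw [show y + (z + 1) = y + 1 + z by omega]))
      refine Runs.seq (run_dec w h has _ (by simp [has.symm, hbs.symm, hts.symm, h0])
        (by simp [hat, hab]; omega)) (Runs.seq (run_inc w h hbs _
          (by simp [has.symm, hbs.symm, hts.symm, h0]) (by simp [hbt, hab.symm]; omega))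
          ((run_inc w h hts _ (by simp [has.symm, hbs.symm, hts.symm, h0])
            (by simp [hbt.symm, hat.symm]; omega)).cast ?_))
      congr 1
      funext r
      by_cases e1 : r = t
      · subst e1; simp [hbt.symm, hat.symm]
      · by_cases e2 : r = b
        · subst e2; simp [hbt, hab.symm]
        · by_cases e3 : r = a
          · subst e3; simp [hat, hab]
          · simp [e1, e2, e3]
  have k1 := key (x a) 0 (by omega)
  have e : update (update (update x a (x a)) b 0) t 0 = x := by
    rw [update_eq_self, ← hb, update_eq_self, hb, ← ht, update_eq_self]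
  rw [e] at k1
  refine Runs.seq k1 ((run_mov' w h hat.symm hts has _
    (by simp [has.symm, hbs.symm, hts.symm, h0]) (by simp [hat, hab]) (by simpa)).cast ?_)
  congr 1
  funext r
  by_cases e3 : r = a
  · subst e3; simp [hab]
  · by_cases e1 : r = t
    · subst e1; simp [hbt.symm, e3, ht]
    · by_cases e2 : r = b
      · subst e2; simp [e1, e3]
      · simp [e1, e2, e3]

def cst (a s : ℕ) : ℕ → Prog σ
  | 0 => .act .nop
  | k + 1 => .seq (cst a s k) (inc a s)

theorem run_cst (w : List σ) {M : ℕ} (h : ℕ) {a s : ℕ} (hs : a ≠ s) (x : ℕ → ℕ) (h0 : x s = 0)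
    (ha : x a = 0) (k : ℕ) (hk : k ≤ M) : Runs w M (cst a s k) (h, x) (h, update x a k) := by
  induction k with
  | zero =>
    have : update x a 0 = x := by rw [← ha, update_eq_self]
    rw [this]; exact Runs.act (a := .nop) (s := (h, x)) trivial
  | succ k ih =>
    refine Runs.seq (ih (by omega)) ((run_inc w h hs _ (by simp [hs.symm, h0])
      (by simpa)).cast (by simp))

end Vale.Agent.P312
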