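import Vale.Agent.P312.SPLib
import Vale.Agent.P312.Compile

/-! The outer search loop and the resulting space bound. -/

namespace Vale.Agent.P312

open Function

variable {σ : Type}

theorem rep_double (n : ℕ) : rep n (fun _ u => u + u) 1 = 2 ^ n := by
  induction n with
  | zero => rfl
  | succ n ih => rw [rep_succ, ih, pow_succ]; omega

theorem top_machine (S : ℕ → ℕ) (hS : SP σ S) (F : List σ × ℕ × ℕ → ℕ) (hF : SP σ F)
    (hb : ∀ b, b ≤ 2 ^ S b) : ∃ (Mc : MultiTape σ) (K : ℕ), ∀ (w : List σ) (b0 Sm : ℕ), 0 < b0 →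
      F (w, b0, 2 ^ S b0) ≠ 0 → (∀ b ≤ b0, S b ≤ Sm) →
      ∃ (b T : ℕ) (V : Finset (Fin Mc.k × ℤ)), F (w, b, 2 ^ S b) ≠ 0 ∧
        Mc.halt ((Mc.step w)^[T] Mc.init).q = some (top (F (w, b, 2 ^ S b)) == 2) ∧
        (∀ j ≤ T, ∀ i, (i, ((Mc.step w)^[j] Mc.init).pos i) ∈ V) ∧ V.card ≤ K * (Sm + 1) := by
  obtain ⟨N, hN, eN⟩ := sp_nat.1 hS
  obtain ⟨G, ⟨PF, cF, HF⟩, eG⟩ := sp_nat.1 hF
  obtain ⟨PW, cW, HW⟩ := C.loop_gen (n := 1) hN (C.const 1 1)
    ((C.var (show 1 < 1 + 2 by omega)).add (C.var (show 1 < 1 + 2 by omega)))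
  let ρ : ℕ → ℕ := fun r => if r = 0 then 1 else if r = 1 then 2 else if r = 2 then 0 else r
  have hρ : Injective ρ := by
    intro a b h; simp only [ρ] at h; split_ifs at h <;> omega
  let body : Prog σ := .seq (inc 1 2) (.seq (PW.ren (fun r => r + 1)) (.seq (PF.ren ρ) (clr 2)))
  obtain ⟨Mc, k, HM⟩ := space_of_prog (.loop (.dig 0 (fun d => d == 0)) body)
  refine ⟨Mc, k * (2 * (cF + cW + 1) + 2), fun w b0 Sm h0 hne hSm => ?_⟩
  set M := (2 * 2 ^ Sm + 2) ^ (cF + cW + 1) with hM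
  let st : ℕ → ℕ → ℕ → ℕ := fun b v r => if r = 0 then v else if r = 1 then b else 0
  have hbody : ∀ b, b + 1 ≤ b0 →
      Runs w M body (0, st b 0) (0, st (b + 1) (F (w, b + 1, 2 ^ S (b + 1)))) := by
    intro b hb0
    have h1 : 2 ^ S (b + 1) ≤ 2 ^ Sm := Nat.pow_le_pow_right (by omega) (hSm _ hb0)
    have h2 := hb (b + 1)
    have h3 := pw_self (2 * 2 ^ Sm) (show 1 ≤ cF + cW + 1 by omega)
    have eN' : N w (Enc.regs σ (b + 1)) = S (b + 1) := eN (b + 1) w trivial
    have r1 := HW w (Enc.regs σ (b + 1)) M (2 ^ Sm) (Enc.zr (σ := σ) (b + 1))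
      (by have := esz_nat (σ := σ) (b + 1); unfold esz at this; exact this ▸ le_trans h2 h1)
      (by rw [eN']; exact le_trans Nat.lt_two_pow_self.le h1)
      (by
        intro i hi
        rw [eN'] at hi
        simp only [ne_eq, Nat.left_eq_add, one_ne_zero, not_false_eq_true, update_of_ne,
          update_self, rep_double]
        exact le_trans (Nat.pow_le_pow_right (by omega) hi) h1)
      (le_trans (Nat.pow_le_pow_left (by omega) _) (pw_mono _ (by omega)))
    simp only [ne_eq, Nat.left_eq_add, one_ne_zero, not_false_eq_true, update_of_ne,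
      update_self, rep_double, eN'] at r1
    have r1' := r1.ren_upd (ρ := fun r => r + 1) (add_left_injective 1) (st (b + 1) 0)
      (fun r => by simp [st, Enc.regs])
    have r2 := HF w (Enc.regs σ (w, b + 1, 2 ^ S (b + 1))) M (Enc.zr _) (by
      have : esz σ (w, b + 1, 2 ^ S (b + 1)) = b + 1 + 2 ^ S (b + 1) := by simp
      unfold esz at this
      rw [this]
      exact le_trans (Nat.pow_le_pow_left (by omega) _) (pw_mono _ (by omega)))
    rw [eG _ w ⟨rfl, trivial, trivial⟩] at r2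
    have r2' := r2.ren_upd hρ (update (st (b + 1) 0) (1 + 1) (2 ^ S (b + 1))) (fun r => by
      simp only [ρ, Enc.regs, Enc.dim]
      rcases r with _ | _ | _ | r <;> simp [st])
    refine Runs.seq ((run_inc w 0 (by omega) _ (by simp [st]) (by simp [st]; omega)).cast ?_)
      (Runs.seq r1' (Runs.seq r2' ((run_clr w M 0 2 _).cast ?_)))
    · congr 1
      funext r
      rcases r with _ | _ | r <;> simp [st]
    · congr 1
      funext r
      rcases r with _ | _ | _ | r <;> simp [st, ρ, Enc.dim]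
  have key : ∀ j b, b + j + 1 = b0 → ∃ b', F (w, b', 2 ^ S b') ≠ 0 ∧
      Runs w M (.loop (.dig 0 (fun d => d == 0)) body) (0, st b 0)
        (0, st b' (F (w, b', 2 ^ S b'))) := by
    have stop : ∀ b v, v ≠ 0 →
        Runs w M (.loop (.dig 0 (fun d => d == 0)) body) (0, st b v) (0, st b v) := by
      intro b v hv
      refine Runs.loopF ?_
      simp only [Cond.at, Cond.ev, st, top, if_true, hv, if_false]
      split <;> rfl
    intro j
    induction j with
    | zero =>
      intro b e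
      obtain rfl : b0 = b + 1 := by omega
      exact ⟨b + 1, hne, Runs.loopT (by simp [Cond.at, Cond.ev, st, top]) (hbody b le_rfl)
        (stop _ _ hne)⟩
    | succ j ih =>
      intro b e
      by_cases hz : F (w, b + 1, 2 ^ S (b + 1)) = 0
      · obtain ⟨b', h1, h2⟩ := ih (b + 1) (by omega)
        refine ⟨b', h1, Runs.loopT (by simp [Cond.at, Cond.ev, st, top]) (hbody b (by omega)) ?_⟩
        rwa [hz]
      · exact ⟨b + 1, hz, Runs.loopT (by simp [Cond.at, Cond.ev, st, top]) (hbody b (by omega))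
          (stop _ _ hz)⟩
  obtain ⟨b, h1, h2⟩ := key (b0 - 1) 0 (by omega)
  have e0 : st 0 0 = fun _ => 0 := by funext r; simp [st]
  rw [e0] at h2
  obtain ⟨T, V, a1, a2, a3⟩ := HM w M 0 _ h2
  refine ⟨b, T, V, h1, by simpa [st] using a1, a2, le_trans a3 ?_⟩
  rw [mul_assoc]
  apply Nat.mul_le_mul le_rfl
  have b1 : M ≤ 2 ^ ((Sm + 2) * (cF + cW + 1)) := by
    rw [pow_mul]
    apply Nat.pow_le_pow_left
    have : 0 < 2 ^ Sm := by positivity
    rw [pow_add]; omega
  have b2 : Nat.log 2 (M + 1) < (Sm + 2) * (cF + cW + 1) + 1 := by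
    apply Nat.log_lt_of_lt_pow (by omega)
    have : 1 < 2 ^ ((Sm + 2) * (cF + cW + 1)) := Nat.one_lt_two_pow (by positivity)
    rw [pow_succ]; omega
  nlinarith

end Vale.Agent.P312
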