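import Vale.Agent.P312.Link
import Vale.Agent.P312.Top

/-! From one-tape machines to the numeric form, and the final space bound. -/

namespace Vale.Agent.P312

open Function

variable {σ : Type}

noncomputable def OneTape.eQ (M : OneTape σ) : M.Q ≃ Fin (Nat.card M.Q) :=
  @Finite.equivFin _ M.finQ
noncomputable def OneTape.eG (M : OneTape σ) : M.Γ ≃ Fin (Nat.card M.Γ) :=
  @Finite.equivFin _ M.finΓ

noncomputable def OneTape.lift (M : OneTape σ) (f : M.Q → M.Γ → ℕ) (n : ℕ) : ℕ :=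
  if h : n / Nat.card M.Γ < Nat.card M.Q ∧ n % Nat.card M.Γ < Nat.card M.Γ then
    f (M.eQ.symm ⟨_, h.1⟩) (M.eG.symm ⟨_, h.2⟩) else 0

theorem OneTape.G_pos (M : OneTape σ) : 0 < Nat.card M.Γ := (M.eG M.blank).pos

theorem OneTape.lift_sp (M : OneTape σ) (f : M.Q → M.Γ → ℕ) : SP σ (M.lift f) := by
  refine sp_table (Nat.card M.Q * Nat.card M.Γ) _ fun n hn => dif_neg fun h => ?_
  have := (Nat.div_lt_iff_lt_mul M.G_pos).1 h.1
  omega

theorem OneTape.lift_eq' (M : OneTape σ) (f : M.Q → M.Γ → ℕ) {q s : ℕ} (hq : q < Nat.card M.Q)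
    (hs : s < Nat.card M.Γ) :
    M.lift f (q * Nat.card M.Γ + s) = f (M.eQ.symm ⟨q, hq⟩) (M.eG.symm ⟨s, hs⟩) := by
  have e1 : (q * Nat.card M.Γ + s) / Nat.card M.Γ = q := by
    rw [mul_comm, Nat.mul_add_div M.G_pos, Nat.div_eq_of_lt hs, add_zero]
  have e2 : (q * Nat.card M.Γ + s) % Nat.card M.Γ = s := by
    rw [mul_comm, Nat.mul_add_mod, Nat.mod_eq_of_lt hs]
  unfold OneTape.lift
  rw [dif_pos ⟨by rw [e1]; exact hq, by rw [e2]; exact hs⟩]
  simp only [e1, e2]

theorem OneTape.lift_eq (M : OneTape σ) (f : M.Q → M.Γ → ℕ) (q : M.Q) (s : M.Γ) :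
    M.lift f ((M.eQ q).val * Nat.card M.Γ + (M.eG s).val) = f q s := by
  rw [M.lift_eq' f (M.eQ q).2 (M.eG s).2]; simp

def OneTape.δ' (M : OneTape σ) (q : M.Q) (s : M.Γ) : M.Q × M.Γ × SignType :=
  match M.halt q with
  | some _ => (q, s, 0)
  | none => M.δ q s

theorem OneTape.step_eq (M : OneTape σ) (c : M.Cfg) : M.step c =
    ⟨(M.δ' c.q (c.tape c.pos)).1, c.pos + ((M.δ' c.q (c.tape c.pos)).2.2 : ℤ),
      update c.tape c.pos (M.δ' c.q (c.tape c.pos)).2.1⟩ := by
  unfold OneTape.step OneTape.δ'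
  cases M.halt c.q <;> simp

def mvc : SignType → ℕ
  | .neg => 0
  | .zero => 1
  | .pos => 2

theorem mvc_spec (d : SignType) : (mvc d : ℤ) = (d : ℤ) + 1 ∧ mvc d ≤ 2 := by
  cases d <;> simp [mvc]

def hcode : Option Bool → ℕ
  | none => 0
  | some false => 1
  | some true => 2

noncomputable def OneTape.nm (M : OneTape σ) : NM σ where
  nq := Nat.card M.Q
  G := Nat.card M.Γ
  q0 := M.eQ M.start
  dq := M.lift (fun q s => M.eQ (M.δ' q s).1)
  ds := M.lift (fun q s => M.eG (M.δ' q s).2.1)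
  dm := M.lift (fun q s => mvc (M.δ' q s).2.2)
  hl := fun n => if h : n < Nat.card M.Q then hcode (M.halt (M.eQ.symm ⟨n, h⟩)) else 0
  φ := fun o => M.eG ((o.map M.inp).getD M.blank)
  sp_dq := M.lift_sp _
  sp_ds := M.lift_sp _
  sp_dm := M.lift_sp _
  sp_hl := sp_table (Nat.card M.Q) _ fun n hn => dif_neg (by omega)
  q0_lt := (M.eQ _).2
  φ_lt := fun _ => (M.eG _).2
  dq_lt := fun q hq s hs => by rw [M.lift_eq' _ hq hs]; exact (M.eQ _).2
  ds_lt := fun q hq s hs => by rw [M.lift_eq' _ hq hs]; exact (M.eG _).2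
  dm_le := fun n => by
    unfold OneTape.lift
    split_ifs
    · exact (mvc_spec _).2
    · omega

theorem OneTape.nrun_eq (M : OneTape σ) (w : List σ) (O τ : ℕ) (h : τ ≤ O) :
    (nrun M.nm w O τ).1 = M.eQ (M.step^[τ] (M.init w)).q ∧
    ((nrun M.nm w O τ).2.1 : ℤ) = O + (M.step^[τ] (M.init w)).pos ∧
    (∀ z : ℕ, (nrun M.nm w O τ).2.2 z = M.eG ((M.step^[τ] (M.init w)).tape (z - O))) ∧
    -(τ : ℤ) ≤ (M.step^[τ] (M.init w)).pos := by
  induction τ with
  | zero =>
    refine ⟨rfl, by simp [nrun, OneTape.init], fun z => ?_, by simp [OneTape.init]⟩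
    simp only [nrun, iterate_zero, id, tape0, OneTape.init, OneTape.nm]
    by_cases hz : O ≤ z
    · rw [if_pos hz, if_pos (by omega), show ((z : ℤ) - O).toNat = z - O by omega]
    · rw [if_neg hz, if_neg (by omega)]; rfl
  | succ τ ih =>
    obtain ⟨h1, h2, h3, h4⟩ := ih (by omega)
    rw [nrun_succ, iterate_succ_apply', OneTape.step_eq]
    generalize nrun M.nm w O τ = n at *
    generalize M.step^[τ] (M.init w) = c at *
    have e : n.2.2 n.2.1 = M.eG (c.tape c.pos) := by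
      rw [h3, h2]; congr 3; omega
    have hm := mvc_spec (M.δ' c.q (c.tape c.pos)).2.2
    simp only [nstep, h1, e, OneTape.nm, OneTape.lift_eq]
    refine ⟨trivial, by omega, fun z => ?_, by omega⟩
    by_cases hz : z = n.2.1
    · rw [hz, update_self, show (n.2.1 : ℤ) - O = c.pos by omega, update_self]
    · rw [update_of_ne hz, update_of_ne (by omega), h3]

theorem OneTape.halt_stay (M : OneTape σ) {c : M.Cfg} {β : Bool} (h : M.halt c.q = some β)
    (n : ℕ) : M.step^[n] c = c :=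
  iterate_fixed (by unfold OneTape.step; rw [h]) n

theorem OneTape.halt_unique (M : OneTape σ) {c : M.Cfg} {β β' : Bool} {s t : ℕ}
    (h : M.halt (M.step^[s] c).q = some β) (h' : M.halt (M.step^[t] c).q = some β') :
    β = β' := by
  have e1 := M.halt_stay h t
  have e2 := M.halt_stay h' s
  rw [← iterate_add_apply] at e1 e2
  rw [add_comm, e2] at e1
  rw [← e1, h'] at h
  exact (Option.some.inj h).symm

theorem cross_one {W a a' : ℕ} (h : a' = a ∨ a' = a + 1 ∨ a = a' + 1) :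
    ((Finset.range W).filter (fun o => (a + o) / W ≠ (a' + o) / W)).card ≤ 1 := by
  have key : ∀ a o o' : ℕ, o < W → o' < W → (a + o) / W ≠ (a + 1 + o) / W →
      (a + o') / W ≠ (a + 1 + o') / W → o = o' := by
    intro a o o' ho ho' h1 h2
    rw [show a + 1 + o = a + o + 1 by omega, Nat.succ_div] at h1
    rw [show a + 1 + o' = a + o' + 1 by omega, Nat.succ_div] at h2
    have d1 : W ∣ a + o + 1 := by by_contra hc; simp [hc] at h1
    have d2 : W ∣ a + o' + 1 := by by_contra hc; simp [hc] at h2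
    have e1 := Nat.eq_zero_of_dvd_of_lt (Nat.dvd_sub d1 d2) (by omega)
    have e2 := Nat.eq_zero_of_dvd_of_lt (Nat.dvd_sub d2 d1) (by omega)
    omega
  refine Finset.card_le_one.2 fun o ho o' ho' => ?_
  simp only [Finset.mem_filter, Finset.mem_range] at ho ho'
  rcases h with rfl | rfl | rfl
  · exact absurd rfl ho.2
  · exact key _ _ _ ho.1 ho'.1 ho.2 ho'.2
  · exact key _ _ _ ho.1 ho'.1 ho.2.symm ho'.2.symm

theorem OneTape.good_offset (M : OneTape σ) (w : List σ) {b : ℕ} (hb : 0 < b) (U : ℕ) :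
    ∃ o < b * b, et M.nm (w, b, U, o) (b * (b + 1) * b) = pT b := by
  let A : ℕ → ℕ := fun τ => (pT b + (M.step^[τ] (M.init w)).pos).toNat
  have hA : ∀ o τ, τ ≤ pT b → bk M.nm (w, b, U, o) τ = (A τ + o) / (b * b) := by
    intro o τ hτ
    obtain ⟨-, h2, -, h4⟩ := M.nrun_eq w (pT b + o) τ (by omega)
    simp only [bk, cfg, A]
    congr 1
    omega
  have hstep : ∀ j < pT b, A (j + 1) = A j ∨ A (j + 1) = A j + 1 ∨ A j = A (j + 1) + 1 := by
    intro j hj
    obtain ⟨-, -, -, h4⟩ := M.nrun_eq w (pT b) j (by omega)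
    have hm := mvc_spec (M.δ' (M.step^[j] (M.init w)).q
      ((M.step^[j] (M.init w)).tape (M.step^[j] (M.init w)).pos)).2.2
    simp only [A]
    rw [iterate_succ_apply', OneTape.step_eq]
    simp only
    omega
  have hsum : ∑ o ∈ Finset.range (b * b), cr M.nm (w, b, U, o) (pT b) ≤ pT b := by
    calc _ = ∑ o ∈ Finset.range (b * b), ∑ j ∈ Finset.range (pT b),
          if (A j + o) / (b * b) ≠ (A (j + 1) + o) / (b * b) then 1 else 0 := by
          refine Finset.sum_congr rfl fun o _ => ?_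
          rw [cr, Finset.card_filter]
          refine Finset.sum_congr rfl fun j hj => ?_
          have := Finset.mem_range.1 hj
          rw [hA o j (by omega), hA o (j + 1) (by omega)]
      _ ≤ ∑ j ∈ Finset.range (pT b), 1 := by
          rw [Finset.sum_comm]
          refine Finset.sum_le_sum fun j hj => ?_
          rw [← Finset.card_filter]
          exact cross_one (hstep j (Finset.mem_range.1 hj))
      _ = pT b := by simp
  have hW : 0 < b * b := by positivity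
  obtain ⟨o, ho, hle⟩ := Finset.exists_le_of_sum_le (s := Finset.range (b * b))
    (f := fun o => cr M.nm (w, b, U, o) (pT b) * (b * b)) (g := fun _ => pT b)
    ⟨0, Finset.mem_range.2 hW⟩ (by
      rw [← Finset.sum_mul, Finset.sum_const, Finset.card_range, smul_eq_mul, mul_comm]
      exact Nat.mul_le_mul_left _ hsum)
  refine ⟨o, Finset.mem_range.1 ho, ?_⟩
  rcases et_done (N := M.nm) (w, b, U, o) (b * (b + 1) * b) with h | h
  · exact h
  · exfalso
    have h1 := cr_mono (N := M.nm) (w, b, U, o) (et_le (N := M.nm) (w, b, U, o) (b * (b + 1) * b))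
    have h2 : cr M.nm (w, b, U, o) (pT b) ≤ b * b * b := by
      refine Nat.le_of_mul_le_mul_right (le_trans hle (le_of_eq ?_)) hW
      unfold pT; ring
    simp only at h1
    nlinarith

theorem rep_max (n : ℕ) (f : ℕ → ℕ) :
    (∀ o < n, f o ≤ rep n (fun o u => max u (f o)) 0) ∧
    (rep n (fun o u => max u (f o)) 0 = 0 ∨ ∃ o < n, rep n (fun o u => max u (f o)) 0 = f o) := by
  induction n with
  | zero => simp
  | succ n ih =>
    rw [rep_succ]
    refine ⟨fun o ho => ?_, ?_⟩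
    · by_cases e : o = n
      · subst e; exact le_max_right _ _
      · exact le_trans (ih.1 o (by omega)) (le_max_left _ _)
    · rcases le_total (rep n (fun o u => max u (f o)) 0) (f n) with h | h
      · exact Or.inr ⟨n, by omega, max_eq_right h⟩
      · rw [max_eq_left h]
        rcases ih.2 with h | ⟨o, ho, h⟩
        · exact Or.inl h
        · exact Or.inr ⟨o, by omega, h⟩

theorem hcode_le (o : Option Bool) : hcode o ≤ 2 := by
  rcases o with _ | _ | _ <;> simp [hcode]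

theorem OneTape.resOff_eq (M : OneTape σ) (w : List σ) {b o : ℕ} (hb : 0 < b) (ho : o < b * b) :
    resOff M.nm (w, b, 2 ^ pS M.nm b, o) = hcode (M.halt
      (M.step^[et M.nm (w, b, 2 ^ pS M.nm b, o) (b * (b + 1) * b)] (M.init w)).q) := by
  have h : GoodX M.nm (w, b, 2 ^ pS M.nm b, o) := ⟨hb, rfl, ho⟩
  have hle := et_le (N := M.nm) (w, b, 2 ^ pS M.nm b, o) (b * (b + 1) * b)
  rw [h.resOff, cfg, (M.nrun_eq w _ _ (le_trans hle (Nat.le_add_right _ _))).1]
  simp [OneTape.nm]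

theorem OneTape.mainF_eq (M : OneTape σ) (w : List σ) (b : ℕ) :
    mainF M.nm (w, b, 2 ^ pS M.nm b) =
      rep (b * b) (fun o u => max u (resOff M.nm (w, b, 2 ^ pS M.nm b, o))) 0 := by
  rw [mainF, repT_eq]
  intro i hi
  have hb : 0 < b := by
    rcases Nat.eq_zero_or_pos b with rfl | hb
    · simp at hi
    · exact hb
  apply tr_nat
  have h2 : 2 ≤ 2 ^ pS M.nm b := by
    have := pm_pos M.nm b
    have := pm_le_pS M.nm b
    exact Nat.le_self_pow (by omega) 2
  rcases (rep_max (i + 1) (fun o => resOff M.nm (w, b, 2 ^ pS M.nm b, o))).2 with h | ⟨o, ho, h⟩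
  · simp only [h]; omega
  · simp only at hi
    simp only [h]
    rw [M.resOff_eq w hb (by omega)]
    exact le_trans (hcode_le _) h2

theorem OneTape.mainF_sound (M : OneTape σ) (w : List σ) (b : ℕ) {t : ℕ} {β : Bool}
    (ht : M.halt (M.step^[t] (M.init w)).q = some β)
    (h : mainF M.nm (w, b, 2 ^ pS M.nm b) ≠ 0) :
    (top (mainF M.nm (w, b, 2 ^ pS M.nm b)) == 2) = β := by
  rw [M.mainF_eq] at h ⊢
  rcases (rep_max (b * b) (fun o => resOff M.nm (w, b, 2 ^ pS M.nm b, o))).2 with h' | ⟨o, ho, h'⟩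
  · exact absurd h' h
  · have hb : 0 < b := by
      rcases Nat.eq_zero_or_pos b with rfl | hb
      · simp at ho
      · exact hb
    rw [h', M.resOff_eq w hb ho] at h ⊢
    generalize hβ : M.halt (M.step^[et M.nm (w, b, 2 ^ pS M.nm b, o) (b * (b + 1) * b)]
      (M.init w)).q = r at h ⊢
    rcases r with _ | β'
    · exact absurd rfl h
    · rw [← M.halt_unique hβ ht]
      cases β' <;> rfl

theorem OneTape.mainF_complete (M : OneTape σ) (w : List σ) {b : ℕ} (hb : 0 < b) {t : ℕ}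
    {β : Bool} (ht : M.halt (M.step^[t] (M.init w)).q = some β) (hT : t ≤ pT b) :
    mainF M.nm (w, b, 2 ^ pS M.nm b) ≠ 0 := by
  obtain ⟨o, ho, h⟩ := M.good_offset w hb (2 ^ pS M.nm b)
  have h1 := (rep_max (b * b) (fun o => resOff M.nm (w, b, 2 ^ pS M.nm b, o))).1 o ho
  rw [M.mainF_eq]
  rw [M.resOff_eq w hb ho, h, show pT b = (pT b - t) + t by omega, iterate_add_apply,
    M.halt_stay ht, ht] at h1
  cases β <;> simp only [hcode] at h1 <;> omega

theorem pS_le (N : NM σ) : ∃ K, ∀ b b0, b ≤ b0 → 0 < b0 → pS N b ≤ K * (b0 * b0 * (lg b0 * lg b0)) := by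
  set c := N.G + 8 * (N.nq + 9) with hc
  refine ⟨4 * c * (11 * c + 4) + 2 * (11 * c + 9) + 16 * (N.nq + 9) + 1, fun b b0 hb h0 => ?_⟩
  have hl : lg b ≤ lg b0 := Nat.succ_le_succ (Nat.log_mono_right hb)
  have l0 := lg_pos b0
  have e1 : pe N b ≤ 4 * (N.nq + 9) * lg b0 := le_trans (pe_le N b) (by gcongr)
  have e2 : pm N b ≤ c * (b0 * b0) * lg b0 := by
    refine le_trans ?_ (pm_le N h0)
    unfold pm pe
    gcongr
  have e3 : plp N b ≤ (11 * c + 4) * lg b0 := by unfold plp; nlinarith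
  set l := lg b0
  set Y := b0 * b0 * (l * l) with hY
  have y1 : b0 * b0 * l ≤ Y := by rw [hY, ← mul_assoc]; exact Nat.le_mul_of_pos_right _ l0
  have y2 : l ≤ b0 * b0 * l := Nat.le_mul_of_pos_left _ (by positivity)
  have t1 : 4 * pm N b * plp N b ≤ 4 * c * (11 * c + 4) * Y := by
    calc _ ≤ 4 * (c * (b0 * b0) * l) * ((11 * c + 4) * l) := by gcongr
      _ = _ := by rw [hY]; ring
  have t2 : b * (b + 1) * (plp N b + 4 + lg b) ≤ 2 * (11 * c + 9) * Y := by
    calc _ ≤ b0 * (2 * b0) * ((11 * c + 9) * l) := by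
          refine Nat.mul_le_mul (Nat.mul_le_mul hb (by omega)) (by nlinarith)
      _ = 2 * (11 * c + 9) * (b0 * b0 * l) := by ring
      _ ≤ _ := by gcongr
  have t3 : (b + 1) * (pe N b * (b + 1)) ≤ 16 * (N.nq + 9) * Y := by
    calc _ ≤ (2 * b0) * ((4 * (N.nq + 9) * l) * (2 * b0)) :=
          Nat.mul_le_mul (by omega) (Nat.mul_le_mul e1 (by omega))
      _ = 16 * (N.nq + 9) * (b0 * b0 * l) := by ring
      _ ≤ _ := by gcongr
  unfold pS
  nlinarith

theorem exists_root (t : ℕ) : ∃ b : ℕ, 0 < b ∧ t ≤ pT b ∧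
    ((b * b * (lg b * lg b) : ℕ) : ℝ) ≤ 36 * ((t : ℝ) ^ (2 / 5 : ℝ) * Real.log t ^ 2) + 1 := by
  have hex : ∃ b, t ≤ pT (b + 1) := ⟨t, by unfold pT; nlinarith [Nat.zero_le (t * t), Nat.zero_le (t * t * t), Nat.zero_le (t * t * t * t), Nat.zero_le (t * t * t * t * t)]⟩
  refine ⟨Nat.find hex + 1, by omega, Nat.find_spec hex, ?_⟩
  rcases Nat.eq_zero_or_pos (Nat.find hex) with h0 | h0
  · rw [h0]
    have : 0 ≤ (t : ℝ) ^ (2 / 5 : ℝ) * Real.log t ^ 2 := by positivity
    simp [lg]; linarith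
  · have hlt := Nat.find_min hex (show Nat.find hex - 1 < Nat.find hex by omega)
    rw [Nat.sub_add_cancel h0, not_le] at hlt
    generalize Nat.find hex = a at *
    have ha5 : a ^ 5 < t := by unfold pT at hlt; nlinarith
    have hat : a < t := lt_of_le_of_lt (Nat.le_self_pow (by omega) a) ha5
    have ht2 : (2 : ℝ) ≤ t := by exact_mod_cast (show 2 ≤ t by omega)
    have h1 : ((a : ℝ)) ^ 2 ≤ (t : ℝ) ^ (2 / 5 : ℝ) := by
      have : ((a : ℝ) ^ 5) ^ (2 / 5 : ℝ) ≤ (t : ℝ) ^ (2 / 5 : ℝ) :=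
        Real.rpow_le_rpow (by positivity) (by exact_mod_cast ha5.le) (by norm_num)
      rwa [← Real.rpow_natCast, ← Real.rpow_mul (by positivity),
        show ((5 : ℕ) : ℝ) * (2 / 5) = (2 : ℕ) by norm_num, Real.rpow_natCast] at this
    have hlog2 : (0.69 : ℝ) < Real.log 2 := lt_trans (by norm_num) Real.log_two_gt_d9
    have h2 : Real.log 2 ≤ Real.log t := Real.log_le_log (by norm_num) ht2
    have h3 : (Nat.log 2 (a + 1) : ℝ) * Real.log 2 ≤ Real.log t := by
      rw [← Real.log_pow]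
      refine Real.log_le_log (by positivity) ?_
      have := Nat.pow_log_le_self 2 (show a + 1 ≠ 0 by omega)
      exact_mod_cast le_trans this hat
    have h4 : (lg (a + 1) : ℝ) ≤ 3 * Real.log t := by
      have : (0 : ℝ) ≤ Nat.log 2 (a + 1) := by positivity
      simp only [lg, Nat.cast_add, Nat.cast_one]
      nlinarith
    have h5 : ((a : ℝ) + 1) ≤ 2 * a := by
      have : (1 : ℝ) ≤ a := by exact_mod_cast h0
      linarith
    have h6 : (0 : ℝ) ≤ lg (a + 1) := by positivity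
    push_cast
    calc ((a : ℝ) + 1) * (a + 1) * ((lg (a + 1) : ℝ) * lg (a + 1))
        ≤ (2 * a) * (2 * a) * ((3 * Real.log t) * (3 * Real.log t)) := by gcongr
      _ = 36 * ((a : ℝ) ^ 2 * Real.log t ^ 2) := by ring
      _ ≤ 36 * ((t : ℝ) ^ (2 / 5 : ℝ) * Real.log t ^ 2) := by gcongr
      _ ≤ _ := by linarith

theorem time1_subset_space [Finite σ] (t : ℕ → ℕ) :
    TIME1 σ t ⊆ SPACE σ (fun n => (t n : ℝ) ^ (2 / 5 : ℝ) * Real.log (t n) ^ 2) := by
  rintro L ⟨M, hM⟩
  obtain ⟨Mc, K, H⟩ := top_machine (pS M.nm) (sp_pS _) (mainF M.nm) (sp_mainF _) (fun b =>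
    le_trans (lt_lg b).le (Nat.pow_le_pow_right (by omega) (by unfold pS; omega)))
  obtain ⟨K', hK'⟩ := pS_le M.nm
  refine ⟨Mc, K * (36 * K' + 1), fun w => ?_⟩
  obtain ⟨β, h1, h2⟩ := hM w
  obtain ⟨b0, b1, b2, b3⟩ := exists_root (t w.length)
  obtain ⟨b, T, V, a1, a2, a3, a4⟩ := H w b0 _ b1 (M.mainF_complete w b1 h1 b2)
    (fun b hb => hK' b b0 hb b1)
  refine ⟨T, β, V, by rw [a2, M.mainF_sound w b h1 a1], h2, a3, ?_⟩
  have a5 : (V.card : ℝ) ≤ K * (K' * ((b0 * b0 * (lg b0 * lg b0) : ℕ) : ℝ) + 1) := by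
    exact_mod_cast a4
  have hs : 0 ≤ (t w.length : ℝ) ^ (2 / 5 : ℝ) * Real.log (t w.length) ^ 2 := by positivity
  simp only
  generalize (t w.length : ℝ) ^ (2 / 5 : ℝ) * Real.log (t w.length) ^ 2 = s at *
  have k0 : (0 : ℝ) ≤ K := by positivity
  have k1 : (0 : ℝ) ≤ K' := by positivity
  calc (V.card : ℝ) ≤ K * (K' * (36 * s + 1) + 1) := le_trans a5 (by gcongr)
    _ ≤ _ := by nlinarith [mul_nonneg k0 hs, mul_nonneg k0 k1]

theorem space_mono {s s' : ℕ → ℝ} (D : ℝ) (h0 : ∀ n, 0 ≤ s n) (hD : 0 ≤ D)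
    (h0' : ∀ n, 0 ≤ s' n) (h : ∀ n, s n ≤ D * s' n) : SPACE σ s ⊆ SPACE σ s' := by
  rintro L ⟨M, C, H⟩
  refine ⟨M, |C| * (D + 1), fun w => ?_⟩
  obtain ⟨T, b, S, a1, a2, a3, a4⟩ := H w
  refine ⟨T, b, S, a1, a2, a3, le_trans a4 ?_⟩
  have c1 := le_abs_self C
  have c2 := abs_nonneg C
  have c3 := h0 w.length
  have c4 := h0' w.length
  have c5 := h w.length
  nlinarith [mul_le_mul_of_nonneg_right c1 c3, mul_le_mul_of_nonneg_left c5 c2,
    mul_nonneg c2 c4, mul_nonneg c2 hD]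

theorem time1_subset_space_pow [Finite σ] (t : ℕ → ℕ) {e : ℝ} (he : 2 / 5 < e) :
    TIME1 σ t ⊆ SPACE σ (fun n => (t n : ℝ) ^ e) := by
  have hε : 0 < (e - 2 / 5) / 2 := by linarith
  refine (time1_subset_space t).trans (space_mono (1 / ((e - 2 / 5) / 2) ^ 2)
    (fun n => by positivity) (by positivity) (fun n => by positivity) fun n => ?_)
  rcases Nat.eq_zero_or_pos (t n) with h | h
  · rw [h]; simp; positivity
  · have ht : (0 : ℝ) < t n := by exact_mod_cast h
    have h1 := Real.log_le_rpow_div ht.le hε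
    have h2 : 0 ≤ Real.log (t n) := Real.log_natCast_nonneg _
    have h3 : (t n : ℝ) ^ e = (t n : ℝ) ^ (2 / 5 : ℝ) * ((t n : ℝ) ^ ((e - 2 / 5) / 2)) ^ 2 := by
      rw [← Real.rpow_natCast, ← Real.rpow_mul ht.le, ← Real.rpow_add ht]
      congr 1; push_cast; ring
    calc _ ≤ (t n : ℝ) ^ (2 / 5 : ℝ) * ((t n : ℝ) ^ ((e - 2 / 5) / 2) / ((e - 2 / 5) / 2)) ^ 2 := by
          gcongr
      _ = _ := by rw [h3]; field_simp

end Vale.Agent.P312
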