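import Vale.Agent.P312.SPLib

/-! Polynomial functions over `ZMod p`, multilinear extensions, iteration lemmas. -/

namespace Vale.Agent.P312

open Finset

theorem rep_add {α : Type} (m n : ℕ) (f : ℕ → α → α) (a : α) :
    rep (m + n) f a = rep n (fun i => f (m + i)) (rep m f a) := by
  induction n with
  | zero => rfl
  | succ n ih => rw [← add_assoc, rep_succ, ih, rep_succ]

theorem rep_congr {α : Type} {n : ℕ} {f g : ℕ → α → α} (h : ∀ i < n, ∀ a, f i a = g i a) (a : α) :
    rep n f a = rep n g a := by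
  induction n with
  | zero => rfl
  | succ n ih => rw [rep_succ, rep_succ, ih (fun i hi => h i (by omega)), h n (by omega)]

theorem rep_mul {α : Type} (m n : ℕ) (f : ℕ → α → α) (a : α) :
    rep (m * n) f a = rep m (fun i => rep n (fun j => f (i * n + j))) a := by
  induction m with
  | zero => simp
  | succ m ih => rw [Nat.succ_mul, rep_add, ih, rep_succ]

theorem rep_one {α : Type} (f : ℕ → α → α) (a : α) : rep 1 f a = f 0 a := rfl

theorem rep_rel {α β : Type} (R : α → β → Prop) {f : ℕ → α → α} {g : ℕ → β → β} (n : ℕ)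
    (h : ∀ i < n, ∀ a b, R a b → R (f i a) (g i b)) {a : α} {b : β} (h0 : R a b) :
    R (rep n f a) (rep n g b) := by
  induction n with
  | zero => exact h0
  | succ n ih => exact h n (by omega) _ _ (ih fun i hi => h i (by omega))

section
variable {F : Type} [Field F]

def PD (d : ℕ) (φ : F → F) : Prop := ∃ P : Polynomial F, P.natDegree ≤ d ∧ ∀ x, φ x = P.eval x

theorem PD.mono {d e : ℕ} {φ : F → F} (h : PD d φ) (he : d ≤ e) : PD e φ := by
  obtain ⟨P, h1, h2⟩ := h
  exact ⟨P, h1.trans he, h2⟩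

theorem PD.const (d : ℕ) (c : F) : PD d (fun _ => c) := ⟨Polynomial.C c, by simp, by simp⟩

theorem PD.lin (a : F) : PD 1 (fun x => a * x) :=
  ⟨Polynomial.C a * Polynomial.X, (Polynomial.natDegree_C_mul_le _ _).trans Polynomial.natDegree_X_le, by simp⟩

theorem PD.add {d : ℕ} {φ ψ : F → F} (h : PD d φ) (h' : PD d ψ) : PD d (fun x => φ x + ψ x) := by
  obtain ⟨P, h1, h2⟩ := h
  obtain ⟨Q, h3, h4⟩ := h'
  exact ⟨P + Q, (Polynomial.natDegree_add_le _ _).trans (max_le h1 h3), by simp [h2, h4]⟩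

theorem PD.sub {d : ℕ} {φ ψ : F → F} (h : PD d φ) (h' : PD d ψ) : PD d (fun x => φ x - ψ x) := by
  obtain ⟨P, h1, h2⟩ := h
  obtain ⟨Q, h3, h4⟩ := h'
  exact ⟨P - Q, (Polynomial.natDegree_sub_le _ _).trans (max_le h1 h3), by simp [h2, h4]⟩

theorem PD.mul {d e : ℕ} {φ ψ : F → F} (h : PD d φ) (h' : PD e ψ) :
    PD (d + e) (fun x => φ x * ψ x) := by
  obtain ⟨P, h1, h2⟩ := h
  obtain ⟨Q, h3, h4⟩ := h'
  exact ⟨P * Q, Polynomial.natDegree_mul_le.trans (add_le_add h1 h3), by simp [h2, h4]⟩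

theorem PD.sum {d : ℕ} (n : ℕ) {φ : ℕ → F → F} (h : ∀ i < n, PD d (φ i)) :
    PD d (fun x => ∑ i ∈ range n, φ i x) := by
  induction n with
  | zero => simpa using PD.const d (0 : F)
  | succ n ih =>
    simp only [sum_range_succ]
    exact (ih fun i hi => h i (by omega)).add (h n (by omega))

theorem PD.prod {d : ℕ} (n : ℕ) {φ : ℕ → F → F} (h : ∀ i < n, PD d (φ i)) :
    PD (n * d) (fun x => ∏ i ∈ range n, φ i x) := by
  induction n with
  | zero => simpa using PD.const 0 (1 : F)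
  | succ n ih =>
    simp only [prod_range_succ, Nat.succ_mul]
    exact (ih fun i hi => h i (by omega)).mul (h n (by omega))

/-- Multilinear indicator of the bit vector of `V`. -/
def chi (m V : ℕ) (x : ℕ → F) : F := ∏ j ∈ range m, if dig 2 V j = 1 then x j else 1 - x j

def bits (V : ℕ) : ℕ → F := fun j => (dig 2 V j : F)

theorem chi_bits {m V W : ℕ} (hV : V < 2 ^ m) (hW : W < 2 ^ m) :
    chi m V (bits W : ℕ → F) = if V = W then 1 else 0 := by
  split_ifs with h
  · subst h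
    refine prod_eq_one fun j _ => ?_
    have := dig_lt (show 0 < 2 by omega) V j
    split_ifs with h1
    · simp [bits, h1]
    · simp [bits, show dig 2 V j = 0 by omega]
  · have : ∃ j < m, dig 2 V j ≠ dig 2 W j := by
      by_contra hc
      push Not at hc
      exact h (eq_of_dig hV hW hc)
    obtain ⟨j, hj, hne⟩ := this
    refine prod_eq_zero (mem_range.2 hj) ?_
    have h1 := dig_lt (show 0 < 2 by omega) V j
    have h2 := dig_lt (show 0 < 2 by omega) W j
    split_ifs with h3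
    · simp [bits, show dig 2 W j = 0 by omega]
    · simp [bits, show dig 2 W j = 1 by omega]

def lde1 (m : ℕ) (f : ℕ → ℕ) (x : ℕ → F) : F := ∑ V ∈ range (2 ^ m), (f V : F) * chi m V x

def lde2 (m : ℕ) (f : ℕ → ℕ → ℕ) (x y : ℕ → F) : F :=
  ∑ V ∈ range (2 ^ m), (∑ W ∈ range (2 ^ m), (f V W : F) * chi m W y) * chi m V x

theorem lde1_bits {m V : ℕ} (f : ℕ → ℕ) (hV : V < 2 ^ m) :
    lde1 m f (bits V : ℕ → F) = f V := by
  rw [lde1, sum_eq_single V]
  · rw [chi_bits hV hV]; simp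
  · intro W hW hne
    rw [chi_bits (mem_range.1 hW) hV, if_neg hne, mul_zero]
  · intro h; exact absurd (mem_range.2 hV) h

theorem lde2_bits {m V W : ℕ} (f : ℕ → ℕ → ℕ) (hV : V < 2 ^ m) (hW : W < 2 ^ m) :
    lde2 m f (bits V : ℕ → F) (bits W) = f V W := by
  rw [lde2, sum_eq_single V]
  · rw [chi_bits hV hV]
    simpa [lde1] using lde1_bits (F := F) (f V) hW
  · intro V' hV' hne
    rw [chi_bits (mem_range.1 hV') hV, if_neg hne, mul_zero]
  · intro h; exact absurd (mem_range.2 hV) h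

theorem PD.chi (m V : ℕ) {x : F → ℕ → F} (h : ∀ j, PD 1 (fun ω => x ω j)) :
    PD m (fun ω => chi m V (x ω)) := by
  have := PD.prod (d := 1) m (φ := fun j ω => if dig 2 V j = 1 then x ω j else 1 - x ω j)
    (fun j _ => by
      split_ifs
      · exact h j
      · exact (PD.const 1 1).sub (h j))
  rw [mul_one] at this
  exact this

theorem PD.lde1 (m : ℕ) (f : ℕ → ℕ) {x : F → ℕ → F} (h : ∀ j, PD 1 (fun ω => x ω j)) :
    PD m (fun ω => lde1 m f (x ω)) :=
  PD.sum _ fun V _ => by simpa using (PD.const 0 (f V : F)).mul (PD.chi m V h)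

theorem PD.lde2 (m : ℕ) (f : ℕ → ℕ → ℕ) {x y : F → ℕ → F} (h : ∀ j, PD 1 (fun ω => x ω j))
    (h' : ∀ j, PD 1 (fun ω => y ω j)) : PD (m + m) (fun ω => lde2 m f (x ω) (y ω)) :=
  PD.sum _ fun V _ => (PD.lde1 m (f V) h').mul (PD.chi m V h)

end

theorem PD.sum_units {p : ℕ} [Fact p.Prime] {d : ℕ} {φ : ZMod p → ZMod p} (h : PD d φ)
    (hd : d + 1 < p) : ∑ w ∈ range (p - 1), φ ((w + 1 : ℕ) : ZMod p) = - φ 0 := by
  obtain ⟨P, h1, h2⟩ := h
  have hp : 0 < p := by omega
  have e1 : ∑ x : ZMod p, φ x = 0 := by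
    simp only [h2, Polynomial.eval_eq_sum_range]
    rw [sum_comm]
    refine sum_eq_zero fun i hi => ?_
    rw [← mul_sum, FiniteField.sum_pow_lt_card_sub_one, mul_zero]
    rw [ZMod.card]
    have := mem_range.1 hi
    omega
  have e2 : ∑ x : ZMod p, φ x = ∑ w ∈ range p, φ (w : ZMod p) := by
    symm
    refine sum_bij (fun w _ => (w : ZMod p)) (fun _ _ => mem_univ _) ?_ ?_ (fun _ _ => rfl)
    · intro a ha b hb hab
      have := (ZMod.natCast_eq_natCast_iff' a b p).1 hab
      rwa [Nat.mod_eq_of_lt (mem_range.1 ha), Nat.mod_eq_of_lt (mem_range.1 hb)] at this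
    · intro x _
      exact ⟨x.val, mem_range.2 (ZMod.val_lt x), ZMod.natCast_zmod_val x⟩
  obtain ⟨q, rfl⟩ : ∃ q, p = q + 1 := ⟨p - 1, by omega⟩
  rw [e2, sum_range_succ'] at e1
  simp only [Nat.add_sub_cancel]
  simp only [Nat.cast_zero] at e1
  exact eq_neg_of_add_eq_zero_left e1

end Vale.Agent.P312
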