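import Vale.Agent.P312.Defs

/-! While programs on stack registers and their compilation to multitape machines. -/

namespace Vale.Agent.P312

open Function

/-- Top digit of a number in bijective base two. -/
def top (x : ℕ) : ℕ := if x = 0 then 0 else if x % 2 = 1 then 1 else 2

inductive Cond (σ : Type) where
  | dig (r : ℕ) (p : ℕ → Bool) : Cond σ
  | sym (p : InSym σ → Bool) : Cond σ

inductive Act where
  | nop : Act
  | push (r : ℕ) (b : Bool) : Act
  | pop (r : ℕ) : Act
  | mv (d : SignType) : Act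

inductive Prog (σ : Type) where
  | act (a : Act) : Prog σ
  | seq (P Q : Prog σ) : Prog σ
  | ite (c : Cond σ) (P Q : Prog σ) : Prog σ
  | loop (c : Cond σ) (P : Prog σ) : Prog σ

abbrev St := ℕ × (ℕ → ℕ)

variable {σ : Type}

def Cond.ev (c : Cond σ) (s : InSym σ) (o : ℕ → ℕ) : Bool :=
  match c with
  | .dig r p => p (o r)
  | .sym p => p s

def Cond.at (c : Cond σ) (w : List σ) (s : St) : Bool :=
  c.ev (readIn w s.1) (fun r => top (s.2 r))

def Act.ap (n : ℕ) (a : Act) (s : St) : St :=
  match a with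
  | .nop => s
  | .push r b => (s.1, update s.2 r (2 * s.2 r + 1 + b.toNat))
  | .pop r => (s.1, update s.2 r ((s.2 r - 1) / 2))
  | .mv d => (moveIn n s.1 d, s.2)

def Act.ok (M : ℕ) (a : Act) (s : St) : Prop :=
  match a with
  | .push r b => 2 * s.2 r + 1 + b.toNat ≤ M
  | _ => True

inductive Runs (w : List σ) (M : ℕ) : Prog σ → St → St → Prop
  | act {a s} : a.ok M s → Runs w M (.act a) s (a.ap w.length s)
  | seq {P Q s s1 s2} : Runs w M P s s1 → Runs w M Q s1 s2 → Runs w M (.seq P Q) s s2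
  | iteT {c P Q s s1} : c.at w s = true → Runs w M P s s1 → Runs w M (.ite c P Q) s s1
  | iteF {c P Q s s1} : c.at w s = false → Runs w M Q s s1 → Runs w M (.ite c P Q) s s1
  | loopF {c P s} : c.at w s = false → Runs w M (.loop c P) s s
  | loopT {c P s s1 s2} : c.at w s = true → Runs w M P s s1 → Runs w M (.loop c P) s1 s2 →
      Runs w M (.loop c P) s s2

theorem Runs.mono {w : List σ} {M M' : ℕ} (h : M ≤ M') {P s s'} (H : Runs w M P s s') :
    Runs w M' P s s' := by
  induction H with
  | @act a s ha =>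
    refine Runs.act ?_
    cases a <;> simp_all [Act.ok]
    omega
  | seq _ _ i1 i2 => exact Runs.seq i1 i2
  | iteT c _ i => exact Runs.iteT c i
  | iteF c _ i => exact Runs.iteF c i
  | loopF c => exact Runs.loopF c
  | loopT c _ _ i1 i2 => exact Runs.loopT c i1 i2

theorem Runs.cast {w : List σ} {M : ℕ} {P s s' t'} (H : Runs w M P s s') (h : s' = t') :
    Runs w M P s t' := h ▸ H

/-! Renaming registers. -/

def Cond.ren (ρ : ℕ → ℕ) : Cond σ → Cond σ
  | .dig r p => .dig (ρ r) p
  | .sym p => .sym p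

def Act.ren (ρ : ℕ → ℕ) : Act → Act
  | .nop => .nop
  | .push r b => .push (ρ r) b
  | .pop r => .pop (ρ r)
  | .mv d => .mv d

def Prog.ren (ρ : ℕ → ℕ) : Prog σ → Prog σ
  | .act a => .act (a.ren ρ)
  | .seq P Q => .seq (P.ren ρ) (Q.ren ρ)
  | .ite c P Q => .ite (c.ren ρ) (P.ren ρ) (Q.ren ρ)
  | .loop c P => .loop (c.ren ρ) (P.ren ρ)

theorem Cond.ren_at (ρ : ℕ → ℕ) (c : Cond σ) (w : List σ) (s : St) (y : ℕ → ℕ)
    (h : ∀ r, y (ρ r) = s.2 r) : (c.ren ρ).at w (s.1, y) = c.at w s := by
  cases c <;> simp [Cond.ren, Cond.at, Cond.ev, h]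

theorem Runs.ren {w : List σ} {M : ℕ} {ρ : ℕ → ℕ} (hρ : Injective ρ) {P s s'}
    (H : Runs w M P s s') : ∀ y : ℕ → ℕ, (∀ r, y (ρ r) = s.2 r) →
      ∃ y', Runs w M (P.ren ρ) (s.1, y) (s'.1, y') ∧ (∀ r, y' (ρ r) = s'.2 r) ∧
        ∀ r, (∀ r', ρ r' ≠ r) → y' r = y r := by
  induction H with
  | @act a s ha =>
    intro y hy
    refine ⟨((a.ren ρ).ap w.length (s.1, y)).2, ?_, ?_, ?_⟩
    · have : (((a.ap w.length s).1, ((a.ren ρ).ap w.length (s.1, y)).2) : St) =
          (a.ren ρ).ap w.length (s.1, y) := by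
        cases a <;> rfl
      rw [this]
      refine Runs.act ?_
      cases a <;> simp_all [Act.ok, Act.ren]
    · intro r
      cases a <;> simp only [Act.ren, Act.ap, hy]
      all_goals
        rename_i r0
        first
        | (by_cases h : r = r0
           · subst h; simp
           · rw [update_of_ne h, update_of_ne (hρ.ne h), hy])
        | (rename_i r1
           by_cases h : r = r1
           · subst h; simp
           · rw [update_of_ne h, update_of_ne (hρ.ne h), hy])
    · intro r hr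
      cases a <;> simp only [Act.ren, Act.ap]
      all_goals rw [update_of_ne (hr _).symm]
  | seq _ _ i1 i2 =>
    intro y hy
    obtain ⟨y1, a1, b1, c1⟩ := i1 y hy
    obtain ⟨y2, a2, b2, c2⟩ := i2 y1 b1
    exact ⟨y2, Runs.seq a1 a2, b2, fun r hr => (c2 r hr).trans (c1 r hr)⟩
  | iteT c _ i =>
    intro y hy
    obtain ⟨y1, a1, b1, c1⟩ := i y hy
    exact ⟨y1, Runs.iteT ((Cond.ren_at ρ _ w _ y hy).trans c) a1, b1, c1⟩
  | iteF c _ i =>
    intro y hy
    obtain ⟨y1, a1, b1, c1⟩ := i y hy
    exact ⟨y1, Runs.iteF ((Cond.ren_at ρ _ w _ y hy).trans c) a1, b1, c1⟩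
  | loopF c =>
    intro y hy
    exact ⟨y, Runs.loopF ((Cond.ren_at ρ _ w _ y hy).trans c), hy, fun _ _ => rfl⟩
  | loopT c _ _ i1 i2 =>
    intro y hy
    obtain ⟨y1, a1, b1, c1⟩ := i1 y hy
    obtain ⟨y2, a2, b2, c2⟩ := i2 y1 b1
    exact ⟨y2, Runs.loopT ((Cond.ren_at ρ _ w _ y hy).trans c) a1 a2, b2,
      fun r hr => (c2 r hr).trans (c1 r hr)⟩

/-- Renaming for a program that changes one register. -/
theorem Runs.ren_upd {w : List σ} {M : ℕ} {ρ : ℕ → ℕ} (hρ : Injective ρ) {P h h' x n v}
    (H : Runs w M P (h, x) (h', update x n v)) (y : ℕ → ℕ) (hy : ∀ r, y (ρ r) = x r) :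
    Runs w M (P.ren ρ) (h, y) (h', update y (ρ n) v) := by
  obtain ⟨y', a, b, c⟩ := H.ren hρ y hy
  refine a.cast ?_
  congr 1
  funext r
  by_cases hr : ∃ r', ρ r' = r
  · obtain ⟨r', rfl⟩ := hr
    rw [b]
    by_cases h : r' = n
    · subst h; simp
    · simp only []
      rw [update_of_ne h, update_of_ne (hρ.ne h), hy]
  · push Not at hr
    rw [c r hr, update_of_ne (hr n).symm]

/-! Finite control. -/

def Lab : Prog σ → Type
  | .act _ => Unit
  | .seq P Q => Lab P ⊕ Lab Q
  | .ite _ P Q => Option (Lab P ⊕ Lab Q)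
  | .loop _ P => Option (Lab P)

theorem lab_finite : (P : Prog σ) → Finite (Lab P)
  | .act _ => inferInstanceAs (Finite Unit)
  | .seq P Q => by
    have := lab_finite P; have := lab_finite Q
    exact inferInstanceAs (Finite (Lab P ⊕ Lab Q))
  | .ite _ P Q => by
    have := lab_finite P; have := lab_finite Q
    exact inferInstanceAs (Finite (Option (Lab P ⊕ Lab Q)))
  | .loop _ P => by
    have := lab_finite P
    exact inferInstanceAs (Finite (Option (Lab P)))

def start : (P : Prog σ) → Lab P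
  | .act _ => ()
  | .seq P _ => Sum.inl (start P)
  | .ite _ _ _ => none
  | .loop _ _ => none

def tbl : (P : Prog σ) → Lab P → InSym σ → (ℕ → ℕ) → Act × Option (Lab P)
  | .act a, _, _, _ => (a, none)
  | .seq P Q, Sum.inl l, s, o =>
      ((tbl P l s o).1, some (((tbl P l s o).2.map Sum.inl).getD (Sum.inr (start Q))))
  | .seq _ Q, Sum.inr l, s, o => ((tbl Q l s o).1, (tbl Q l s o).2.map Sum.inr)
  | .ite c P Q, none, s, o =>
      (.nop, some (some (if c.ev s o then Sum.inl (start P) else Sum.inr (start Q))))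
  | .ite _ P _, some (Sum.inl l), s, o =>
      ((tbl P l s o).1, (tbl P l s o).2.map (fun l => some (Sum.inl l)))
  | .ite _ _ Q, some (Sum.inr l), s, o =>
      ((tbl Q l s o).1, (tbl Q l s o).2.map (fun l => some (Sum.inr l)))
  | .loop c P, none, s, o => (.nop, if c.ev s o then some (some (start P)) else none)
  | .loop _ P, some l, s, o => ((tbl P l s o).1, some ((tbl P l s o).2))

def Stp (w : List σ) (M : ℕ) (P : Prog σ) (a b : Option (Lab P) × St) : Prop :=
  ∃ l, a.1 = some l ∧
    (tbl P l (readIn w a.2.1) (fun r => top (a.2.2 r))).1.ok M a.2 ∧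
    b.1 = (tbl P l (readIn w a.2.1) (fun r => top (a.2.2 r))).2 ∧
    b.2 = (tbl P l (readIn w a.2.1) (fun r => top (a.2.2 r))).1.ap w.length a.2

theorem lift_steps {w : List σ} {M : ℕ} {P R : Prog σ} (f : Option (Lab P) → Option (Lab R))
    (g : Lab P → Lab R) (hf : ∀ l, f (some l) = some (g l))
    (ht : ∀ l s o, tbl R (g l) s o = ((tbl P l s o).1, f (tbl P l s o).2))
    {a b : Option (Lab P) × St} (H : Relation.ReflTransGen (Stp w M P) a b) :
    Relation.ReflTransGen (Stp w M R) (f a.1, a.2) (f b.1, b.2) := by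
  induction H with
  | refl => exact Relation.ReflTransGen.refl
  | tail _ h ih =>
    refine ih.tail ?_
    obtain ⟨l, h1, h2, h3, h4⟩ := h
    refine ⟨g l, by simp only [h1, hf], ?_, ?_, ?_⟩
    · simpa only [ht] using h2
    · simp only [ht, h3]
    · simp only [ht, h4]

theorem Runs.steps {w : List σ} {M : ℕ} {P s s'} (H : Runs w M P s s') :
    Relation.ReflTransGen (Stp w M P) (some (start P), s) (none, s') := by
  induction H with
  | @act a s ha => exact Relation.ReflTransGen.single ⟨(), rfl, ha, rfl, rfl⟩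
  | @seq P Q s s1 s2 _ _ i1 i2 =>
    have a1 := lift_steps (R := .seq P Q)
      (fun o => some ((o.map Sum.inl).getD (Sum.inr (start Q)))) Sum.inl (fun _ => rfl)
      (fun _ _ _ => rfl) i1
    have a2 := lift_steps (R := .seq P Q) (fun o => o.map Sum.inr) Sum.inr (fun _ => rfl)
      (fun _ _ _ => rfl) i2
    exact a1.trans a2
  | @iteT c P Q s s1 hc _ i =>
    have a1 := lift_steps (R := .ite c P Q) (fun o => o.map (fun l => some (Sum.inl l)))
      (fun l => some (Sum.inl l)) (fun _ => rfl) (fun _ _ _ => rfl) i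
    refine Relation.ReflTransGen.head ?_ a1
    refine ⟨none, rfl, trivial, ?_, rfl⟩
    simp only [Cond.at] at hc
    simp only [tbl, hc]; rfl
  | @iteF c P Q s s1 hc _ i =>
    have a1 := lift_steps (R := .ite c P Q) (fun o => o.map (fun l => some (Sum.inr l)))
      (fun l => some (Sum.inr l)) (fun _ => rfl) (fun _ _ _ => rfl) i
    refine Relation.ReflTransGen.head ?_ a1
    refine ⟨none, rfl, trivial, ?_, rfl⟩
    simp only [Cond.at] at hc
    simp only [tbl, hc]; rfl
  | @loopF c P s hc =>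
    refine Relation.ReflTransGen.single ⟨none, rfl, trivial, ?_, rfl⟩
    simp only [Cond.at] at hc
    simp [tbl, hc]
  | @loopT c P s s1 s2 hc _ _ i1 i2 =>
    have a1 := lift_steps (R := .loop c P) (fun o => some o) (fun l => some l)
      (fun _ => rfl) (fun _ _ _ => rfl) i1
    refine Relation.ReflTransGen.head ?_ (a1.trans i2)
    refine ⟨none, rfl, trivial, ?_, rfl⟩
    simp only [Cond.at] at hc
    simp [tbl, hc]

def Act.reg : Act → ℕ
  | .push r _ => r
  | .pop r => r
  | _ => 0

def Prog.bd : Prog σ → ℕ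
  | .act a => a.reg + 1
  | .seq P Q => max P.bd Q.bd
  | .ite _ P Q => max P.bd Q.bd
  | .loop _ P => P.bd

theorem Prog.bd_pos (P : Prog σ) : 0 < P.bd := by
  induction P <;> simp_all [Prog.bd]

theorem tbl_reg : (P : Prog σ) → (l : Lab P) → (s : InSym σ) → (o : ℕ → ℕ) →
    (tbl P l s o).1.reg < P.bd
  | .act a, _, _, _ => by simp [tbl, Prog.bd]
  | .seq P Q, Sum.inl l, s, o => by
    have := tbl_reg P l s o
    simp only [tbl, Prog.bd]; omega
  | .seq P Q, Sum.inr l, s, o => by
    have := tbl_reg Q l s o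
    simp only [tbl, Prog.bd]; omega
  | .ite c P Q, none, s, o => by
    have := P.bd_pos
    simp only [tbl, Prog.bd, Act.reg]; omega
  | .ite _ P Q, some (Sum.inl l), s, o => by
    have := tbl_reg P l s o
    simp only [tbl, Prog.bd]; omega
  | .ite _ P Q, some (Sum.inr l), s, o => by
    have := tbl_reg Q l s o
    simp only [tbl, Prog.bd]; omega
  | .loop c P, none, s, o => by
    have := P.bd_pos
    simp only [tbl, Prog.bd, Act.reg]; omega
  | .loop _ P, some l, s, o => by
    have := tbl_reg P l s o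
    simpa only [tbl, Prog.bd] using this

end Vale.Agent.P312
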