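import Vale.Agent.P312.Cls

/-! A `fun_prop` interface for linear-space computable functions. -/

namespace Vale.Agent.P312

open Function

class Enc (σ : Type) (α : Type) where
  dim : ℕ
  regs : α → ℕ → ℕ
  zr : ∀ a, Zr dim (regs a)
  ok : α → List σ → Prop

variable {σ : Type}

instance encNat : Enc σ ℕ where
  dim := 1
  regs := fun a r => if r = 0 then a else 0
  zr := fun a r hr => by simp; omega
  ok := fun _ _ => True

instance encBool : Enc σ Bool where
  dim := 1
  regs := fun a r => if r = 0 then a.toNat else 0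
  zr := fun a r hr => by simp; omega
  ok := fun _ _ => True

instance encWord : Enc σ (List σ) where
  dim := 0
  regs := fun _ _ => 0
  zr := fun _ _ _ => rfl
  ok := fun a w => a = w

instance encProd {α β : Type} [A : Enc σ α] [B : Enc σ β] : Enc σ (α × β) where
  dim := A.dim + B.dim
  regs := fun p r => if r < A.dim then A.regs p.1 r else B.regs p.2 (r - A.dim)
  zr := fun p r hr => by
    simp only; rw [if_neg (by omega)]; exact B.zr _ _ (by omega)
  ok := fun p w => A.ok p.1 w ∧ B.ok p.2 w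

/-- A number-valued function computable in linear space. -/
def SN (σ : Type) {α : Type} [A : Enc σ α] (f : α → ℕ) : Prop :=
  ∃ F : List σ → (ℕ → ℕ) → ℕ, C A.dim F ∧ ∀ a w, A.ok a w → F w (A.regs a) = f a

@[fun_prop]
def SP (σ : Type) {α β : Type} [A : Enc σ α] [B : Enc σ β] (f : α → β) : Prop :=
  (∀ i < B.dim, SN σ (fun a => B.regs (f a) i)) ∧ ∀ a w, A.ok a w → B.ok (f a) w

variable {α β γ : Type} [A : Enc σ α] [B : Enc σ β] [D : Enc σ γ]

theorem sp_nat {f : α → ℕ} : SP σ f ↔ SN σ f := by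
  constructor
  · intro h; exact h.1 0 Nat.one_pos
  · intro h
    refine ⟨fun i hi => ?_, fun _ _ _ => trivial⟩
    obtain rfl : i = 0 := Nat.lt_one_iff.1 hi
    exact h

theorem sp_bool {f : α → Bool} : SP σ f ↔ SP σ (fun a => (f a).toNat) := by
  rw [sp_nat]
  constructor
  · intro h; exact h.1 0 Nat.one_pos
  · intro h
    refine ⟨fun i hi => ?_, fun _ _ _ => trivial⟩
    obtain rfl : i = 0 := Nat.lt_one_iff.1 hi
    exact h

theorem SP.of_eq {f g : α → β} (h : SP σ f) (e : ∀ a, f a = g a) : SP σ g :=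
  (funext e : f = g) ▸ h

@[fun_prop] theorem sp_id : SP σ (fun a : α => a) :=
  ⟨fun _ hi => ⟨_, C.var hi, fun _ _ _ => rfl⟩, fun _ _ h => h⟩

@[fun_prop] theorem sp_const (k : ℕ) : SP σ (fun _ : α => k) :=
  sp_nat.2 ⟨_, C.const _ k, fun _ _ _ => rfl⟩

theorem SN.comp {f : β → ℕ} {g : α → β} (hf : SN σ f) (hg : SP σ g) :
    SN σ (fun a => f (g a)) := by
  obtain ⟨F, hF, eF⟩ := hf
  choose! H hH eH using hg.1
  refine ⟨_, hF.comp hH, fun a w h => ?_⟩
  simp only
  rw [← eF (g a) w (hg.2 a w h)]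
  congr 1
  funext i
  split_ifs with hi
  · exact eH i hi a w h
  · exact (B.zr _ _ (by omega)).symm

@[fun_prop] theorem sp_comp {f : β → γ} {g : α → β} (hf : SP σ f) (hg : SP σ g) :
    SP σ (fun a => f (g a)) :=
  ⟨fun i hi => (hf.1 i hi).comp hg, fun a w h => hf.2 _ w (hg.2 a w h)⟩

@[fun_prop] theorem sp_pair {f : α → β} {g : α → γ} (hf : SP σ f) (hg : SP σ g) :
    SP σ (fun a => (f a, g a)) := by
  refine ⟨fun i hi => ?_, fun a w h => ⟨hf.2 a w h, hg.2 a w h⟩⟩
  by_cases h : i < B.dim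
  · simpa only [Enc.regs, h, if_true] using hf.1 i h
  · have hi' : i < B.dim + D.dim := hi
    simpa only [Enc.regs, h, if_false] using hg.1 (i - B.dim) (by omega)

@[fun_prop] theorem sp_fst {f : α → β × γ} (hf : SP σ f) : SP σ (fun a => (f a).1) := by
  refine ⟨fun i hi => ?_, fun a w h => (hf.2 a w h).1⟩
  have := hf.1 i (show i < B.dim + D.dim by omega)
  simpa only [Enc.regs, hi, if_true] using this

@[fun_prop] theorem sp_snd {f : α → β × γ} (hf : SP σ f) : SP σ (fun a => (f a).2) := by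
  refine ⟨fun i hi => ?_, fun a w h => (hf.2 a w h).2⟩
  have := hf.1 (B.dim + i) (show B.dim + i < B.dim + D.dim by omega)
  simpa only [Enc.regs, Nat.add_sub_cancel_left, show ¬ (B.dim + i < B.dim) by omega,
    if_false] using this

/-- Size of an encoded value. -/
def esz (σ : Type) {α : Type} [A : Enc σ α] (a : α) : ℕ := sz A.dim (A.regs a)

@[simp] theorem esz_nat (a : ℕ) : esz σ a = a := by simp [esz, sz, Enc.dim, Enc.regs]

@[simp] theorem esz_word (a : List σ) : esz σ a = 0 := by simp [esz, sz, Enc.dim]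

@[simp] theorem esz_prod (p : α × β) : esz σ p = esz σ p.1 + esz σ p.2 := by
  simp only [esz, sz, Enc.dim, Enc.regs, Finset.sum_range_add]
  congr 1
  · exact Finset.sum_congr rfl fun r hr => by rw [if_pos (Finset.mem_range.1 hr)]
  · exact Finset.sum_congr rfl fun r _ => by rw [if_neg (by omega), Nat.add_sub_cancel_left]

theorem SP.bound {f : α → ℕ} (hf : SP σ f) :
    ∃ c, ∀ a w, A.ok a w → f a ≤ (esz σ a + 2) ^ c := by
  obtain ⟨F, hF, eF⟩ := sp_nat.1 hf
  obtain ⟨c, hc⟩ := hF.bound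
  exact ⟨c, fun a w h => eF a w h ▸ hc w _ (A.zr a)⟩

theorem regs_triple (a : α) (u i : ℕ) :
    Enc.regs σ (a, u, i) = update (update (A.regs a) A.dim u) (A.dim + 1) i := by
  funext r
  simp only [Enc.regs, Enc.dim]
  by_cases e1 : r = A.dim + 1
  · subst e1; simp
  · rw [update_of_ne e1]
    by_cases e0 : r = A.dim
    · subst e0; simp
    · rw [update_of_ne e0]
      split_ifs <;> first | rfl | omega | exact (A.zr _ _ (by omega)).symm

theorem SP.congr {f g : α → β} (h : SP σ f) (e : ∀ a w, A.ok a w → f a = g a) : SP σ g := by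
  refine ⟨fun i hi => ?_, fun a w ha => e a w ha ▸ h.2 a w ha⟩
  obtain ⟨F, hF, eF⟩ := h.1 i hi
  exact ⟨F, hF, fun a w ha => by simp only [← e a w ha]; exact eF a w ha⟩

@[fun_prop] theorem sp_add {f g : α → ℕ} (hf : SP σ f) (hg : SP σ g) :
    SP σ (fun a => f a + g a) := by
  obtain ⟨F, hF, eF⟩ := sp_nat.1 hf
  obtain ⟨G, hG, eG⟩ := sp_nat.1 hg
  exact sp_nat.2 ⟨_, hF.add hG, fun a w h => by simp only [eF a w h, eG a w h]⟩

@[fun_prop] theorem sp_sub {f g : α → ℕ} (hf : SP σ f) (hg : SP σ g) :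
    SP σ (fun a => f a - g a) := by
  obtain ⟨F, hF, eF⟩ := sp_nat.1 hf
  obtain ⟨G, hG, eG⟩ := sp_nat.1 hg
  exact sp_nat.2 ⟨_, hF.sub hG, fun a w h => by simp only [eF a w h, eG a w h]⟩

@[fun_prop] theorem sp_mul {f g : α → ℕ} (hf : SP σ f) (hg : SP σ g) :
    SP σ (fun a => f a * g a) := by
  obtain ⟨F, hF, eF⟩ := sp_nat.1 hf
  obtain ⟨G, hG, eG⟩ := sp_nat.1 hg
  exact sp_nat.2 ⟨_, hF.mul hG, fun a w h => by simp only [eF a w h, eG a w h]⟩

theorem sp_repT_nat {n init U : α → ℕ} {f : α → ℕ → ℕ → ℕ} (hn : SP σ n) (hi : SP σ init)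
    (hU : SP σ U) (hf : SP σ (fun p : α × ℕ × ℕ => f p.1 p.2.1 p.2.2)) :
    SP σ (fun a => rep (n a) (fun i u => min (f a i u) (U a)) (init a)) := by
  have hf' : SP σ (fun p : α × ℕ × ℕ => f p.1 p.2.2 p.2.1) :=
    sp_comp (g := fun p : α × ℕ × ℕ => (p.1, p.2.2, p.2.1)) hf (by fun_prop)
  obtain ⟨N, hN, eN⟩ := sp_nat.1 hn
  obtain ⟨I, hI, eI⟩ := sp_nat.1 hi
  obtain ⟨V, hV, eV⟩ := sp_nat.1 hU
  obtain ⟨S, hS, eS⟩ := sp_nat.1 hf'
  refine sp_nat.2 ⟨_, C.loopT hN hI hS hV, fun a w h => ?_⟩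
  simp only [eN a w h, eI a w h, eV a w h]
  congr 1
  funext i u
  rw [← regs_triple, eS (a, u, i) w ⟨h, trivial, trivial⟩]

theorem sp_esz : SP σ (fun a : α => esz σ a) := by
  have : ∀ n ≤ A.dim, SP σ (fun a : α => sz n (A.regs a)) := by
    intro n hn
    induction n with
    | zero => exact sp_const 0
    | succ n ih =>
      have h1 : SP σ (fun a : α => A.regs a n) := sp_nat.2 (sp_id.1 n (by omega))
      exact (sp_add (ih (by omega)) h1).of_eq fun a => by simp [sz, Finset.sum_range_succ]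
  exact this _ le_rfl

theorem sp_pow_const {f : α → ℕ} (hf : SP σ f) (c : ℕ) : SP σ (fun a => f a ^ c) := by
  induction c with
  | zero => exact sp_const 1
  | succ c ih => exact sp_mul ih hf

theorem rep_min_eq {n U a : ℕ} {f : ℕ → ℕ → ℕ} (h : ∀ i ≤ n, rep i f a ≤ U) :
    rep n (fun i u => min (f i u) U) a = rep n f a := by
  induction n with
  | zero => rfl
  | succ n ih =>
    rw [rep_succ, ih (fun i hi => h i (by omega)), rep_succ]
    exact min_eq_left (h (n + 1) le_rfl)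

theorem sp_rep_nat {n init : α → ℕ} {f : α → ℕ → ℕ → ℕ} (hn : SP σ n) (hi : SP σ init)
    (hf : SP σ (fun p : α × ℕ × ℕ => f p.1 p.2.1 p.2.2))
    (hb : ∃ c, ∀ a w, A.ok a w → ∀ i ≤ n a, rep i (f a) (init a) ≤ (esz σ a + 2) ^ c) :
    SP σ (fun a => rep (n a) (f a) (init a)) := by
  obtain ⟨c, hc⟩ := hb
  exact (sp_repT_nat hn hi (sp_pow_const (sp_add sp_esz (sp_const 2)) c) hf).congr
    fun a w h => rep_min_eq (hc a w h)

theorem sp_inp [Finite σ] (φ : Option σ → ℕ) :
    SP σ (fun p : List σ × ℕ => φ p.1[p.2]?) :=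
  sp_nat.2 ⟨_, C.inp φ, fun a w h => by
    obtain ⟨h1, -⟩ := h
    obtain rfl : a.1 = w := h1
    rfl⟩

end Vale.Agent.P312
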