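import Vale.Agent.P312.SP

/-! Library of linear-space computable functions. -/

namespace Vale.Agent.P312

open Function

variable {σ : Type} {α β γ : Type} [A : Enc σ α] [B : Enc σ β] [D : Enc σ γ]

theorem sp_ifz {c f g : α → ℕ} (hc : SP σ c) (hf : SP σ f) (hg : SP σ g) :
    SP σ (fun a => if c a = 0 then f a else g a) := by
  have : SP σ (fun a => (1 - c a) * f a + (1 - (1 - c a)) * g a) := by fun_prop
  refine this.of_eq fun a => ?_
  split_ifs with h
  · simp [h]
  · simp [show 1 - c a = 0 by omega]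

@[fun_prop] theorem sp_ite {p : α → Prop} [DecidablePred p] {f g : α → β}
    (hp : SP σ (fun a => decide (p a))) (hf : SP σ f) (hg : SP σ g) :
    SP σ (fun a => if p a then f a else g a) := by
  refine ⟨fun i hi => ?_, fun a w h => ?_⟩
  · have := sp_ifz (sp_bool.1 hp) (sp_nat.2 (hg.1 i hi)) (sp_nat.2 (hf.1 i hi))
    refine sp_nat.1 (this.of_eq fun a => ?_)
    by_cases h : p a <;> simp [h]
  · simp only
    split_ifs
    · exact hf.2 a w h
    · exact hg.2 a w h

@[fun_prop] theorem sp_le {f g : α → ℕ} (hf : SP σ f) (hg : SP σ g) :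
    SP σ (fun a => decide (f a ≤ g a)) := by
  have : SP σ (fun a => 1 - (f a - g a)) := by fun_prop
  refine sp_bool.2 (this.of_eq fun a => ?_)
  by_cases h : f a ≤ g a <;> simp [h]; omega

@[fun_prop] theorem sp_lt {f g : α → ℕ} (hf : SP σ f) (hg : SP σ g) :
    SP σ (fun a => decide (f a < g a)) := by
  have : SP σ (fun a => 1 - (f a + 1 - g a)) := by fun_prop
  refine sp_bool.2 (this.of_eq fun a => ?_)
  by_cases h : f a < g a <;> simp [h] <;> omega

@[fun_prop] theorem sp_eq {f g : α → ℕ} (hf : SP σ f) (hg : SP σ g) :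
    SP σ (fun a => decide (f a = g a)) := by
  have : SP σ (fun a => 1 - ((f a - g a) + (g a - f a))) := by fun_prop
  refine sp_bool.2 (this.of_eq fun a => ?_)
  by_cases h : f a = g a <;> simp [h]; omega

@[fun_prop] theorem sp_and {p q : α → Prop} [DecidablePred p] [DecidablePred q]
    (hp : SP σ (fun a => decide (p a))) (hq : SP σ (fun a => decide (q a))) :
    SP σ (fun a => decide (p a ∧ q a)) := by
  refine sp_bool.2 ((sp_mul (sp_bool.1 hp) (sp_bool.1 hq)).of_eq fun a => ?_)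
  by_cases h : p a <;> by_cases h' : q a <;> simp [h, h']

@[fun_prop] theorem sp_min {f g : α → ℕ} (hf : SP σ f) (hg : SP σ g) :
    SP σ (fun a => min (f a) (g a)) := by
  have : SP σ (fun a => f a - (f a - g a)) := by fun_prop
  exact this.of_eq fun a => by omega

@[fun_prop] theorem sp_max {f g : α → ℕ} (hf : SP σ f) (hg : SP σ g) :
    SP σ (fun a => max (f a) (g a)) := by
  have : SP σ (fun a => f a + (g a - f a)) := by fun_prop
  exact this.of_eq fun a => by omega

theorem rep_count {p : ℕ → Prop} [DecidablePred p] (m : ℕ) (hp : ∀ q, p (q + 1) ↔ q + 1 ≤ m)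
    (n : ℕ) : rep n (fun _ q => if p (q + 1) then q + 1 else q) 0 = min n m := by
  induction n with
  | zero => simp
  | succ n ih =>
    rw [rep_succ, ih]
    simp only [hp]
    split_ifs <;> omega

theorem sp_div2 : SP σ (fun p : ℕ × ℕ => p.1 / p.2) := by
  have h1 : SP σ (fun p : ℕ × ℕ =>
      rep p.1 (fun _ q => if (q + 1) * p.2 ≤ p.1 ∧ 0 < p.2 then q + 1 else q) 0) := by
    refine sp_rep_nat (by fun_prop) (by fun_prop) (by fun_prop) ⟨1, fun a _ _ i hi => ?_⟩
    have : ∀ i, rep i (fun _ q => if (q + 1) * a.2 ≤ a.1 ∧ 0 < a.2 then q + 1 else q) 0 ≤ i := by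
      intro i
      induction i with
      | zero => simp
      | succ i ih => rw [rep_succ]; split_ifs <;> omega
    have := this i
    simp; omega
  refine h1.of_eq fun p => ?_
  rw [rep_count (p := fun q => q * p.2 ≤ p.1 ∧ 0 < p.2) (p.1 / p.2)]
  · exact min_eq_right (Nat.div_le_self _ _)
  · intro q
    rcases Nat.eq_zero_or_pos p.2 with h | h
    · simp [h]
    · simp [h, Nat.le_div_iff_mul_le h]

@[fun_prop] theorem sp_div {f g : α → ℕ} (hf : SP σ f) (hg : SP σ g) :
    SP σ (fun a => f a / g a) := sp_comp (f := fun p : ℕ × ℕ => p.1 / p.2) sp_div2 (sp_pair hf hg)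

@[fun_prop] theorem sp_mod {f g : α → ℕ} (hf : SP σ f) (hg : SP σ g) :
    SP σ (fun a => f a % g a) := by
  have : SP σ (fun a => f a - g a * (f a / g a)) := by fun_prop
  exact this.of_eq fun a => by rw [Nat.mod_def]

@[fun_prop] theorem sp_sqrt : SP σ Nat.sqrt := by
  have h1 : SP σ (fun n : ℕ =>
      rep n (fun _ q => if (q + 1) * (q + 1) ≤ n then q + 1 else q) 0) := by
    refine sp_rep_nat (by fun_prop) (by fun_prop) (by fun_prop) ⟨1, fun a _ _ i hi => ?_⟩
    rw [rep_count (p := fun q => q * q ≤ a) (Nat.sqrt a) (fun q => Nat.le_sqrt.symm)]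
    simp; omega
  refine h1.of_eq fun p => ?_
  rw [rep_count (p := fun q => q * q ≤ p) (Nat.sqrt p) (fun q => Nat.le_sqrt.symm)]
  exact min_eq_right (Nat.sqrt_le_self _)

@[fun_prop] theorem sp_natpair {f g : α → ℕ} (hf : SP σ f) (hg : SP σ g) :
    SP σ (fun a => Nat.pair (f a) (g a)) := by
  unfold Nat.pair; fun_prop

@[fun_prop] theorem sp_unpair : SP σ Nat.unpair := by
  unfold Nat.unpair; fun_prop

/-! Loops on tuples. -/

class Code (σ : Type) (β : Type) [B : Enc σ β] where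
  enc : β → ℕ
  dec : ℕ → β
  dec_enc : ∀ b, dec (enc b) = b
  sp_enc : SP σ enc
  sp_dec : SP σ dec
  tr : ℕ → β → β
  sp_tr : SP σ (fun p : ℕ × β => tr p.1 p.2)
  esz_tr : ∀ U b, esz σ (tr U b) ≤ B.dim * U
  ok_all : ∀ b w, B.ok b w

instance codeNat : Code σ ℕ where
  enc := fun a => a
  dec := fun a => a
  dec_enc := fun _ => rfl
  sp_enc := sp_id
  sp_dec := sp_id
  tr := fun U a => min a U
  sp_tr := by fun_prop
  esz_tr := fun U b => by simp [Enc.dim]
  ok_all := fun _ _ => trivial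

instance codeProd [X : Code σ β] [Y : Code σ γ] : Code σ (β × γ) where
  enc := fun p => Nat.pair (X.enc p.1) (Y.enc p.2)
  dec := fun n => (X.dec n.unpair.1, Y.dec n.unpair.2)
  dec_enc := fun p => by simp [X.dec_enc, Y.dec_enc]
  sp_enc := by
    have := X.sp_enc
    have := Y.sp_enc
    fun_prop
  sp_dec := by
    have := X.sp_dec
    have := Y.sp_dec
    fun_prop
  tr := fun U p => (X.tr U p.1, Y.tr U p.2)
  sp_tr := sp_pair
    (sp_comp (g := fun p : ℕ × β × γ => (p.1, p.2.1)) X.sp_tr (by fun_prop))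
    (sp_comp (g := fun p : ℕ × β × γ => (p.1, p.2.2)) Y.sp_tr (by fun_prop))
  esz_tr := fun U p => by
    have h1 := X.esz_tr U p.1
    have h2 := Y.esz_tr U p.2
    simp only [esz_prod, Enc.dim, add_mul]
    omega
  ok_all := fun p w => ⟨X.ok_all _ _, Y.ok_all _ _⟩

theorem SP.bound' {f : α → β} (hf : SP σ f) :
    ∃ c, ∀ a w, A.ok a w → esz σ (f a) ≤ (esz σ a + 2) ^ c :=
  (sp_comp sp_esz hf).bound

theorem sp_rep [X : Code σ β] {n : α → ℕ} {init : α → β} {f : α → ℕ → β → β} (hn : SP σ n)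
    (hi : SP σ init) (hf : SP σ (fun p : α × ℕ × β => f p.1 p.2.1 p.2.2))
    (hb : ∃ c, ∀ a w, A.ok a w → ∀ i ≤ n a, esz σ (rep i (f a) (init a)) ≤ (esz σ a + 2) ^ c) :
    SP σ (fun a => rep (n a) (f a) (init a)) := by
  have e : ∀ a i, rep i (fun j u => X.enc (f a j (X.dec u))) (X.enc (init a)) =
      X.enc (rep i (f a) (init a)) := by
    intro a i
    induction i with
    | zero => rfl
    | succ i ih => rw [rep_succ, ih, X.dec_enc, rep_succ]
  have he := X.sp_enc
  have hd := X.sp_dec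
  obtain ⟨c, hc⟩ := hb
  obtain ⟨d, hd'⟩ := he.bound
  have h1 : SP σ (fun a => rep (n a) (fun j u => X.enc (f a j (X.dec u))) (X.enc (init a))) := by
    refine sp_rep_nat hn (by fun_prop) (sp_comp he
      (sp_comp (g := fun p : α × ℕ × ℕ => (p.1, p.2.1, X.dec p.2.2)) hf (by fun_prop)))
      ⟨(c + 2) * d, fun a w h i hi => ?_⟩
    rw [e]
    refine le_trans (hd' _ w (X.ok_all _ _)) (pw_comp d ?_)
    have := pw_add (hc a w h i hi)
    omega
  exact (sp_comp hd h1).of_eq fun a => by rw [e, X.dec_enc]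

/-- Truncated iteration. -/
def repT (σ : Type) {β : Type} [Enc σ β] [X : Code σ β] (U n : ℕ) (f : ℕ → β → β) (a : β) : β :=
  rep n (fun i u => X.tr U (f i u)) a

@[fun_prop] theorem sp_repT [X : Code σ β] {U n : α → ℕ} {init : α → β} {f : α → ℕ → β → β}
    (hU : SP σ U) (hn : SP σ n)
    (hf : SP σ (fun p : α × ℕ × β => f p.1 p.2.1 p.2.2)) (hi : SP σ init) :
    SP σ (fun a => repT σ (U a) (n a) (f a) (init a)) := by
  obtain ⟨c, hc⟩ := hi.bound'
  have hU' : SP σ (fun a => B.dim * U a) := by fun_prop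
  obtain ⟨d, hd⟩ := hU'.bound
  refine sp_rep hn hi (sp_comp (g := fun p : α × ℕ × β => (U p.1, f p.1 p.2.1 p.2.2))
    X.sp_tr (by fun_prop)) ⟨c + d, fun a w h i _ => ?_⟩
  cases i with
  | zero => exact le_trans (hc a w h) (pw_mono _ (by omega))
  | succ i =>
    exact le_trans (X.esz_tr _ _) (le_trans (hd a w h) (pw_mono _ (by omega)))

theorem repT_eq [X : Code σ β] {U n : ℕ} {f : ℕ → β → β} {a : β}
    (h : ∀ i < n, X.tr U (rep (i + 1) f a) = rep (i + 1) f a) : repT σ U n f a = rep n f a := by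
  induction n with
  | zero => rfl
  | succ n ih =>
    unfold repT at ih ⊢
    rw [rep_succ, ih (fun i hi => h i (by omega))]
    exact h n (by omega)

theorem tr_nat {U a : ℕ} (h : a ≤ U) : Code.tr σ U a = a := min_eq_left h

theorem tr_prod [X : Code σ β] [Y : Code σ γ] (U : ℕ) (p : β × γ) :
    Code.tr σ U p = (X.tr U p.1, Y.tr U p.2) := rfl

/-! Sums, products and digits. -/

def sumMod (p n : ℕ) (f : ℕ → ℕ) : ℕ := rep n (fun i u => (u + f i) % p) 0
def prodMod (p n : ℕ) (f : ℕ → ℕ) : ℕ := rep n (fun i u => (u * f i) % (p - 1 + 1)) 1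

theorem sumMod_cast (p n : ℕ) (f : ℕ → ℕ) :
    (sumMod p n f : ZMod p) = ∑ i ∈ Finset.range n, (f i : ZMod p) := by
  induction n with
  | zero => simp [sumMod]
  | succ n ih =>
    unfold sumMod at ih ⊢
    rw [rep_succ, Finset.sum_range_succ, ← ih]; simp

theorem prodMod_cast {p : ℕ} (hp : 0 < p) (n : ℕ) (f : ℕ → ℕ) :
    (prodMod p n f : ZMod p) = ∏ i ∈ Finset.range n, (f i : ZMod p) := by
  induction n with
  | zero => simp [prodMod]
  | succ n ih =>
    unfold prodMod at ih ⊢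
    rw [rep_succ, Finset.prod_range_succ, ← ih, Nat.sub_add_cancel hp]; simp

@[fun_prop] theorem sp_prodMod {p n : α → ℕ} {f : α → ℕ → ℕ} (hp : SP σ p) (hn : SP σ n)
    (hf : SP σ (fun q : α × ℕ => f q.1 q.2)) : SP σ (fun a => prodMod (p a) (n a) (f a)) := by
  obtain ⟨c, hc⟩ := hp.bound
  have hf' : SP σ (fun q : α × ℕ × ℕ => f q.1 q.2.1) :=
    sp_comp (g := fun q : α × ℕ × ℕ => (q.1, q.2.1)) hf (by fun_prop)
  refine sp_rep_nat hn (by fun_prop) (by fun_prop) ⟨c, fun a w h i _ => ?_⟩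
  have h1 := hc a w h
  have h2 : 0 < (esz σ a + 2) ^ c := by positivity
  cases i with
  | zero => exact h2
  | succ i =>
    rw [rep_succ]
    have := Nat.mod_lt (rep i (fun i u => u * f a i % (p a - 1 + 1)) 1 * f a i)
      (show 0 < p a - 1 + 1 by omega)
    omega

def sumMod' (p n : ℕ) (f : ℕ → ℕ) : ℕ := rep n (fun i u => (u + f i) % (p - 1 + 1)) 0

theorem sumMod'_cast {p : ℕ} (hp : 0 < p) (n : ℕ) (f : ℕ → ℕ) :
    (sumMod' p n f : ZMod p) = ∑ i ∈ Finset.range n, (f i : ZMod p) := by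
  rw [← sumMod_cast, sumMod', Nat.sub_add_cancel hp]; rfl

@[fun_prop] theorem sp_sumMod' {p n : α → ℕ} {f : α → ℕ → ℕ} (hp : SP σ p) (hn : SP σ n)
    (hf : SP σ (fun q : α × ℕ => f q.1 q.2)) : SP σ (fun a => sumMod' (p a) (n a) (f a)) := by
  obtain ⟨c, hc⟩ := hp.bound
  have hf' : SP σ (fun q : α × ℕ × ℕ => f q.1 q.2.1) :=
    sp_comp (g := fun q : α × ℕ × ℕ => (q.1, q.2.1)) hf (by fun_prop)
  refine sp_rep_nat hn (by fun_prop) (by fun_prop) ⟨c, fun a w h i _ => ?_⟩
  have h1 := hc a w h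
  cases i with
  | zero => exact Nat.zero_le _
  | succ i =>
    rw [rep_succ]
    have := Nat.mod_lt (rep i (fun i u => (u + f a i) % (p a - 1 + 1)) 0 + f a i)
      (show 0 < p a - 1 + 1 by omega)
    omega

/-- Digit `j` of `x` in base `b`. -/
def dig (b x j : ℕ) : ℕ := x / b ^ j % b

theorem rep_div (b x j : ℕ) : rep j (fun _ u => u / b) x = x / b ^ j := by
  induction j with
  | zero => simp
  | succ j ih => rw [rep_succ, ih, Nat.div_div_eq_div_mul, pow_succ]

@[fun_prop] theorem sp_dig {b x j : α → ℕ} (hb : SP σ b) (hx : SP σ x) (hj : SP σ j) :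
    SP σ (fun a => dig (b a) (x a) (j a)) := by
  obtain ⟨c, hc⟩ := hx.bound
  have : SP σ (fun a => rep (j a) (fun _ u => u / b a) (x a)) := by
    refine sp_rep_nat hj hx (by fun_prop) ⟨c, fun a w h i _ => ?_⟩
    rw [rep_div]
    exact le_trans (Nat.div_le_self _ _) (hc a w h)
  exact (sp_mod this hb).of_eq fun a => by rw [rep_div]; rfl

/-- The number with digits `f 0, …, f (n-1)` in base `b`. -/
def mk (b : ℕ) : ℕ → (ℕ → ℕ) → ℕ
  | 0, _ => 0
  | n + 1, f => f 0 + b * mk b n (fun j => f (j + 1))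

theorem mk_congr (b n : ℕ) : ∀ {f g : ℕ → ℕ}, (∀ j < n, f j = g j) → mk b n f = mk b n g := by
  induction n with
  | zero => intros; rfl
  | succ n ih =>
    intro f g h
    rw [mk, mk, h 0 (by omega), ih (g := fun j => g (j + 1)) (fun j hj => h _ (by omega))]

theorem mk_lt {b : ℕ} (n : ℕ) : ∀ {f : ℕ → ℕ}, (∀ j < n, f j < b) → mk b n f < b ^ n := by
  induction n with
  | zero => intros; simp [mk]
  | succ n ih =>
    intro f h
    have h1 := ih (f := fun j => f (j + 1)) (fun j hj => h _ (by omega))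
    have h2 := h 0 (by omega)
    rw [mk, pow_succ]
    nlinarith

theorem dig_zero (b x : ℕ) : dig b x 0 = x % b := by simp [dig]

theorem dig_succ (b x j : ℕ) : dig b x (j + 1) = dig b (x / b) j := by
  simp only [dig, Nat.div_div_eq_div_mul, pow_succ']

theorem dig_lt {b : ℕ} (hb : 0 < b) (x j : ℕ) : dig b x j < b := Nat.mod_lt _ hb

theorem dig_mk {b : ℕ} (n : ℕ) : ∀ {f : ℕ → ℕ}, (∀ j < n, f j < b) → ∀ j < n,
    dig b (mk b n f) j = f j := by
  induction n with
  | zero => intro f _ j hj; omega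
  | succ n ih =>
    intro f h j hj
    have h2 := h 0 (by omega)
    cases j with
    | zero => rw [dig_zero, mk, Nat.add_mul_mod_self_left, Nat.mod_eq_of_lt h2]
    | succ j =>
      rw [dig_succ, mk, Nat.add_mul_div_left _ _ (by omega), Nat.div_eq_of_lt h2, Nat.zero_add]
      exact ih (f := fun j => f (j + 1)) (fun j hj => h _ (by omega)) j (by omega)

theorem mk_dig {b : ℕ} (n : ℕ) : ∀ {x : ℕ}, x < b ^ n → mk b n (dig b x) = x := by
  induction n with
  | zero => intro x h; simp at h; simp [mk, h]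
  | succ n ih =>
    intro x h
    have hb : 0 < b := by
      rcases Nat.eq_zero_or_pos b with rfl | hb
      · simp at h
      · exact hb
    rw [mk, dig_zero, mk_congr b n (g := dig b (x / b)) (fun j _ => dig_succ b x j),
      ih (by rw [Nat.div_lt_iff_lt_mul hb]; exact h), Nat.mod_add_div]

theorem eq_of_dig {b n x y : ℕ} (hx : x < b ^ n) (hy : y < b ^ n)
    (h : ∀ j < n, dig b x j = dig b y j) : x = y := by
  rw [← mk_dig n hx, ← mk_dig n hy]; exact mk_congr b n h

def mkT (σ : Type) (U b n : ℕ) (f : ℕ → ℕ) : ℕ :=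
  repT σ U n (fun i u => f (n - 1 - i) + b * u) 0

@[fun_prop] theorem sp_mkT {U b n : α → ℕ} {f : α → ℕ → ℕ} (hU : SP σ U) (hb : SP σ b)
    (hn : SP σ n) (hf : SP σ (fun q : α × ℕ => f q.1 q.2)) :
    SP σ (fun a => mkT σ (U a) (b a) (n a) (f a)) := by
  have hf' : SP σ (fun q : α × ℕ × ℕ => f q.1 (n q.1 - 1 - q.2.1)) :=
    sp_comp (g := fun q : α × ℕ × ℕ => (q.1, n q.1 - 1 - q.2.1)) hf (by fun_prop)
  unfold mkT
  fun_prop

theorem rep_mk (b n : ℕ) (f : ℕ → ℕ) (i : ℕ) (hi : i ≤ n) :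
    rep i (fun i u => f (n - 1 - i) + b * u) 0 = mk b i (fun j => f (n - i + j)) := by
  induction i with
  | zero => rfl
  | succ i ih =>
    rw [rep_succ, ih (by omega), mk]
    congr 1
    · congr 1; omega
    · congr 1
      exact mk_congr b i fun j _ => by congr 1; omega

theorem mkT_eq {U b n : ℕ} {f : ℕ → ℕ} (hf : ∀ j < n, f j < b) (hU : b ^ n ≤ U) :
    mkT σ U b n f = mk b n f := by
  rw [mkT, repT_eq, rep_mk b n f n le_rfl]
  · simp
  · intro i hi
    apply tr_nat
    rw [rep_mk b n f (i + 1) hi]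
    have h1 := mk_lt (i + 1) (f := fun j => f (n - (i + 1) + j)) (b := b)
      (fun j hj => hf _ (by omega))
    have h2 : b ^ (i + 1) ≤ b ^ n :=
      Nat.pow_le_pow_right (lt_of_le_of_lt (Nat.zero_le _) (hf 0 (by omega))) hi
    omega

def powT (σ : Type) (U b n : ℕ) : ℕ := repT σ U n (fun _ u => u * b) 1

@[fun_prop] theorem sp_powT {U b n : α → ℕ} (hU : SP σ U) (hb : SP σ b) (hn : SP σ n) :
    SP σ (fun a => powT σ (U a) (b a) (n a)) := by
  unfold powT; fun_prop

theorem rep_mul_pow (b n : ℕ) : rep n (fun _ u => u * b) 1 = b ^ n := by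
  induction n with
  | zero => rfl
  | succ n ih => rw [rep_succ, ih, pow_succ]

theorem powT_eq {U b n : ℕ} (hb : 0 < b) (hU : b ^ n ≤ U) : powT σ U b n = b ^ n := by
  rw [powT, repT_eq, rep_mul_pow]
  intro i hi
  apply tr_nat
  rw [rep_mul_pow]
  exact le_trans (Nat.pow_le_pow_right hb hi) hU

/-! Finite tables. -/

theorem sp_table (N : ℕ) : ∀ f : ℕ → ℕ, (∀ n, N ≤ n → f n = 0) → SP σ f := by
  induction N with
  | zero => intro f h; exact (sp_const 0).of_eq fun a => (h a (Nat.zero_le _)).symm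
  | succ N ih =>
    intro f h
    have h1 := ih (fun n => if n = N then 0 else f n) (fun n hn => by
      split_ifs
      · rfl
      · exact h n (by omega))
    have h2 : SP σ (fun n : ℕ => if n = N then f N else (if n = N then 0 else f n)) :=
      sp_ite (by fun_prop) (by fun_prop) h1
    exact h2.of_eq fun a => by split_ifs <;> simp_all

end Vale.Agent.P312
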