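import Vale.Agent.P312.Epoch

/-! The node values satisfy the recursion used by the register program. -/

namespace Vale.Agent.P312

variable {σ : Type} {N : NM σ}

def val (N : NM σ) (x : X σ) (g i : ℕ) : ℕ :=
  BB N x (base x.2.1 g * x.2.1) i + N.G ^ (x.2.1 * x.2.1) *
    mk (2 ^ pe N x.2.1) (g % x.2.1 * x.2.1 + 1) (fun a => RR N x (base x.2.1 g * x.2.1 + a))

theorem base_mul (b g : ℕ) : base b g * b + g % b * b = g * b := by
  rw [← add_mul, base, Nat.sub_add_cancel (Nat.mod_le _ _)]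

theorem base_eq (b g : ℕ) : base b g = b * (g / b) := by
  have := Nat.div_add_mod g b
  unfold base; omega

theorem base_base (b g : ℕ) : base b (base b g) = base b g := by
  rw [base_eq b g, base, Nat.mul_mod_right]; rfl

theorem succ_mod_of {b g : ℕ} (hb : 0 < b) (h : g % b + 1 ≠ b) : (g + 1) % b = g % b + 1 := by
  have := Nat.mod_lt g hb
  conv_lhs => rw [← Nat.div_add_mod g b, add_assoc, Nat.mul_add_mod]
  exact Nat.mod_eq_of_lt (by omega)

theorem succ_mod_of' {b g : ℕ} (h : g % b + 1 = b) : (g + 1) % b = 0 := by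
  conv_lhs => rw [← Nat.div_add_mod g b, add_assoc, Nat.mul_add_mod, h, Nat.mod_self]

theorem val_mod (x : X σ) (g i : ℕ) :
    val N x g i % N.G ^ (x.2.1 * x.2.1) = BB N x (base x.2.1 g * x.2.1) i := by
  rw [val, Nat.add_mul_mod_self_left]; exact Nat.mod_eq_of_lt (cont_lt _ _ _)

theorem val_div (x : X σ) (g i : ℕ) : val N x g i / N.G ^ (x.2.1 * x.2.1) =
    mk (2 ^ pe N x.2.1) (g % x.2.1 * x.2.1 + 1) (fun a => RR N x (base x.2.1 g * x.2.1 + a)) := by
  rw [val, Nat.add_mul_div_left _ _ (pow_pos G_pos _), BB, Nat.div_eq_of_lt (cont_lt _ _ _),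
    Nat.zero_add]

theorem GoodX.hist {x : X σ} (h : GoodX N x) (g i Z j : ℕ)
    (hZ : ∀ a ≤ j, dig (2 ^ pe N x.2.1) Z a = RR N x (g * x.2.1 + a)) (a : ℕ)
    (ha : a ≤ g % x.2.1 * x.2.1 + j) :
    hist N x g Z (val N x g i) a = RR N x (base x.2.1 g * x.2.1 + a) := by
  unfold P312.hist
  rw [h.xD, h.xG, val_div]
  split_ifs with hc
  · rw [dig_mk _ (fun _ _ => h.RR_lt _) _ (by omega)]
  · rw [hZ _ (by omega)]
    have := base_mul x.2.1 g
    congr 1; omega

theorem GoodX.chk0 {x : X σ} (h : GoodX N x) (g i : ℕ) :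
    dig (P312.xD N x) (val N x g i / P312.xG N x) (g % x.2.1 * x.2.1) = RR N x (g * x.2.1) := by
  rw [h.xD, h.xG, val_div, dig_mk _ (fun _ _ => h.RR_lt _) _ (by omega), base_mul]

theorem GoodX.chk {x : X σ} (h : GoodX N x) (g i Z j : ℕ)
    (hZ : ∀ a ≤ j, dig (2 ^ pe N x.2.1) Z a = RR N x (g * x.2.1 + a)) :
    cchk N x g Z j (val N x g i) (val N x (base x.2.1 g) (cblk N x Z j)) =
      if RR N x (g * x.2.1 + (j + 1)) = dig (2 ^ pe N x.2.1) Z (j + 1) then 1 else 0 := by
  unfold cchk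
  rw [h.chk0, h.xG, val_mod, base_base,
    h.replay _ _ _ _ (fun a ha => h.hist g i Z j hZ a (by omega)), ← add_assoc, base_mul]
  unfold cblk
  rw [h.xD, hZ j le_rfl, hZ 0 (Nat.zero_le _), (h.epoch_RR _).1]
  simp [add_assoc]

theorem GoodX.spec {x : X σ} (h : GoodX N x) (Gn : ℕ) : (par N x).Spec Gn (val N x) := by
  have hb := h.b_pos
  refine ⟨fun i => ?_, fun g _ i => ?_, fun g _ i => ?_⟩
  · simp only [par, cinit, val, base, Nat.zero_mod, zero_mul, zero_add, P312.mk, mul_zero,
      add_zero, Nat.sub_self]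
    rw [h.xG, mkT_eq _ h.G_le]
    · rfl
    · exact fun j _ => (nrun_inv N x.1 (pT x.2.1 + x.2.2.2) 0).2.2 _
  · have h1 : BB N x (base x.2.1 g * x.2.1) i < N.G ^ (x.2.1 * x.2.1) := cont_lt _ _ _
    have h2 := mk_lt (g % x.2.1 * x.2.1 + 1) (b := 2 ^ pe N x.2.1)
      (f := fun a => RR N x (base x.2.1 g * x.2.1 + a)) (fun _ _ => h.RR_lt _)
    have h3 : (2 ^ pe N x.2.1) ^ (g % x.2.1 * x.2.1 + 1) ≤
        (2 ^ pe N x.2.1) ^ (x.2.1 * x.2.1 + 1) := by
      refine Nat.pow_le_pow_right (by positivity) ?_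
      have := Nat.mul_le_mul_right x.2.1 (Nat.mod_lt g hb).le
      omega
    have h4 := G_pow_le (N := N) (x.2.1 * x.2.1)
    simp only [par, pm, val]
    rw [pow_add, pow_mul 2 (pe N x.2.1)]
    calc _ < N.G ^ (x.2.1 * x.2.1) * (P312.mk (2 ^ pe N x.2.1) (g % x.2.1 * x.2.1 + 1)
          (fun a => RR N x (base x.2.1 g * x.2.1 + a)) + 1) := by rw [mul_add]; omega
      _ ≤ _ := Nat.mul_le_mul h4 (le_trans h2 h3)
  · set Z0 := P312.mk (2 ^ pe N x.2.1) (x.2.1 + 1) (fun a => RR N x (g * x.2.1 + a)) with hZ0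
    have d0 : ∀ a ≤ x.2.1, dig (2 ^ pe N x.2.1) Z0 a = RR N x (g * x.2.1 + a) := fun a ha =>
      dig_mk _ (fun _ _ => h.RR_lt _) _ (by omega)
    have l0 : Z0 < (2 ^ pe N x.2.1) ^ (x.2.1 + 1) := mk_lt _ (fun _ _ => h.RR_lt _)
    simp only [par]
    refine ⟨Z0, by rw [h.xZ]; exact l0, fun j hj => ?_, fun Z hZ hne => ?_, ?_⟩
    · rw [h.chk g i Z0 j (fun a ha => d0 a (by omega)), d0 _ hj, if_pos rfl]
    · by_contra hc
      push Not at hc
      apply hne
      have key : ∀ j ≤ x.2.1, ∀ a ≤ j, dig (2 ^ pe N x.2.1) Z a = RR N x (g * x.2.1 + a) := by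
        intro j
        induction j with
        | zero =>
          intro _ a ha
          obtain rfl : a = 0 := by omega
          have := hc 0 hb
          unfold cchk at this
          rw [h.chk0, h.xD] at this
          by_contra hd
          exact this (if_neg (fun hh => hd hh.1.symm))
        | succ j ih =>
          intro hj a ha
          by_cases e : a = j + 1
          · subst e
            have := hc j hj
            rw [h.chk g i Z j (ih (by omega))] at this
            by_contra hd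
            exact this (if_neg (fun hh => hd hh.symm))
          · exact ih (by omega) a (by omega)
      rw [h.xZ] at hZ
      exact eq_of_dig hZ l0 fun a ha => by rw [key _ le_rfl a (by omega), d0 a (by omega)]
    · have hh := h.hist g i Z0 x.2.1 d0
      have hm := base_mul x.2.1 g
      unfold cout
      rw [h.xG, val_mod, h.xD]
      split_ifs with hc
      · have e1 := succ_mod_of' hc
        have e2 : base x.2.1 (g + 1) = g + 1 := by simp [base, e1]
        have e3 : g % x.2.1 * x.2.1 + x.2.1 = x.2.1 * x.2.1 := by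
          conv_rhs => lhs; rw [← hc]
          ring
        have e4 : base x.2.1 g * x.2.1 + x.2.1 * x.2.1 = (g + 1) * x.2.1 := by
          rw [add_mul]; omega
        rw [h.replay _ _ _ _ (fun a ha => hh a (by omega)), d0 _ le_rfl, val, e1, e2, e4]
        simp [P312.mk, add_mul]
      · have e1 := succ_mod_of hb hc
        have e2 : base x.2.1 (g + 1) = base x.2.1 g := by simp only [base, e1]; omega
        have e3 : (g % x.2.1 + 1) * x.2.1 ≤ x.2.1 * x.2.1 :=
          Nat.mul_le_mul_right _ (Nat.mod_lt g hb)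
        have e4 : ∀ a < (g % x.2.1 + 1) * x.2.1 + 1, P312.hist N x g Z0 (val N x g i) a =
            RR N x (base x.2.1 g * x.2.1 + a) := fun a ha => hh a (by rw [add_mul] at ha; omega)
        rw [mkT_eq (fun a ha => by rw [e4 a ha]; exact h.RR_lt _) (h.D_pow (by omega)),
          mk_congr _ _ e4, val.eq_def N x (g + 1), e1, e2]

end Vale.Agent.P312
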